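import Vale.Agent.P253Y.An.Sk
import Vale.Agent.P253Y.G.Basic
import Vale.Agent.P253Y.G.Pos
import Vale.Agent.P253Y.G.Step

/-! P253, surfaces, blocks C and E: the algebraic rows. -/

set_option linter.all false

namespace Vale.Agent.P253Y.An

open Vale.Agent.P297Z Vale.Agent.P297Z.Sf Vale.Agent.P297Z.Sf.Mp

namespace AlgH

variable {K : Type} [Field K] [Algebra ℂ K] {S : Surf K}

theorem half {X Y : Sf.Div S.W} (h : ∀ Z, inter S.H Z = inter X Z + inter Y Z) (hX : 0 ≤ X)
    (hXY : inter Y X = 0) {C : Crv S.W} (hC : inter Y C.cl = 0) : 0 < inter X X := by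
  have h1 : X ≠ 0 := fun e => by
    have h2 := h C.cl
    rw [hC, e, i_zero] at h2
    exact (S.all.crv C).ne' h2
  obtain ⟨C', h2⟩ := Finsupp.ne_iff.1 h1
  have h3 := Rul.H_pos S.all hX h2
  rwa [h, hXY, add_zero] at h3

theorem div_inv (g : K) : div S.W g⁻¹ = -div S.W g := by
  ext C
  rw [Finsupp.neg_apply, div_apply S.all.toLoc2, div_apply S.all.toLoc2]
  exact Pl.ord_inv _ _

/-- A divisor of degree zero with a section is principal. -/
theorem prin {X : Sf.Div S.W} (h : H0 (-X) ≠ ⊥) (h0 : inter S.H X = 0) :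
    ∃ g : K, g ≠ 0 ∧ X = div S.W g := by
  obtain ⟨s, hs, s0⟩ := (Submodule.ne_bot_iff _).1 h
  have h1 := Hd.eq_zero_of_deg S.all (eff_of_mem S.all.toLoc2 hs s0) (by
    rw [i_add', i_div' s0, i_neg', h0, neg_zero, add_zero])
  exact ⟨s, s0, neg_add_eq_zero.1 h1⟩

/-- The canonical class is not nef. -/
theorem not_nef (h : 1 ≤ chi (0 : Sf.Div S.W)) (h1 : H0 S.kap = ⊥) (h2 : H0 (2 • S.kap) = ⊥) :
    ¬ S.Nef S.kap := by
  intro hN
  have hA := S.all
  have a1 := Hd.nef_sq hA hN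
  have a2 := hA.le (-S.kap)
  have a3 := hA.rr (-S.kap)
  rw [sub_neg_eq_add, ← two_nsmul, h0_bot h2] at a2
  simp only [i_neg, i_neg', neg_neg] at a3
  have a4 : H0 (-S.kap) ≠ ⊥ := Hd.ne_bot_of_pos (by omega)
  have a5 := Hd.nef_sec hA hN (Hd.H_sec hA)
  have a6 := Hd.nef_sec hA (Hd.nef_H hA) a4
  rw [i_neg', inter_comm] at a6
  obtain ⟨g, g0, e⟩ := prin a4 (by rw [inter_comm]; omega)
  have a7 := H0_div (inv_ne_zero g0) h1
  rw [div_inv, ← e, add_neg_cancel] at a7
  have a8 := h0_zero hA.toLoc2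
  rw [h0_bot a7] at a8
  exact zero_ne_one a8

end AlgH

open AlgH

theorem orth : ORTH := by
  classical
  intro K _ _ S A h
  by_contra hc
  rw [not_or] at hc
  obtain ⟨C₁, h1⟩ := Set.nonempty_iff_ne_empty.2 hc.1
  obtain ⟨C₂, h2⟩ := (Set.ne_univ_iff_exists_notMem A).1 hc.2
  have hA := S.all
  have key : ∀ X Y : Sf.Div S.W, (∀ C, X C ≠ 0 → C ∈ A) → (∀ C, Y C ≠ 0 → C ∉ A) →
      inter X Y = 0 := fun X Y hX hY => by
    rw [i_on (on_support X)]
    refine Finset.sum_eq_zero fun C hC => mul_eq_zero_of_right _ ?_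
    rw [i_on' (on_support Y)]
    exact Finset.sum_eq_zero fun C' hC' => mul_eq_zero_of_right _
      (h C (hX C (Finsupp.mem_support_iff.1 hC)) C' (hY C' (Finsupp.mem_support_iff.1 hC')))
  have hZ := eff_of_mem hA.toLoc2 (mem_H0_H hA.toLoc2 (S.x_mem 0)) (S.x_ne 0)
  have hH := fun Y => inter_lin hA.toRR S.H Y (S.x_ne 0)
  generalize S.H + div S.W (S.x 0) = Z at hZ hH
  have e := Finsupp.filter_pos_add_filter_neg Z (· ∈ A)
  have nn : ∀ (p : Crv S.W → Prop) [DecidablePred p], 0 ≤ Z.filter p := fun p _ C => by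
    rw [Finsupp.filter_apply]
    split_ifs
    exacts [hZ C, le_rfl]
  have sp : ∀ (p : Crv S.W → Prop) [DecidablePred p] C, Z.filter p C ≠ 0 → p C :=
    fun p _ C hC => by_contra fun o => hC (Finsupp.filter_apply_neg _ _ o)
  have cl : ∀ C C' : Crv S.W, C.cl C' ≠ 0 → C' = C := fun C C' o => by_contra fun e => o (cl_ne e)
  have a0 := key _ _ (sp (· ∈ A)) (sp (¬ · ∈ A))
  have a1 := half (X := Z.filter (· ∈ A)) (Y := Z.filter (¬ · ∈ A))
    (fun Y => by rw [← i_add, e, hH]) (nn _) (by rw [inter_comm, a0]) (C := C₁)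
    (by rw [inter_comm]; exact key _ _ (fun C o => cl _ _ o ▸ h1) (sp _))
  have a2 := half (X := Z.filter (¬ · ∈ A)) (Y := Z.filter (· ∈ A))
    (fun Y => by rw [add_comm, ← i_add, e, hH]) (nn _) a0 (C := C₂)
    (key _ _ (sp _) fun C o => cl _ _ o ▸ h2)
  exact (Hd.hodge' hA a1 a0).not_gt a2

theorem span : SPAN := by
  classical
  intro K _ _ S n A h
  have hA := S.all
  refine ⟨fun B => ?_, fun X => ?_⟩
  · let f : (Fin (n + 1) → ℤ) →ₗ[ℤ] (Fin n → ℤ) :=
      LinearMap.pi fun j => ∑ i, inter (B i) (A j) • LinearMap.proj i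
    have h1 : ¬ Function.Injective f := fun hf => by
      have h2 := LinearMap.finrank_le_finrank_of_injective hf
      simp at h2
    rw [injective_iff_map_eq_zero] at h1
    push Not at h1
    obtain ⟨c, h2, h3⟩ := h1
    refine ⟨c, h3, h _ fun j => ?_⟩
    have h4 := congrFun h2 j
    simp only [f, LinearMap.pi_apply, LinearMap.sum_apply, LinearMap.smul_apply,
      LinearMap.proj_apply, smul_eq_mul, Pi.zero_apply] at h4
    rw [PosH.inter_sum hA, ← h4]
    exact Finset.sum_congr rfl fun i _ => mul_comm _ _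
  let L : Sf.Div S.W → (Fin n → ℚ) →ₗ[ℚ] ℚ := fun Y =>
    ∑ i, (inter (A i) Y : ℚ) • LinearMap.proj i
  have hL : ∀ Y a, L Y a = ∑ i, a i * inter (A i) Y := fun Y a => by
    simp only [L, LinearMap.sum_apply, LinearMap.smul_apply, LinearMap.proj_apply, smul_eq_mul,
      mul_comm]
  have hZ : ∀ {a : Fin n → ℚ} {N : ℤ} {b : Fin n → ℤ}, (∀ i, (b i : ℚ) = N * a i) → ∀ Y,
      (inter (∑ i, b i • A i) Y : ℚ) = N * L Y a := fun {a N b} hb Y => by
    rw [PosH.inter_sum hA, hL, Finset.mul_sum]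
    push_cast
    exact Finset.sum_congr rfl fun C _ => by rw [hb, mul_assoc]
  have h1 : L X ∈ Submodule.span ℚ (Set.range fun i => L (A i)) := by
    refine mem_span_of_iInf_ker_le_ker fun a ha => ?_
    obtain ⟨N, b, hN, hb⟩ := PosH.clear a
    have h2 := h (∑ i, b i • A i) (fun j => by
      have h3 := hZ hb (A j)
      rw [LinearMap.mem_ker.1 ((Submodule.mem_iInf _).1 ha j), mul_zero] at h3
      exact_mod_cast h3) X
    have h4 := hZ hb X
    rw [h2, Int.cast_zero] at h4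
    exact (mul_eq_zero.1 h4.symm).resolve_left (by exact_mod_cast hN.ne')
  obtain ⟨y, hy⟩ := (Submodule.mem_span_range_iff_exists_fun ℚ).1 h1
  obtain ⟨N, b, hN, hb⟩ := PosH.clear y
  have h5 : ∀ Y i, L Y (Pi.single i 1) = inter (A i) Y := fun Y i => by
    rw [hL, Finset.sum_eq_single i (fun C' _ e => by rw [Pi.single_eq_of_ne e, zero_mul])
      (fun e => (e (Finset.mem_univ _)).elim), Pi.single_eq_same, one_mul]
  refine ⟨N, hN, b, h _ fun j => ?_⟩
  have h8 := LinearMap.congr_fun hy (Pi.single j 1)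
  simp only [LinearMap.sum_apply, LinearMap.smul_apply, h5, smul_eq_mul, inter_comm (A j)] at h8
  have h9 := hZ hb (A j)
  rw [hL, h8] at h9
  rw [i_sub, i_smul, sub_eq_zero]
  exact_mod_cast h9.symm

theorem picn : PICN := by
  intro K _ _ S h1 h2 X hX
  have hA := S.all
  have h0 : inter S.H X = 0 := by rw [inter_comm, hX]
  by_cases a1 : H0 (-X) = ⊥
  swap
  · exact prin a1 h0
  by_cases a2 : H0 X = ⊥
  swap
  · obtain ⟨g, g0, e⟩ := prin (X := -X) (by rwa [neg_neg]) (by rw [i_neg', h0, neg_zero])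
    exact ⟨g⁻¹, inv_ne_zero g0, by rw [div_inv, ← e, neg_neg]⟩
  have b1 := hA.le X
  have b2 := hA.rr X
  have b3 := hA.le (-X)
  have b4 := hA.rr (-X)
  rw [h0_bot a2] at b1
  rw [h0_bot a1] at b3
  simp only [i_neg, i_neg', inter_comm S.kap X, hX _] at b2 b4
  have b5 := Hd.h0_le_add hA (X := S.kap - X) (Y := S.kap - -X) (Hd.ne_bot_of_pos (by omega))
  rw [show S.kap - X + (S.kap - -X) = 2 • S.kap by rw [two_nsmul]; abel, h0_bot h2] at b5
  omega

theorem nefk (h : Mp.CN1) : NEFK := by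
  intro n
  induction n with
  | zero =>
    intro K _ _ S hD
    obtain ⟨c, hc, -⟩ := hD Fin.elim0
    exact absurd (Subsingleton.elim _ _) hc
  | succ n ih =>
    intro K _ _ S hD h1 h2
    by_cases hE : ∃ E, IsExc S E
    · obtain ⟨E, hE⟩ := hE
      obtain ⟨S', ⟨b⟩⟩ := h K S E hE
      obtain ⟨N, n1, n2, n3⟩ := ih K S' (St.dep b n hD) (h1.trans b.chi_le) fun m hm => by
        rw [← b.H0_pb, map_nsmul]
        refine eq_bot_mono (H0_mono ?_) (H0_div (pow_ne_zero m b.c_ne) (h2 m hm))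
        have e : div S.W (b.c ^ m) = m • div S.W b.c := by
          ext C
          rw [Finsupp.smul_apply, div_apply S.all.toLoc2, div_apply S.all.toLoc2, nsmul_eq_mul]
          exact Pl.ord_pow _ _ _
        rw [e, ← nsmul_add, b.kap]
        exact nsmul_le_nsmul_right (le_add_of_nonneg_right (cl_nonneg E)) m
      refine ⟨b.pb N, b.pb_nonneg n1, fun C => ?_, by rwa [b.kap_pb]⟩
      by_cases o : C = E
      · rw [o, b.pb_E]
      · obtain ⟨C', rfl⟩ := b.all C o
        rw [b.i_pb_ι]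
        exact n2 C'
    · obtain ⟨C, hC⟩ := not_forall.1 (not_nef h1 (by simpa using h2 1 one_ne_zero)
        (h2 2 two_ne_zero))
      rw [not_le] at hC
      refine ⟨C.cl, cl_nonneg C, nef_of (cl_nonneg C) fun C' o => ?_, hC⟩
      obtain rfl : C' = C := by_contra fun e => o (cl_ne e)
      by_contra hc
      have a1 := ag_ge C'
      unfold Surf.ag at a1
      exact hE ⟨C', by change inter C'.cl C'.cl = _; omega, by change inter _ C'.cl = _; omega⟩

end Vale.Agent.P253Y.An
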