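import Vale.Agent.P253Y.An.Sk
import Vale.Agent.P297Y.An.Par

/-! P253, surfaces, block C: the canonical bundle and the degree of the surface. -/

set_option linter.all false

open scoped Manifold ContDiff
open Filter Topology Set IsLocalRing

noncomputable section

namespace Vale.Agent.P253Y.An

open Vale.Agent.P297Z Vale.Agent.P297Z.Sf
open Vale.Agent.P267 Vale.Agent.P267.FL

variable {K : Type} [Field K] [Algebra ℂ K] {S : Surf K}

namespace CanH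

theorem wedge_eq {W : Submodule ℂ K} {x : Pt W} {s t : K} {d₁ d₂ : Derivation ℂ K K}
    (h : Dual x s t d₁ d₂) (u v : K) (δ₁ δ₂ : Derivation ℂ K K) :
    wedge u v δ₁ δ₂ = wedge s t δ₁ δ₂ * wedge u v d₁ d₂ := by
  simp only [wedge]
  rw [h.all δ₁ u, h.all δ₁ v, h.all δ₂ u, h.all δ₂ v]
  ring

/-- Vector fields dual to regular parameters. -/
theorem ex_dual (x : Pt S.W) {s t : x.ring} (hm : maximalIdeal x.ring = Ideal.span {s, t}) :
    ∃ d₁ d₂ : Derivation ℂ K K, Dual x (s : K) (t : K) d₁ d₂ ∧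
      ∀ C : Crv S.W, x.On C → RegDer C.pl d₁ ∧ RegDer C.pl d₂ := by
  obtain ⟨d₁, d₂, h1, h2, h3, h4, h5, h6, h7⟩ := par K S S.all x s t hm
  exact ⟨d₁, d₂, ⟨s.2, t.2, h1, h3, h4, h5, h6, h7⟩, h2⟩

theorem regDer {x : Pt S.W} {δ : Derivation ℂ K K} (h : ∀ a ∈ x.ring, δ a ∈ x.ring)
    {C : Crv S.W} (hC : x.On C) : RegDer C.pl δ := by
  obtain ⟨i, hi⟩ := S.all.pt_cover x
  obtain ⟨-, -, -, -, s, t, -, -, hm⟩ := S.all.gens x _ (S.x_mem i) hi
  obtain ⟨d₁, d₂, h1, h2⟩ := ex_dual x hm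
  intro a ha
  rw [h1.all δ a]
  exact add_mem (mul_mem (hC _ (h _ s.2)) ((h2 C hC).1 a ha))
    (mul_mem (hC _ (h _ t.2)) ((h2 C hC).2 a ha))

end CanH

/-- The local generator of the canonical divisor. -/
theorem genAt_wedge {x : Pt S.W} {s t : K} {d₁ d₂ : Derivation ℂ K K} (h : Dual x s t d₁ d₂) :
    GenAt x S.kap (wedge (S.x 1 / S.x 0) (S.x 2 / S.x 0) d₁ d₂)⁻¹ := by
  have hA := S.all
  have h0 : wedge (S.x 1 / S.x 0) (S.x 2 / S.x 0) d₁ d₂ ≠ 0 := by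
    obtain ⟨C⟩ := crv_ne hA.toLoc2
    obtain ⟨δ₁, δ₂, -, -, h1, -⟩ := (hA.least _ _ S.indep C).1
    rw [CanH.wedge_eq h] at h1
    exact right_ne_zero_of_mul h1
  refine ⟨inv_ne_zero h0, fun C hC => ?_⟩
  have h1 := (hA.least _ _ S.indep C).2 ⟨d₁, d₂, CanH.regDer (fun a ha => (h.reg a ha).1) hC,
    CanH.regDer (fun a ha => (h.reg a ha).2) hC, h0, rfl⟩
  obtain ⟨δ₁, δ₂, r1, r2, h2, h3⟩ := (hA.least _ _ S.indep C).1
  rw [CanH.wedge_eq h] at h2 h3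
  rw [Pl.ord_mul _ (left_ne_zero_of_mul h2) h0] at h3
  have h4 : 0 ≤ C.pl.ord (wedge s t δ₁ δ₂) := Pl.ord_nonneg_of_mem _
    (sub_mem (mul_mem (r1 _ (hC _ h.s_mem)) (r2 _ (hC _ h.t_mem)))
      (mul_mem (r1 _ (hC _ h.t_mem)) (r2 _ (hC _ h.s_mem))))
  unfold Crv.ord Surf.kap
  rw [Pl.ord_inv]
  omega

namespace CanH

variable [Ok S.W]

/-- The Jacobian determinant of the change of charts. -/
theorem det_jac {e : Ch (Pt S.W)} {y : Pt S.W} (hy : y ∈ e.source) {d₁ d₂ : Derivation ℂ K K}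
    (hr : ∀ a ∈ y.ring, d₁ a ∈ y.ring ∧ d₂ a ∈ y.ring)
    (hd : ∀ f ∈ y.ring, HasFDerivAt (fun z => ev (e.symm z) f)
      (ev y (d₁ f) • (ContinuousLinearMap.proj 0 : C2 →L[ℂ] ℂ) +
        ev y (d₂ f) • (ContinuousLinearMap.proj 1 : C2 →L[ℂ] ℂ)) (e y)) :
    (jac e y).det = ev y (wedge (p₁ y : K) (p₂ y : K) d₁ d₂) := by
  have h1 : ∀ᶠ z in 𝓝 (e y), chartAt C2 y (e.symm z) =
      ![ev (e.symm z) (p₁ y : K), ev (e.symm z) (p₂ y : K)] :=
    ((e.tendsto_symm hy).eventually ((chartAt C2 y).open_source.mem_nhds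
      (mem_chart_source _ y))).mono fun z hz => (isCh_chartAt y).app _ hz
  have h2 : ∀ (p : Fin 2) (f : K), f ∈ y.ring →
      (∀ᶠ z in 𝓝 (e y), chartAt C2 y (e.symm z) p = ev (e.symm z) f) →
      jac e y p 0 = ev y (d₁ f) ∧ jac e y p 1 = ev y (d₂ f) := fun p f hf h => by
    have h3 := (hd f hf).congr_of_eventuallyEq h
    simp only [jac, jacM, Matrix.of_apply, dz_of_hol h3.differentiableAt, h3.fderiv]
    simp
  have h3 := h2 0 _ (p₁ y).2 (h1.mono fun z hz => by rw [hz]; rfl)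
  have h4 := h2 1 _ (p₂ y).2 (h1.mono fun z hz => by rw [hz]; rfl)
  have r1 := hr _ (p₁ y).2
  have r2 := hr _ (p₂ y).2
  rw [Matrix.det_fin_two, h3.1, h3.2, h4.1, h4.2, wedge, ev_sub (mul_mem r1.1 r2.2)
    (mul_mem r2.1 r1.2), ev_mul r1.1 r2.2, ev_mul r2.1 r1.2]
  ring

theorem mem_H0 {G : Sf.Div S.W} (B : OB G) {f : K} (hf : f ∈ H0 G) : B.v f ∈ B.H0 0 := by
  have h : ∀ x, B.toHL.SecAt (B.v f) x := fun x =>
    B.secAt x f ((mem_secOn.1 hf).imp id fun a C _ => a C trivial)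
  exact (RR.mem_H0 _ _ _).2 ⟨⟨reg0_iff_at.2 fun x => (h x).sm, fun x => (h x).sec⟩,
    funext fun x => funext fun i => (h x).db i⟩

theorem dense (h : INJ) {G : Sf.Div S.W} (B : OB G) {f : K} (hf : f ∈ H0 G) (h0 : f ≠ 0) :
    Dense {x | B.v f x ≠ 0} := by
  intro x
  obtain ⟨g, hg⟩ := S.all.gen x G
  have h1 : f / g ∈ x.ring := (S.all.normal x _).1 (Or.inr fun C hC => by
    have a1 := (mem_secOn.1 hf).resolve_left h0 C trivial
    have a2 := hg.2 C hC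
    have a3 : C.ord (f / g) = C.ord f - C.ord g := Pl.ord_div _ h0 hg.1
    simp only [Finsupp.coe_zero, Pi.zero_apply]
    omega)
  have h2 := (h K S x _ h1 (div_ne_zero h0 hg.1)).filter_mono nhdsWithin_le_nhds
  refine mem_closure_iff_frequently.2 ((h2.and_eventually ((nhds_genAt hg).and
    (nhds_reg h1))).mono fun y hy => ?_)
  have h3 := B.mul y _ hy.2.2 g (GenAt.mem hy.2.1)
  rw [div_mul_cancel₀ _ hg.1] at h3
  rw [mem_setOf_eq, h3]
  exact smul_ne_zero hy.1 (B.ne y g hy.2.1)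

end CanH

/-- The canonical bundle. -/
theorem can (h : DER) : CAN := by
  intro K _ _ S _ B
  choose d₁ d₂ hd using fun x : Pt S.W => CanH.ex_dual x (par_spec x)
  let J : Pt S.W → K := fun x => (wedge (S.x 1 / S.x 0) (S.x 2 / S.x 0) (d₁ x) (d₂ x))⁻¹
  have hJ : ∀ x, GenAt x S.kap (J x) := fun x => genAt_wedge (hd x).1
  have key : ∀ x : Pt S.W, loc0 (-1) (chartAt C2 x) (fun y => B.v (J y) y) =ᶠ[𝓝 (chartAt C2 x x)]
      loc0 0 (chartAt C2 x) (B.v (J x)) := fun x => by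
    have h1 := ((chartAt C2 x).tendsto_symm (mem_chart_source _ x)).eventually
      ((h K S x _ _ _ _ (hd x).1).and ((chartAt C2 x).open_source.mem_nhds (mem_chart_source _ x)))
    refine h1.mono fun z hz => ?_
    obtain ⟨⟨h2, h3⟩, h4⟩ := hz
    simp only [loc0, zpow_zero, one_smul]
    generalize (chartAt C2 x).symm z = y at h2 h3 h4 ⊢
    have r1 := h2.reg _ (p₁ y).2
    have r2 := h2.reg _ (p₂ y).2
    have h5 : J y = wedge (p₁ y : K) (p₂ y : K) (d₁ x) (d₂ x) * J x := by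
      have a1 := CanH.wedge_eq (hd y).1 (S.x 1 / S.x 0) (S.x 2 / S.x 0) (d₁ x) (d₂ x)
      have a2 := (hJ x).1
      simp only [J] at a2 ⊢
      rw [a1] at a2 ⊢
      have a3 := left_ne_zero_of_mul (inv_eq_zero.not.1 a2)
      rw [mul_inv, mul_inv_cancel_left₀ a3]
    have h6 := B.mul y (wedge (p₁ y : K) (p₂ y : K) (d₁ x) (d₂ x))
      (sub_mem (mul_mem r1.1 r2.2) (mul_mem r2.1 r1.2)) (J x) (GenAt.mem (genAt_wedge h2))
    rw [← h5] at h6
    have h7 : ev y (wedge (p₁ y : K) (p₂ y : K) (d₁ x) (d₂ x)) ≠ 0 := fun e =>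
      B.ne y _ (hJ y) (by rw [h6, e, zero_smul])
    rw [CanH.det_jac h4 h2.reg (h3 _ (isCh_chartAt x) h4), h6, zpow_neg_one, inv_smul_smul₀ h7]
  have hs : ∀ x, B.toHL.SecAt (B.v (J x)) x := fun x => B.secAt x _ (GenAt.mem (hJ x))
  refine ⟨fun y => B.v (J y) y, (RR.mem_H0 _ _ _).2 ⟨⟨reg0_iff_at.2 fun x =>
    (hs x).sm.congr_of_eventuallyEq (key x), fun x => (hs x).sec⟩,
    funext fun x => funext fun i => ?_⟩, fun x => B.ne x _ (hJ x)⟩
  have h1 := (hs x).db i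
  simp only [LB.db0, dbar0, dzb, (key x).fderiv_eq] at h1 ⊢
  exact h1

/-- The degree of the surface. -/
theorem cal (h1 : TRANSV) (h2 : GENL) (h3 : INJ) : CAL := by
  intro K _ _ S _ B
  obtain ⟨l₁, m₁, l₂, m₂, w, T, n₁, n₂, hT, hz, hp⟩ := h2 K S
  rw [← hT, Int.cast_natCast]
  refine h1 (Pt S.W) B.toHL B.toHL _ (CanH.mem_H0 B m₁) _ (CanH.mem_H0 B m₂) T
    (CanH.dense h3 B m₁ n₁) (CanH.dense h3 B m₂ n₂)
    (fun x a b => hz x (fun g => B.ne x _ g a) fun g => B.ne x _ g b) fun p hpT => ?_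
  obtain ⟨hw, s, t, hs, ht, hm⟩ := hp p hpT
  obtain ⟨e, he, hpe⟩ := Ok.ch (W := S.W) p s t hm
  have v1 : ev p (s : K) = 0 :=
    ev_van ((p.mem_max s).1 (hm ▸ Ideal.subset_span (by simp)))
  have v2 : ev p (t : K) = 0 :=
    ev_van ((p.mem_max t).1 (hm ▸ Ideal.subset_span (by simp)))
  refine ⟨e, he.mem_atlas, hpe, ?_, B.v w, B.v w, B.ne p w hw, B.ne p w hw, ?_⟩
  · rw [he.app p hpe, v1, v2]
    funext i
    fin_cases i <;> rfl
  · filter_upwards [nhds_genAt hw, e.open_source.mem_nhds hpe] with y a b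
    have a1 := B.mul y _ (he.mem y b).1 w (GenAt.mem a)
    have a2 := B.mul y _ (he.mem y b).2 w (GenAt.mem a)
    rw [hs, div_mul_cancel₀ _ hw.1, ← hs] at a1
    rw [ht, div_mul_cancel₀ _ hw.1, ← ht] at a2
    refine ⟨B.secAt y w (GenAt.mem a), B.secAt y w (GenAt.mem a), ?_, ?_⟩
    · rw [a1, he.app y b]
      rfl
    · rw [a2, he.app y b]
      rfl

end Vale.Agent.P253Y.An
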