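import Mathlib.RingTheory.Filtration
import Mathlib.RingTheory.Ideal.Quotient.Noetherian
import Mathlib.RingTheory.Polynomial.Basic
import Mathlib.LinearAlgebra.Finsupp.LinearCombination
import Mathlib.Analysis.Analytic.Polynomial
import Mathlib.Analysis.Analytic.Constructions
import Mathlib.Analysis.Calculus.ImplicitContDiff
import Mathlib.Analysis.Complex.Basic

/-! P253, surfaces, block C: the implicit function satisfies all the relations. -/

set_option linter.all false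

open scoped ContDiff
open Filter Topology Set MvPolynomial

noncomputable section

namespace Vale.Agent.P253Y.An.ChH

/-- The monomials in `s` and `t` are independent in the graded ring. -/
def Lead {O : Type} [CommRing O] [Algebra ℂ O] (s t : O) : Prop :=
  ∀ (n : ℕ) (c : ℕ → ℂ), ∑ i ∈ Finset.range (n + 1), c i • (s ^ i * t ^ (n - i)) ∈
    Ideal.span {s, t} ^ (n + 1) → ∀ i, i ≤ n → c i = 0

theorem mono_mem {R : Type} [CommRing R] (S T : R) {n i : ℕ} (hi : i ≤ n) :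
    S ^ i * T ^ (n - i) ∈ Ideal.span {S, T} ^ n := by
  have h := Ideal.mul_mem_mul
    (Ideal.pow_mem_pow (Ideal.subset_span (by simp) : S ∈ Ideal.span {S, T}) i)
    (Ideal.pow_mem_pow (Ideal.subset_span (by simp) : T ∈ Ideal.span {S, T}) (n - i))
  rwa [← pow_add, Nat.add_sub_cancel' hi] at h

theorem core {R O : Type} [CommRing R] [Algebra ℂ R] [IsNoetherianRing R] [CommRing O]
    [Algebra ℂ O] (π : R →ₐ[ℂ] O) (S T : R)
    (h1 : ∀ r, ∃ c : ℂ, r - algebraMap ℂ R c ∈ Ideal.span {S, T}) (h2 : Lead (π S) (π T))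
    {r : R} (hr : π r = 0) : ∃ e ∈ Ideal.span {S, T}, e * r = r := by
  have key : ∀ n : ℕ, r ∈ Submodule.span R
      ((fun i => S ^ i * T ^ (n - i)) '' (Finset.range (n + 1) : Finset ℕ)) := by
    intro n
    induction n with
    | zero => exact (Submodule.mem_span_image_finset_iff_exists_fun' R).2 ⟨fun _ => r, by simp⟩
    | succ n ih =>
      obtain ⟨u, hu⟩ := (Submodule.mem_span_image_finset_iff_exists_fun' R).1 ih
      choose c hc using fun i => h1 (u i)
      choose p q hpq using fun i => Ideal.mem_span_pair.1 (hc i)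
      have e1 : ∀ i, u i = algebraMap ℂ R (c i) + (p i * S + q i * T) := fun i => by
        rw [hpq]; ring
      have h3 : ∑ i ∈ Finset.range (n + 1), c i • (π S ^ i * π T ^ (n - i)) =
          -∑ i ∈ Finset.range (n + 1),
            (π S ^ i * π T ^ (n - i)) * (π (p i) * π S + π (q i) * π T) := by
        rw [eq_neg_iff_add_eq_zero, ← Finset.sum_add_distrib, ← hr, ← hu, map_sum]
        refine Finset.sum_congr rfl fun i _ => ?_
        rw [e1, Algebra.smul_def, smul_eq_mul]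
        simp only [map_mul, map_add, map_pow, AlgHom.commutes]
        ring
      have h4 := h2 n c (by
        rw [h3, pow_succ]
        exact neg_mem (sum_mem fun i hi => Ideal.mul_mem_mul
          (mono_mem _ _ (Nat.lt_succ_iff.1 (Finset.mem_range.1 hi)))
          (Ideal.mem_span_pair.2 ⟨_, _, rfl⟩)))
      rw [← hu]
      refine sum_mem fun i hi => ?_
      have hi' := Nat.lt_succ_iff.1 (Finset.mem_range.1 hi)
      have e2 : u i • (S ^ i * T ^ (n - i)) = p i • (S ^ (i + 1) * T ^ (n + 1 - (i + 1))) +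
          q i • (S ^ i * T ^ (n + 1 - i)) := by
        rw [e1, h4 i hi', Nat.add_sub_add_right, Nat.succ_sub hi']
        simp only [smul_eq_mul, map_zero, pow_succ]
        ring
      rw [e2]
      refine add_mem (Submodule.smul_mem _ _ (Submodule.subset_span ⟨i + 1, ?_, rfl⟩))
        (Submodule.smul_mem _ _ (Submodule.subset_span ⟨i, ?_, rfl⟩)) <;>
      simp only [Finset.coe_range, mem_Iio] <;> omega
  obtain ⟨e, he⟩ := ((Ideal.span {S, T}).mem_iInf_smul_pow_eq_bot_iff r).1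
    ((Submodule.mem_iInf _).2 fun n => by
      rw [smul_eq_mul, Ideal.mul_top]
      refine Submodule.span_le.2 ?_ (key n)
      rintro _ ⟨i, hi, rfl⟩
      exact mono_mem _ _ (Nat.lt_succ_iff.1 (Finset.mem_range.1 hi)))
  exact ⟨e, e.2, he⟩

theorem core' {A O : Type} [CommRing A] [Algebra ℂ A] [IsNoetherianRing A] [CommRing O]
    [Algebra ℂ O] (g : A →ₐ[ℂ] O) (J : Ideal A) (hJ : ∀ R ∈ J, g R = 0) (S T : A)
    (h1 : ∀ (B : Type) [CommRing B] [Algebra ℂ B] (φ : A →ₐ[ℂ] B), (∀ R ∈ J, φ R = 0) →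
      φ S = 0 → φ T = 0 → ∀ R, ∃ c, φ R = algebraMap ℂ B c) (h2 : Lead (g S) (g T))
    {r : A} (hr : g r = 0) : ∃ U V, (U * S + V * T - 1) * r ∈ J := by
  obtain ⟨e, he, h4⟩ := core (Ideal.Quotient.liftₐ J g hJ) (Ideal.Quotient.mk J S)
    (Ideal.Quotient.mk J T) (fun r => by
      obtain ⟨R, rfl⟩ := Ideal.Quotient.mk_surjective r
      obtain ⟨c, hc⟩ := h1 _ (Ideal.Quotient.mkₐ ℂ (J ⊔ Ideal.span {S, T}))
        (fun R hR => Ideal.Quotient.eq_zero_iff_mem.2 (Ideal.mem_sup_left hR))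
        (Ideal.Quotient.eq_zero_iff_mem.2 (Ideal.mem_sup_right (Ideal.subset_span (by simp))))
        (Ideal.Quotient.eq_zero_iff_mem.2 (Ideal.mem_sup_right (Ideal.subset_span (by simp)))) R
      obtain ⟨j, hj, e, he, h⟩ := Submodule.mem_sup.1
        (Ideal.Quotient.eq.1 hc : R - algebraMap ℂ A c ∈ J ⊔ Ideal.span {S, T})
      obtain ⟨u, v, rfl⟩ := Ideal.mem_span_pair.1 he
      refine ⟨c, Ideal.mem_span_pair.2 ⟨Ideal.Quotient.mk J u, Ideal.Quotient.mk J v, ?_⟩⟩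
      rw [← Ideal.Quotient.mk_algebraMap, ← map_sub, ← h, map_add,
        Ideal.Quotient.eq_zero_iff_mem.2 hj, zero_add, map_add, map_mul, map_mul])
    h2 (r := Ideal.Quotient.mk J r) hr
  obtain ⟨u, v, rfl⟩ := Ideal.mem_span_pair.1 he
  obtain ⟨U, rfl⟩ := Ideal.Quotient.mk_surjective u
  obtain ⟨V, rfl⟩ := Ideal.Quotient.mk_surjective v
  rw [← map_mul, ← map_mul, ← map_add, ← map_mul, Ideal.Quotient.eq, ← sub_one_mul] at h4
  exact ⟨U, V, h4⟩

theorem const {κ B : Type} [CommRing B] [Algebra ℂ B] (φ : MvPolynomial κ ℂ →ₐ[ℂ] B) (c : κ → ℂ)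
    (h : ∀ j, φ (X j) = algebraMap ℂ B (c j)) (P : MvPolynomial κ ℂ) :
    φ P = algebraMap ℂ B (aeval c P) := by
  have : φ = (Algebra.ofId ℂ B).comp (aeval c) := algHom_ext fun j => by simpa using h j
  rw [this]
  rfl

/-- The common relations. -/
def com {κ O Z : Type} [CommRing O] [Algebra ℂ O] (g : κ → O) (Y : Z → κ → ℂ) (L : Filter Z) :
    Ideal (MvPolynomial κ ℂ) where
  carrier := {R | aeval g R = 0 ∧ ∀ᶠ z in L, aeval (Y z) R = 0}
  zero_mem' := by simp
  add_mem' := fun h1 h2 => ⟨by rw [map_add, h1.1, h2.1, add_zero], by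
    filter_upwards [h1.2, h2.2] with z e1 e2
    rw [map_add, e1, e2, add_zero]⟩
  smul_mem' := fun c R h => ⟨by rw [smul_eq_mul, map_mul, h.1, mul_zero], by
    filter_upwards [h.2] with z e
    rw [smul_eq_mul, map_mul, e, mul_zero]⟩

theorem rel {O ι : Type} [CommRing O] [Algebra ℂ O] [Fintype ι] {a : ι → O} {s : Fin 2 → O}
    {α : Fin 2 × ι → O} {c : ι → ℂ} {P Q : Fin 2 × ι → MvPolynomial ι ℂ}
    {X₀ : (Fin 2 → ℂ) → ι → ℂ} (hl : Lead (s 0) (s 1))
    (ha : ∀ i, α (0, i) * s 0 + α (1, i) * s 1 = a i - algebraMap ℂ O (c i))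
    (hQ : ∀ p, aeval c (Q p) ≠ 0) (hα : ∀ p, α p * aeval a (Q p) = aeval a (P p))
    (hX : AnalyticAt ℂ X₀ 0) (h0 : X₀ 0 = c)
    (hF : ∀ᶠ z in 𝓝 (0 : Fin 2 → ℂ), ∀ i, X₀ z i = c i +
      z 0 * (aeval (X₀ z) (P (0, i)) / aeval (X₀ z) (Q (0, i))) +
      z 1 * (aeval (X₀ z) (P (1, i)) / aeval (X₀ z) (Q (1, i))))
    (k : Fin 2) (P' Q' : MvPolynomial ι ℂ) (h : s k * aeval a Q' = aeval a P') :
    ∀ᶠ z in 𝓝 (0 : Fin 2 → ℂ), z k * aeval (X₀ z) Q' = aeval (X₀ z) P' := by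
  let g : ι ⊕ Fin 2 ⊕ (Fin 2 × ι) → O := Sum.elim a (Sum.elim s α)
  let Y : (Fin 2 → ℂ) → ι ⊕ Fin 2 ⊕ (Fin 2 × ι) → ℂ := fun z => Sum.elim (X₀ z)
    (Sum.elim z fun p => aeval (X₀ z) (P p) / aeval (X₀ z) (Q p))
  have hg : ∀ R : MvPolynomial ι ℂ, aeval g (rename Sum.inl R) = aeval a R := fun R =>
    aeval_rename _ _ _
  have hY : ∀ z (R : MvPolynomial ι ℂ), aeval (Y z) (rename Sum.inl R) = aeval (X₀ z) R :=
    fun z R => aeval_rename _ _ _
  have hA : ∀ R : MvPolynomial ι ℂ, AnalyticAt ℂ (fun z => aeval (X₀ z) R) 0 := fun R =>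
    .aeval_mvPolynomial (analyticAt_pi_iff.1 hX) R
  have hYa : ∀ j, AnalyticAt ℂ (fun z => Y z j) 0 := by
    rintro (i | k | p)
    · exact analyticAt_pi_iff.1 hX i
    · exact analyticAt_pi_iff.1 analyticAt_id k
    · exact (hA _).div (hA _) (by rw [h0]; exact hQ p)
  let J := com g Y (𝓝 0)
  let S : Fin 2 → MvPolynomial (ι ⊕ Fin 2 ⊕ (Fin 2 × ι)) ℂ := fun k => X (.inr (.inl k))
  obtain ⟨U, V, h4⟩ := core' (aeval g) J (fun R hR => hR.1) (S 0) (S 1) (fun B _ _ φ hJ hS hT R => by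
    refine ⟨_, const φ (Y 0) ?_ R⟩
    have h1 : ∀ i, φ (X (.inl i)) = algebraMap ℂ B (c i) := fun i => by
      have := hJ (X (.inl i) - C (c i) - X (.inr (.inr (0, i))) * S 0 -
        X (.inr (.inr (1, i))) * S 1)
        ⟨by simp [S, g, ← ha], hF.mono fun z hz => by simp [S, Y, hz i]; ring⟩
      rwa [map_sub, map_sub, map_mul, map_mul, hS, hT, mul_zero, mul_zero, sub_zero, sub_zero,
        map_sub, sub_eq_zero, algHom_C] at this
    have h2 := const (φ.comp (rename Sum.inl)) c fun i => by simpa using h1 i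
    rintro (i | k | p)
    · simpa [Y, h0] using h1 i
    · fin_cases k
      · simpa [Y] using hS
      · simpa [Y] using hT
    · have := hJ (X (.inr (.inr p)) * rename Sum.inl (Q p) - rename Sum.inl (P p))
        ⟨by simp [hg, g, hα], by
          filter_upwards [(hA (Q p)).continuousAt.eventually_ne (by rw [h0]; exact hQ p)] with z hz
          rw [map_sub, map_mul, hY, hY, aeval_X]
          exact sub_eq_zero.2 (div_mul_cancel₀ _ hz)⟩
      rw [map_sub, map_mul, sub_eq_zero] at this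
      have e1 := h2 (Q p)
      have e2 := h2 (P p)
      rw [AlgHom.comp_apply] at e1 e2
      rw [e1, e2] at this
      change _ = algebraMap ℂ _ (aeval (X₀ 0) (P p) / aeval (X₀ 0) (Q p))
      rw [h0, div_eq_mul_inv, map_mul, ← this, mul_assoc, ← map_mul, mul_inv_cancel₀ (hQ p),
        map_one, mul_one])
    (by simpa [S, g] using hl) (r := S k * rename Sum.inl Q' - rename Sum.inl P')
    (by simp [S, hg, g, h])
  have h5 : ContinuousAt (fun z => aeval (Y z) (U * S 0 + V * S 1)) 0 :=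
    (AnalyticAt.aeval_mvPolynomial hYa _).continuousAt
  filter_upwards [h4.2, h5.eventually_ne (y := 1) (by simp [S, Y])] with z e1 e2
  rw [map_mul, map_sub, map_one, mul_eq_zero, sub_eq_zero] at e1
  have e3 := e1.resolve_left e2
  rwa [map_sub, map_mul, hY, hY, aeval_X, sub_eq_zero] at e3

theorem ift {E : Type} [NormedAddCommGroup E] [NormedSpace ℂ E] [CompleteSpace E] {c : E}
    {G₀ G₁ : E → E} (h₀ : AnalyticAt ℂ G₀ c) (h₁ : AnalyticAt ℂ G₁ c) :
    ∃ X : (Fin 2 → ℂ) → E, AnalyticAt ℂ X 0 ∧ X 0 = c ∧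
      (∀ᶠ z in 𝓝 (0 : Fin 2 → ℂ), X z - z 0 • G₀ (X z) - z 1 • G₁ (X z) = c) ∧
      ∀ᶠ v in 𝓝 ((0 : Fin 2 → ℂ), c), v.2 - v.1 0 • G₀ v.2 - v.1 1 • G₁ v.2 = c → X v.1 = v.2 := by
  let f : (Fin 2 → ℂ) × E → E := fun v => v.2 - v.1 0 • G₀ v.2 - v.1 1 • G₁ v.2
  have hp : ∀ k, AnalyticAt ℂ (fun v : (Fin 2 → ℂ) × E => v.1 k) (0, c) :=
    analyticAt_pi_iff.1 analyticAt_fst
  have hf : ContDiffAt ℂ ω f (0, c) :=
    ((analyticAt_snd.sub ((hp 0).smul (h₀.comp_of_eq analyticAt_snd rfl))).sub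
      ((hp 1).smul (h₁.comp_of_eq analyticAt_snd rfl))).contDiffAt
  have hn : (ω : WithTop ℕ∞) ≠ 0 := by simp
  have e : fderiv ℂ f (0, c) ∘L .inr ℂ (Fin 2 → ℂ) E = .id ℂ E := by
    have h1 := (hf.differentiableAt hn).hasFDerivAt.comp c (hasFDerivAt_prodMk_right 0 c)
    refine h1.unique ?_
    have : (f ∘ fun y => ((0 : Fin 2 → ℂ), y)) = id := by
      ext y
      simp [f]
    rw [this]
    exact hasFDerivAt_id c
  have hi : (fderiv ℂ f (0, c) ∘L .inr ℂ (Fin 2 → ℂ) E).IsInvertible :=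
    e ▸ ⟨.refl ℂ E, rfl⟩
  have e0 : f (0, c) = c := by simp [f]
  refine ⟨hf.implicitFunction hn hi, (hf.contDiffAt_implicitFunction hn hi).analyticAt,
    hf.implicitFunction_apply_self hn hi, ?_, ?_⟩
  · exact (hf.eventually_apply_implicitFunction hn hi).mono fun z hz => hz.trans e0
  · exact (hf.eventually_apply_eq_iff_implicitFunction hn hi).mono fun v hv h =>
      hv.1 (h.trans e0.symm)

theorem homeo {Y Z : Type} [TopologicalSpace Y] [TopologicalSpace Z] {f : Y → Z} {g : Z → Y}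
    {x : Y} {p : Y → Prop} {q : Z → Prop}
    (h1 : ∀ᶠ y in 𝓝 x, p y ∧ ContinuousAt f y ∧ g (f y) = y)
    (h2 : ∀ᶠ z in 𝓝 (f x), q z ∧ ContinuousAt g z ∧ f (g z) = z) :
    ∃ e : OpenPartialHomeomorph Y Z, ⇑e = f ∧ ⇑e.symm = g ∧ x ∈ e.source ∧
      ∀ y ∈ e.source, p y ∧ q (f y) ∧ g (f y) = y := by
  obtain ⟨U, a1, a2, a3⟩ := mem_nhds_iff.1 h1
  obtain ⟨V, b1, b2, b3⟩ := mem_nhds_iff.1 h2
  have cf : ContinuousOn f U := fun y hy => (a1 hy).2.1.continuousWithinAt
  have cg : ContinuousOn g V := fun y hy => (b1 hy).2.1.continuousWithinAt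
  exact ⟨{
    toFun := f
    invFun := g
    source := U ∩ f ⁻¹' V
    target := V ∩ g ⁻¹' U
    map_source' := fun y hy => ⟨hy.2, by rw [mem_preimage, (a1 hy.1).2.2]; exact hy.1⟩
    map_target' := fun y hy => ⟨hy.2, by rw [mem_preimage, (b1 hy.1).2.2]; exact hy.1⟩
    left_inv' := fun y hy => (a1 hy.1).2.2
    right_inv' := fun y hy => (b1 hy.1).2.2
    open_source := cf.isOpen_inter_preimage a2 b2
    open_target := cg.isOpen_inter_preimage b2 a2
    continuousOn_toFun := cf.mono inter_subset_left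
    continuousOn_invFun := cg.mono inter_subset_left }, rfl, rfl, ⟨a3, b3⟩,
    fun y hy => ⟨(a1 hy.1).1, (b1 hy.2).1, (a1 hy.1).2.2⟩⟩

end Vale.Agent.P253Y.An.ChH
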