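import Vale.Agent.P253Y.An.Sk
import Vale.Agent.P253Y.An.ChA

/-! P253, surfaces, block C: regular parameters are local coordinates. -/

set_option linter.all false

open Filter Topology Set IsLocalRing MvPolynomial

noncomputable section

namespace Vale.Agent.P253Y.An

open Vale.Agent.P297Z Vale.Agent.P297Z.Sf
open Vale.Agent.P267 Vale.Agent.P267.FL

namespace ChH

variable {K : Type} [Field K] [Algebra ℂ K] {S : Surf K} {w : K} {ι : Type} {a : ι → K}

/-- The values of the generators. -/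
def vec (a : ι → K) (y : Pt S.W) : ι → ℂ := fun i => ev y (a i)

/-- The points at which the generators are regular. -/
def dom (S : Surf K) (a : ι → K) : Set (Pt S.W) := {y | ∀ i, a i ∈ y.ring}

variable (S w a) in
/-- The family `a` generates the coordinate ring of the chart. -/
structure Gen : Prop where
  mem : w ∈ S.W
  ne : w ≠ 0
  adj : ∀ f, f ∈ chart S.W w ↔ ∃ P : MvPolynomial ι ℂ, aeval a P = f

theorem ev_aeval {y : Pt S.W} (hy : y ∈ dom S a) (P : MvPolynomial ι ℂ) :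
    aeval a P ∈ y.ring ∧ ev y (aeval a P) = aeval (vec a y) P := by
  induction P using MvPolynomial.induction_on with
  | C c => exact ⟨by rw [algHom_C]; exact y.ring.algebraMap_mem c, by simp [ev_const]⟩
  | add p q hp hq =>
    rw [map_add, map_add]
    exact ⟨add_mem hp.1 hq.1, by rw [ev_add hp.1 hq.1, hp.2, hq.2]⟩
  | mul_X p i hp =>
    rw [map_mul, map_mul, aeval_X, aeval_X]
    exact ⟨mul_mem hp.1 (hy i), by rw [ev_mul hp.1 (hy i), hp.2]; rfl⟩

theorem of_frac {y : Pt S.W} (hy : y ∈ dom S a) {f : K} {P Q : MvPolynomial ι ℂ}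
    (hQ : aeval (vec a y) Q ≠ 0) (h : f * aeval a Q = aeval a P) :
    f ∈ y.ring ∧ ev y f = aeval (vec a y) P / aeval (vec a y) Q := by
  obtain ⟨p1, p2⟩ := ev_aeval hy P
  obtain ⟨q1, q2⟩ := ev_aeval hy Q
  rw [← q2] at hQ
  obtain ⟨h1, h2⟩ := inv_mem q1 hQ
  rw [(eq_mul_inv_iff_mul_eq₀ h1).2 h]
  exact ⟨mul_mem p1 h2, by rw [ev_mul p1 h2, ev_inv q1 hQ, p2, q2, div_eq_mul_inv]⟩

theorem Gen.frac (h : Gen S w a) {y : Pt S.W} (hy : y ∈ dom S a) {f : K} (hf : f ∈ y.ring) :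
    ∃ P Q : MvPolynomial ι ℂ, aeval (vec a y) Q ≠ 0 ∧ f * aeval a Q = aeval a P := by
  obtain ⟨m, hm, e, hv⟩ := S.all.pt_chart y w h.mem ⟨h.ne, fun b hb => by
    obtain ⟨P, hP⟩ := (h.adj _).1 (div_mem_chart (w := w) hb)
    exact hP ▸ (ev_aeval hy P).1⟩
  rw [e] at hf
  obtain ⟨p, q, hq, hf⟩ := hf
  obtain ⟨P, hP⟩ := (h.adj _).1 p.2
  obtain ⟨Q, hQ⟩ := (h.adj _).1 q.2
  refine ⟨P, Q, fun h0 => hq ((hv q).2 ?_), by rw [hP, hQ, hf]⟩
  rw [← hQ, van_iff_ev (ev_aeval hy Q).1, (ev_aeval hy Q).2, h0]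

theorem Gen.inj (h : Gen S w a) : InjOn (vec a) (dom S a) := fun y hy y' hy' e =>
  S.all.pt_ext y y' fun f hf => by
    obtain ⟨P, Q, h1, h2⟩ := h.frac hy hf
    exact (of_frac hy' (e ▸ h1) h2).1

theorem Gen.pt (h : Gen S w a) {X₀ : ι → ℂ}
    (hX : ∀ P : MvPolynomial ι ℂ, aeval a P = 0 → aeval X₀ P = 0) :
    ∃ y ∈ dom S a, vec a y = X₀ := by
  let F := (aeval a : MvPolynomial ι ℂ →ₐ[ℂ] K).codRestrict (chart S.W w)
    fun P => (h.adj _).2 ⟨P, rfl⟩
  have hF : Function.Surjective F := fun b => ((h.adj _).1 b.2).imp fun P hP => Subtype.ext hP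
  let φ := AlgHom.liftOfSurjective F hF (aeval X₀) fun P hP => hX P (congrArg Subtype.val hP)
  have hm : (RingHom.ker φ).IsMaximal :=
    RingHom.ker_isMaximal_of_surjective φ fun c => ⟨algebraMap ℂ _ c, φ.commutes c⟩
  have ha : ∀ i, a i ∈ chart S.W w := fun i => (h.adj _).2 ⟨X i, aeval_X _ _⟩
  refine ⟨⟨loc _ _ hm.isPrime, w, h.mem, h.ne, _, hm, rfl⟩, fun i => le_loc _ _ hm.isPrime (ha i),
    funext fun i => ev_eq ?_⟩
  have hb : F (X i - C (X₀ i)) ∈ RingHom.ker φ :=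
    (AlgHom.liftOfSurjective_apply F hF _ _ _).trans (by simp)
  have e : (F (X i - C (X₀ i)) : K) = a i - algebraMap ℂ K (X₀ i) := by simp [F]
  rw [← e]
  exact ⟨le_loc _ _ hm.isPrime (F _).2, or_iff_not_imp_left.2 fun h0 h1 =>
    (inv_mem_loc_iff hm.isPrime h0).1 h1 hb⟩

theorem Gen.an (h : Gen S w a) [Fintype ι] {g : C2 → Pt S.W} {X₀ : C2 → ι → ℂ} {z₀ : C2}
    (hX : AnalyticAt ℂ X₀ z₀) (hg : ∀ᶠ z in 𝓝 z₀, g z ∈ dom S a ∧ vec a (g z) = X₀ z) {f : K}
    (hf : f ∈ (g z₀).ring) :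
    (∀ᶠ z in 𝓝 z₀, f ∈ (g z).ring) ∧ AnalyticAt ℂ (fun z => ev (g z) f) z₀ := by
  obtain ⟨P, Q, h1, h2⟩ := h.frac hg.self_of_nhds.1 hf
  rw [hg.self_of_nhds.2] at h1
  have hA : ∀ R : MvPolynomial ι ℂ, AnalyticAt ℂ (fun z => aeval (X₀ z) R) z₀ := fun R =>
    .aeval_mvPolynomial (analyticAt_pi_iff.1 hX) R
  have h3 : ∀ᶠ z in 𝓝 z₀, f ∈ (g z).ring ∧ aeval (X₀ z) P / aeval (X₀ z) Q = ev (g z) f := by
    filter_upwards [hg, (hA Q).continuousAt.eventually_ne h1] with z e1 e2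
    rw [← e1.2] at e2 ⊢
    exact (of_frac e1.1 e2 h2).imp_right Eq.symm
  exact ⟨h3.mono fun z e => e.1, ((hA P).div (hA Q) h1).congr (h3.mono fun z e => e.2)⟩

theorem ex_gen (x : Pt S.W) : ∃ (w : K) (n : ℕ) (a : Fin n → K), Gen S w a ∧ x ∈ dom S a := by
  obtain ⟨w, hw, hx⟩ := x.exists_in
  obtain ⟨n, F, hF⟩ := Algebra.FiniteType.iff_quotient_mvPolynomial''.1 (S.all.ft w)
  have e : aeval (fun i => (F (X i) : K)) = (chart S.W w).val.comp F := algHom_ext (by simp)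
  refine ⟨w, n, fun i => F (X i), ⟨hw, hx.1, fun f => ?_⟩, fun i => hx.chart_le (F _).2⟩
  rw [e]
  refine ⟨fun hf => (hF ⟨f, hf⟩).imp fun P hP => congrArg Subtype.val hP, ?_⟩
  rintro ⟨P, rfl⟩
  exact (F P).2

end ChH

open ChH in
theorem ch : CH := by
  intro K _ _ S x s t hst
  obtain ⟨w, n, a, h, hx⟩ := ex_gen x
  haveI : Nonempty (Pt S.W) := ⟨x⟩
  have hm : ∀ i, ∃ p q : x.ring, p * s + q * t = ⟨a i, hx i⟩ - algebraMap ℂ _ (vec a x i) :=
    fun i => Ideal.mem_span_pair.1 (hst ▸ (x.mem_max _).2 (van_sub_ev (hx i)))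
  choose p q hpq using hm
  choose P Q hQ hP using fun f : x.ring => h.frac hx f.2
  let G : x.ring → (Fin n → ℂ) → ℂ := fun f Y => aeval Y (P f) / aeval Y (Q f)
  have hA : ∀ R : MvPolynomial (Fin n) ℂ, AnalyticAt ℂ (fun Y => aeval Y R) (vec a x) := fun R =>
    .aeval_mvPolynomial (analyticAt_pi_iff.1 analyticAt_id) R
  have hG : ∀ f, AnalyticAt ℂ (G f) (vec a x) := fun f => (hA _).div (hA _) (hQ f)
  obtain ⟨X₀, h1, h2, h3, h4⟩ := ift (G₀ := fun Y i => G (p i) Y) (G₁ := fun Y i => G (q i) Y)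
    (analyticAt_pi_iff.2 fun i => hG _) (analyticAt_pi_iff.2 fun i => hG _)
  have e : ∀ R : MvPolynomial (Fin n) ℂ,
      ((aeval (fun i => (⟨a i, hx i⟩ : x.ring)) R : x.ring) : K) = aeval a R := fun R =>
    DFunLike.congr_fun (comp_aeval _ x.ring.val) R
  have hr : ∀ (k : Fin 2) (P' Q' : MvPolynomial (Fin n) ℂ),
      (![s, t] k : K) * aeval a Q' = aeval a P' →
      ∀ᶠ z in 𝓝 (0 : C2), z k * aeval (X₀ z) Q' = aeval (X₀ z) P' := fun k P' Q' hk =>
    rel (a := fun i => (⟨a i, hx i⟩ : x.ring)) (s := ![s, t]) (α := fun j => ![p, q] j.1 j.2)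
      (P := fun j => P (![p, q] j.1 j.2)) (Q := fun j => Q (![p, q] j.1 j.2))
      (fun m c hc => S.all.lead x s t hst m c (hst ▸ hc)) hpq (fun j => hQ _)
      (fun j => Subtype.ext (by rw [MulMemClass.coe_mul, e, e, hP])) h1 h2
      (h3.mono fun z hz i => by
        rw [← congrFun hz i]
        simp [G]
        ring)
      k P' Q' (Subtype.ext (by rw [MulMemClass.coe_mul, e, e, hk]))
  let g : C2 → Pt S.W := fun z => Function.invFunOn (vec a) (dom S a) (X₀ z)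
  have h5 : ∀ᶠ z in 𝓝 (0 : C2), g z ∈ dom S a ∧ vec a (g z) = X₀ z := by
    obtain ⟨T, hT⟩ := IsNoetherian.noetherian
      (RingHom.ker (aeval a : MvPolynomial (Fin n) ℂ →ₐ[ℂ] K))
    filter_upwards [(eventually_all_finset T).2 fun R hR => hr 0 R 0 (by
      rw [map_zero, mul_zero]
      exact (hT.le (Submodule.subset_span hR)).symm)] with z hz
    refine Function.invFunOn_pos (h.pt fun R hR => ?_)
    exact (Submodule.span_le.2 fun R hR => by simpa using (hz R hR).symm :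
      Submodule.span _ (T : Set _) ≤ RingHom.ker (aeval (X₀ z))) (hT.ge hR)
  let f : Pt S.W → C2 := fun y => ![ev y s, ev y t]
  have hv : ∀ k, ev x (![s, t] k : x.ring) = 0 := fun k => ev_van ((x.mem_max _).1 (hst ▸
    Ideal.subset_span (by fin_cases k <;> simp)))
  have f0 : f x = 0 := funext fun k => by
    fin_cases k
    · exact hv 0
    · exact hv 1
  have cf : ∀ y : Pt S.W, (s : K) ∈ y.ring → (t : K) ∈ y.ring → ContinuousAt f y :=
    fun y hs ht => continuousAt_pi.2 fun k => by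
      fin_cases k
      · exact continuousAt_ev hs
      · exact continuousAt_ev ht
  have cv : ContinuousAt (vec a) x := continuousAt_pi.2 fun i => continuousAt_ev (hx i)
  have hd : ∀ᶠ y in 𝓝 x, y ∈ dom S a := eventually_all.2 fun i => nhds_reg (hx i)
  have hG' : ∀ r : x.ring, ∀ᶠ y : Pt S.W in 𝓝 x,
      (r : K) ∈ y.ring ∧ ev y (r : K) = G r (vec a y) := fun r => by
    filter_upwards [hd, cv.eventually ((hA (Q r)).continuousAt.eventually_ne (hQ r))] with y e1 e2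
    exact of_frac e1 e2 (hP r)
  obtain ⟨e, e1, e2, e3, e4⟩ := homeo (f := f) (g := g) (x := x)
    (p := fun y => (s : K) ∈ y.ring ∧ (t : K) ∈ y.ring)
    (q := fun z => ∀ r ∈ (g z).ring, AnalyticAt ℂ (fun z => ev (g z) r) z) (by
      have t1 : Tendsto (fun y => (f y, vec a y)) (𝓝 x) (𝓝 (0, vec a x)) :=
        f0 ▸ (cf x s.2 t.2).prodMk cv
      filter_upwards [nhds_reg s.2, nhds_reg t.2, hd, t1.eventually h4,
        eventually_all.2 fun i => hG' (p i), eventually_all.2 fun i => hG' (q i)]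
        with y hs ht hy a1 a2 a3
      refine ⟨⟨hs, ht⟩, cf y hs ht, ?_⟩
      have a4 : X₀ (f y) = vec a y := a1 (funext fun i => by
        have b := congrArg (fun r : x.ring => ev y r) (hpq i)
        simp only [AddMemClass.coe_add, MulMemClass.coe_mul, AddSubgroupClass.coe_sub,
          Subalgebra.coe_algebraMap] at b
        rw [ev_add (mul_mem (a2 i).1 hs) (mul_mem (a3 i).1 ht), ev_mul (a2 i).1 hs,
          ev_mul (a3 i).1 ht, ev_sub (hy i) (y.ring.algebraMap_mem _), ev_const, (a2 i).2,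
          (a3 i).2] at b
        change ev y (a i) - ev y s * G _ _ - ev y t * G _ _ = _
        linear_combination -b)
      change Function.invFunOn _ _ (X₀ (f y)) = y
      rw [a4]
      exact h.inj.leftInvOn_invFunOn hy) (by
      rw [f0]
      have t1 : ∀ k, ∀ᶠ z in 𝓝 (0 : C2), ev (g z) (![s, t] k : x.ring) = z k := fun k => by
        filter_upwards [h5, hr k _ _ (hP _), (h2 ▸ h1.continuousAt : Tendsto X₀ _ _).eventually
          ((hA (Q (![s, t] k))).continuousAt.eventually_ne (hQ _))] with z b1 b2 b3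
        rw [(of_frac b1.1 (b1.2 ▸ b3) (hP _)).2, b1.2, ← b2, mul_div_cancel_right₀ _ b3]
      filter_upwards [h1.eventually_analyticAt, h5.eventually_nhds, t1 0, t1 1] with z a1 a2 a3 a4
      refine ⟨fun r hr => (h.an a1 a2 hr).2, tendsto_pt fun r hr =>
        ⟨(h.an a1 a2 hr).1, (h.an a1 a2 hr).2.continuousAt⟩, funext fun k => ?_⟩
      fin_cases k
      · exact a3
      · exact a4)
  refine ⟨e, ⟨fun y hy => (e4 y hy).1, fun y _ => congrFun e1 y, fun y hy r hr => ?_⟩, e3⟩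
  rw [e1, e2]
  exact (e4 y hy).2.1 r (by rwa [(e4 y hy).2.2])

end Vale.Agent.P253Y.An
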