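import Vale.Agent.P253Y.An.Ev
import Vale.Agent.P253Y.D.Defs
import Vale.Agent.P253Y.G.Defs
import Vale.Agent.P267.H221.Out
import Vale.Agent.P267.H283.BlockC
import Vale.Agent.P267.H399.LBCurv
import Vale.Agent.P267.H399.LBTensor
import Vale.Agent.P267.H451.Frame
import Vale.Agent.P267.H682.RRTriv
import Vale.Agent.P267.H815.Hol

/-! P253, surfaces, blocks C and E: the complex surface of a smooth projective surface. -/

set_option linter.all false

open scoped Manifold ContDiff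
open Filter Topology Set IsLocalRing

noncomputable section

namespace Vale.Agent.P253Y.An

open Vale.Agent.P297Z Vale.Agent.P297Z.Sf
open Vale.Agent.P019P (CFF Plk dg)
open Vale.Agent.P267 Vale.Agent.P267.FL
open Vale.Agent.P267.BlockC (ALB)

variable {K : Type} [Field K] [Algebra ℂ K] {W : Submodule ℂ K}

/-! ### Charts -/

/-- `e` is the chart given by the rational functions `s` and `t`. -/
structure IsCh (e : Ch (Pt W)) (s t : K) : Prop where
  mem : ∀ y ∈ e.source, s ∈ y.ring ∧ t ∈ y.ring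
  app : ∀ y ∈ e.source, e y = ![ev y s, ev y t]
  an : ∀ y ∈ e.source, ∀ f ∈ y.ring, AnalyticAt ℂ (fun z => ev (e.symm z) f) (e y)

variable (W) in
/-- Regular parameters are local coordinates. -/
def Charts : Prop := ∀ (x : Pt W) (s t : x.ring), maximalIdeal x.ring = Ideal.span {s, t} →
  ∃ e : Ch (Pt W), IsCh e (s : K) (t : K) ∧ x ∈ e.source

variable (W) in
/-- The facts that make the set of the points a compact complex surface. -/
class Ok : Prop where
  par : ∀ x : Pt W, ∃ p : x.ring × x.ring, maximalIdeal x.ring = Ideal.span {p.1, p.2}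
  ch : Charts W
  t2 : T2Space (Pt W)
  cpt : CompactSpace (Pt W)
  conn : ConnectedSpace (Pt W)

attribute [instance] Ok.t2 Ok.cpt Ok.conn

section

variable [Ok W]

/-- The first coordinate of the preferred chart. -/
def p₁ (x : Pt W) : x.ring := (Ok.par x).choose.1

/-- The second coordinate of the preferred chart. -/
def p₂ (x : Pt W) : x.ring := (Ok.par x).choose.2

theorem par_spec (x : Pt W) : maximalIdeal x.ring = Ideal.span {p₁ x, p₂ x} :=
  (Ok.par x).choose_spec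

theorem ex_ch (x : Pt W) : ∃ e : Ch (Pt W), IsCh e (p₁ x : K) (p₂ x : K) ∧ x ∈ e.source :=
  Ok.ch (W := W) x _ _ (par_spec x)

instance chs : ChartedSpace C2 (Pt W) where
  atlas := {e | ∃ s t, IsCh e s t}
  chartAt x := (ex_ch x).choose
  mem_chart_source x := (ex_ch x).choose_spec.2
  chart_mem_atlas x := ⟨_, _, (ex_ch x).choose_spec.1⟩

theorem isCh_chartAt (x : Pt W) : IsCh (chartAt C2 x) (p₁ x : K) (p₂ x : K) :=
  (ex_ch x).choose_spec.1

theorem IsCh.mem_atlas {e : Ch (Pt W)} {s t : K} (h : IsCh e s t) : e ∈ atlas C2 (Pt W) :=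
  ⟨s, t, h⟩

theorem isCh_of_atlas {e : Ch (Pt W)} (h : e ∈ atlas C2 (Pt W)) : ∃ s t, IsCh e s t := h

omit [Ok W] in
theorem IsCh.trans {e e' : Ch (Pt W)} {s t s' t' : K} (h : IsCh e s t) (h' : IsCh e' s' t')
    {y : Pt W} (hy : y ∈ e.source) (hy' : y ∈ e'.source) :
    AnalyticAt ℂ (fun z => e' (e.symm z)) (e y) := by
  have h1 : AnalyticAt ℂ (fun z => (![ev (e.symm z) s', ev (e.symm z) t'] : C2)) (e y) := by
    refine analyticAt_pi_iff.2 fun i => ?_
    fin_cases i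
    · exact h.an y hy _ (h'.mem y hy').1
    · exact h.an y hy _ (h'.mem y hy').2
  refine h1.congr ?_
  have h2 : Tendsto e.symm (𝓝 (e y)) (𝓝 y) := e.tendsto_symm hy
  filter_upwards [h2.eventually (e'.open_source.mem_nhds hy')] with z hz
  exact (h'.app _ hz).symm

instance mfd : IsManifold 𝓘(ℂ, C2) ω (Pt W) := by
  refine isManifold_of_contDiffOn _ _ _ fun e e' he he' z hz => ?_
  obtain ⟨s, t, h⟩ := he
  obtain ⟨s', t', h'⟩ := he'
  simp only [modelWithCornersSelf_coe, modelWithCornersSelf_coe_symm, preimage_id_eq, id_eq,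
    range_id, inter_univ, OpenPartialHomeomorph.trans_source, OpenPartialHomeomorph.symm_source,
    mem_inter_iff, mem_preimage] at hz
  have h1 := h.trans h' (e.map_target hz.1) hz.2
  rw [e.right_inv hz.1] at h1
  exact h1.contDiffAt.contDiffWithinAt

theorem holN_ev {x : Pt W} {f : K} (hf : f ∈ x.ring) : H815.HolN (fun y : Pt W => ev y f) x :=
  (H815.holN_iff x (mem_chart_source _ x)).2 ((isCh_chartAt x).an x (mem_chart_source _ x) f hf)

end

/-- `d₁`, `d₂` are the vector fields dual to `s`, `t`; they are regular at `x`. -/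
structure Dual (x : Pt W) (s t : K) (d₁ d₂ : Derivation ℂ K K) : Prop where
  s_mem : s ∈ x.ring
  t_mem : t ∈ x.ring
  reg : ∀ a ∈ x.ring, d₁ a ∈ x.ring ∧ d₂ a ∈ x.ring
  e₁₁ : d₁ s = 1
  e₁₂ : d₁ t = 0
  e₂₁ : d₂ s = 0
  e₂₂ : d₂ t = 1
  all : ∀ (δ : Derivation ℂ K K) (a : K), δ a = δ s * d₁ a + δ t * d₂ a

/-! ### A field of meromorphic functions on a complex surface -/

/-- `O x` is the ring of the elements of `K` that are holomorphic at `x`, `val f x` the value. -/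
structure Fld (M : Type) [TopologicalSpace M] [ChartedSpace C2 M] (K : Type) [Field K]
    [Algebra ℂ K] where
  /-- the elements that are holomorphic at `x` -/
  O : M → Subalgebra ℂ K
  /-- the values -/
  val : K → M → ℂ
  val_add : ∀ x, ∀ f ∈ O x, ∀ g ∈ O x, val (f + g) x = val f x + val g x
  val_mul : ∀ x, ∀ f ∈ O x, ∀ g ∈ O x, val (f * g) x = val f x * val g x
  val_const : ∀ x c, val (algebraMap ℂ K c) x = c
  nhds : ∀ x, ∀ f ∈ O x, ∀ᶠ y in 𝓝 x, f ∈ O y
  hol : ∀ x, ∀ f ∈ O x, ∀ᶠ y in 𝓝 x, MDifferentiableAt 𝓘(ℂ, C2) 𝓘(ℂ) (val f) y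
  inv : ∀ x, ∀ f ∈ O x, val f x ≠ 0 → f⁻¹ ∈ O x
  sep : ∀ a b, O a ≤ O b → a = b
  jet : ∀ x, ∃ s ∈ O x, ∃ t ∈ O x, Function.Injective
    (mfderiv 𝓘(ℂ, C2) 𝓘(ℂ, C2) (fun y => (![val s y, val t y] : C2)) x)

section

variable {M : Type} [TopologicalSpace M] [ChartedSpace C2 M] (F : Fld M K)

/-- The points off `D` are points of `M`. -/
def Piece (D : Finset (Crv W)) : Prop := ∀ x : Pt W, Res.Off D x → ∃ m, F.O m = x.ring

/-- The points of `M` are points off `D`. -/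
def Onto (D : Finset (Crv W)) : Prop := ∀ m, ∃ x : Pt W, Res.Off D x ∧ F.O m = x.ring

/-- The open embedding of the complement of `D`. -/
structure Emb [Ok W] (D : Finset (Crv W)) (ι : OpenPartialHomeomorph (Pt W) M) : Prop where
  source : ι.source = {x | Res.Off D x}
  ring : ∀ x ∈ ι.source, F.O (ι x) = x.ring
  val : ∀ x ∈ ι.source, ∀ f ∈ x.ring, F.val f (ι x) = ev x f
  hol : MDifferentiableOn 𝓘(ℂ, C2) 𝓘(ℂ, C2) ι ι.source
  hol' : MDifferentiableOn 𝓘(ℂ, C2) 𝓘(ℂ, C2) ι.symm ι.target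

end

/-! ### Holomorphic line bundles -/

section

variable {X : Type} [TopologicalSpace X] [ChartedSpace C2 X]

/-- The tensor product. -/
def ten (L M : ALB X) : ALB X := ⟨L.ι × M.ι, L.L.tensor M.L⟩

/-- The dual. -/
def du (L : ALB X) : ALB X := ⟨L.ι, L.L.dual⟩

/-- `v` lies in the fibre of `L` at `x`. -/
def Fb (L : ALB X) (x : X) (v : EuclideanSpace ℂ L.ι) : Prop := LB.act (L.L.P x) v = v

variable (X) in
/-- Holomorphic line bundles. -/
structure HL where
  /-- the smooth bundle -/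
  A : ALB X
  /-- the holomorphic structure -/
  a : X → Fin 2 → ℂ
  hol : A.L.IsHol a

/-- The holomorphic sections of `K^κ ⊗ L`. -/
abbrev HL.H0 (L : HL X) (κ : ℤ) : Submodule ℂ (X → EuclideanSpace ℂ L.A.ι) := RR.H0 L.A.L L.a κ

/-- `w` is a section of `L` that is smooth and satisfies the Cauchy-Riemann equation at `x`. -/
structure HL.SecAt (L : HL X) (w : X → EuclideanSpace ℂ L.A.ι) (x : X) : Prop where
  sm : At0 ∞ 0 w x
  sec : Fb L.A x (w x)
  db : ∀ i, L.A.L.db0 L.a 0 w x i = 0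

variable [IsManifold 𝓘(ℂ, C2) ω X]

/-- The tensor product. -/
def HL.ten (L M : HL X) : HL X := ⟨An.ten L.A M.A, fun y => L.a y + M.a y, L.hol.tensor M.hol⟩

/-- The dual. -/
def HL.du (L : HL X) : HL X := ⟨An.du L.A, -L.a, L.hol.dual⟩

variable (X) in
/-- Closed one-forms are exact. -/
def Ex1 : Prop := ∀ A : OneF X, A.Smooth → A.d = 0 → ∃ u : X → ℂ, Reg0 ∞ 0 u ∧ dF0 u = A

variable (X) in
/-- The vanishing of the Dolbeault group of type `(0, 1)`. -/
def Db1 : Prop := ∀ a : X → Fin 2 → ℂ, Reg1 ∞ 0 a → (∀ x, dbar1 0 a x = 0) →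
  ∃ u : X → ℂ, Reg0 ∞ 0 u ∧ ∀ x i, dbar0 0 u x i = a x i

/-- Closed real two-forms with support in `U` have nonnegative square. -/
def Psd (U : Set X) : Prop :=
  ∀ η ∈ H332.HR X, H332.supp2 η ⊆ U → 0 ≤ (intX (η.wedge η)).re

end

/-- The line bundle of the divisor `G`: `v f` is the section given by the function `f`. -/
structure OB [Ok W] (G : Sf.Div W) extends HL (Pt W) where
  /-- the sections -/
  v : K → Pt W → EuclideanSpace ℂ A.ι
  secAt : ∀ x, ∀ f ∈ stalk x G, toHL.SecAt (v f) x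
  mul : ∀ x, ∀ g ∈ x.ring, ∀ f ∈ stalk x G, v (g * f) x = ev x g • v f x
  ne : ∀ x f, GenAt x G f → v f x ≠ 0

/-! ### Sections over the normalisation of a curve -/

section

variable {E : Type} [Field E] [Algebra ℂ E] [CFF ℂ E]

/-- The value at `q` of the local parameter at `w`. -/
def lp (w q : Plk ℂ E) : ℂ := P297Y.Jac.ev q (P297Y.Jac.ch w).t

/-- `f` is a weak solution for the divisor `Δ`. -/
def Weak (Δ : Plk ℂ E →₀ ℤ) (f : Plk ℂ E → ℂ) : Prop :=
  ∀ w, ∃ u : Plk ℂ E → ℂ, (∀ᶠ q in 𝓝 w, ContinuousAt u q) ∧ u w ≠ 0 ∧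
    ∀ᶠ q in 𝓝[≠] w, f q = lp w q ^ Δ w * u q

end

section

variable {S : Surf K} [Ok S.W]

/-- `σ` is a section of `L` over the normalisation of `C` with divisor `Δ`. -/
def Mer (C : Crv S.W) (L : ALB (Pt S.W)) (Δ : Plk ℂ C.Fn →₀ ℤ)
    (σ : Plk ℂ C.Fn → EuclideanSpace ℂ L.ι) : Prop :=
  ∀ w, ∃ v : Plk ℂ C.Fn → EuclideanSpace ℂ L.ι,
    (∀ᶠ q in 𝓝 w, ContinuousAt v q ∧ Fb L (S.pt C q) (v q)) ∧ v w ≠ 0 ∧
    ∀ᶠ q in 𝓝[≠] w, σ q = lp w q ^ Δ w • v q

/-- `L` has degree `d` on `C`. -/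
def Deg (C : Crv S.W) (L : ALB (Pt S.W)) (d : ℤ) : Prop := ∃ Δ σ, dg Δ = d ∧ Mer C L Δ σ

/-- `L` is trivial on the normalisation of `C`. -/
def Triv (C : Crv S.W) (L : ALB (Pt S.W)) : Prop :=
  ∃ τ : Plk ℂ C.Fn → EuclideanSpace ℂ L.ι, Continuous τ ∧ ∀ w, Fb L (S.pt C w) (τ w) ∧ τ w ≠ 0

end

/-- `L` has a continuous section without zeros on `Z`. -/
def TrivOn {X : Type} [TopologicalSpace X] [ChartedSpace C2 X] (L : ALB X) (Z : Set X) : Prop :=
  ∃ t : X → EuclideanSpace ℂ L.ι, ContinuousOn t Z ∧ ∀ x ∈ Z, Fb L x (t x) ∧ t x ≠ 0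

end Vale.Agent.P253Y.An
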