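import Vale.Agent.P253Y.An.Sk
import Vale.Agent.P297Y.An.Par

/-! P253, surfaces, block C: the derivatives of the rational functions. -/

set_option linter.all false

open Filter Topology Set IsLocalRing

noncomputable section

namespace Vale.Agent.P253Y.An

open Vale.Agent.P297Z Vale.Agent.P297Z.Sf
open Vale.Agent.P267 Vale.Agent.P267.FL

variable {K : Type} [Field K] [Algebra ℂ K] {S : Surf K}

theorem exists_dual (S : Surf K) (x : Pt S.W) (s t : x.ring)
    (h : maximalIdeal x.ring = Ideal.span {s, t}) : ∃ d₁ d₂, Dual x s t d₁ d₂ := by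
  obtain ⟨d₁, d₂, r, -, a1, a2, a3, a4, a5⟩ := par K S S.all x s t h
  exact ⟨d₁, d₂, s.2, t.2, r, a1, a2, a3, a4, a5⟩

namespace DerH

/-- A derivation that is regular on the generators of a chart is regular. -/
theorem reg_of (d : Derivation ℂ K K) {y : Pt S.W} {w : K} (hW : w ∈ S.W) (hw : y.In w)
    {T : Finset K} (hT : Submodule.span ℂ (T : Set K) = S.W) (h : ∀ b ∈ T, d (b / w) ∈ y.ring) :
    ∀ a ∈ y.ring, d a ∈ y.ring := by
  have h1 : ∀ a ∈ chart S.W w, d a ∈ y.ring := fun a ha => by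
    induction ha using Algebra.adjoin_induction with
    | mem x hx =>
      obtain ⟨b, hb, rfl⟩ := hx
      rw [← hT] at hb
      induction hb using Submodule.span_induction with
      | mem x hx => exact h x hx
      | zero => simp
      | add x y _ _ hx hy =>
        simp only [add_div, map_add]
        exact add_mem hx hy
      | smul c x _ hx =>
        simp only [smul_div_assoc, Derivation.map_smul]
        exact y.ring.smul_mem hx c
    | algebraMap c => rw [d.map_algebraMap]; exact zero_mem _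
    | add x y _ _ hx hy => rw [map_add]; exact add_mem hx hy
    | mul x y h1 h2 hx hy =>
      rw [d.leibniz]
      exact add_mem (mul_mem (hw.chart_le h1) hy) (mul_mem (hw.chart_le h2) hx)
  intro a ha
  obtain ⟨m, hm, e, -⟩ := S.all.pt_chart y w hW hw
  obtain ⟨b, c, hc, e'⟩ := mem_loc.1 (e ▸ ha)
  have c0 := ne_zero_of_notMem hc
  have e2 : d a = (c : K)⁻¹ * (d b - a * d c) := by
    rw [← e', d.leibniz, smul_eq_mul, smul_eq_mul]
    field_simp
    ring
  rw [e2]
  exact mul_mem (e ▸ inv_mem_loc hm.isPrime hc) (sub_mem (h1 _ b.2) (mul_mem ha (h1 _ c.2)))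

theorem nhds_der (d : Derivation ℂ K K) {x : Pt S.W} (h : ∀ a ∈ x.ring, d a ∈ x.ring) :
    ∀ᶠ y in 𝓝 x, ∀ a ∈ y.ring, d a ∈ y.ring := by
  have := S.model.fin
  obtain ⟨w, hW, hw⟩ := x.exists_in
  obtain ⟨T, hT⟩ : S.W.FG := Module.Finite.iff_fg.1 inferInstance
  have h1 : ∀ b ∈ T, b / w ∈ x.ring := fun b hb => hw.2 b (hT ▸ Submodule.subset_span hb)
  filter_upwards [(eventually_all_finset T).2 fun b hb =>
    (nhds_reg (h1 b hb)).and (nhds_reg (h _ (h1 b hb)))] with y hy
  refine reg_of d hW ⟨hw.1, fun a ha => ?_⟩ hT fun b hb => (hy b hb).2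
  rw [← hT] at ha
  induction ha using Submodule.span_induction with
  | mem x hx => exact (hy x hx).1
  | zero => simp
  | add x y _ _ hx hy =>
    rw [add_div]
    exact add_mem hx hy
  | smul c x _ hx =>
    rw [smul_div_assoc]
    exact y.ring.smul_mem hx c

/-- Derivations at a point. -/
structure PD (y : Pt S.W) (X : K → ℂ) : Prop where
  add : ∀ f ∈ y.ring, ∀ g ∈ y.ring, X (f + g) = X f + X g
  mul : ∀ f ∈ y.ring, ∀ g ∈ y.ring, X (f * g) = ev y f * X g + ev y g * X f
  cst : ∀ c : ℂ, X (algebraMap ℂ K c) = 0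

theorem pd_der (d : Derivation ℂ K K) {y : Pt S.W} (h : ∀ a ∈ y.ring, d a ∈ y.ring) :
    PD y fun f => ev y (d f) where
  add f hf g hg := by rw [map_add, ev_add (h f hf) (h g hg)]
  mul f hf g hg := by
    rw [d.leibniz, smul_eq_mul, smul_eq_mul, ev_add (mul_mem hf (h g hg)) (mul_mem hg (h f hf)),
      ev_mul hf (h g hg), ev_mul hg (h f hf)]
  cst c := by rw [d.map_algebraMap, ev_zero]

theorem coef {y : Pt S.W} {u v : y.ring} (hm : maximalIdeal y.ring = Ideal.span {u, v}) {f : K}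
    (hf : f ∈ y.ring) : ∃ α β : ℂ, ∀ X, PD y X → X f = α * X u + β * X v := by
  obtain ⟨h4, h5⟩ := y.van_iff.1 (van_sub_ev hf)
  rw [hm] at h5
  obtain ⟨α, β, e⟩ := Ideal.mem_span_pair.1 h5
  have h7 : f = (α : K) * u + β * v + algebraMap ℂ K (ev y f) :=
    sub_eq_iff_eq_add.1 (congrArg Subtype.val e).symm
  have u0 : ev y u = 0 := ev_van ((y.mem_max u).1 (hm ▸ Ideal.subset_span (by simp)))
  have v0 : ev y v = 0 := ev_van ((y.mem_max v).1 (hm ▸ Ideal.subset_span (by simp)))
  refine ⟨ev y α, ev y β, fun X hX => ?_⟩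
  have a1 := mul_mem α.2 u.2
  have a2 := mul_mem β.2 v.2
  conv_lhs => rw [h7, hX.add _ (add_mem a1 a2) _ (y.ring.algebraMap_mem _), hX.cst,
    hX.add _ a1 _ a2, hX.mul _ α.2 _ u.2, hX.mul _ β.2 _ v.2, u0, v0]
  ring

/-- A derivation at a point is determined by its values on the coordinates. -/
theorem pd_eq {y : Pt S.W} {s t : K} {d₁ d₂ : Derivation ℂ K K} (h : Dual y s t d₁ d₂)
    {X : K → ℂ} (hX : PD y X) {f : K} (hf : f ∈ y.ring) :
    X f = ev y (d₁ f) * X s + ev y (d₂ f) * X t := by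
  obtain ⟨w, hW, hw⟩ := y.exists_in
  obtain ⟨-, -, -, -, u, v, -, -, hm⟩ := S.all.gens y w hW hw
  obtain ⟨α, β, e1⟩ := coef hm hf
  obtain ⟨a, b, e2⟩ := coef hm h.s_mem
  obtain ⟨c, d, e3⟩ := coef hm h.t_mem
  have p1 := pd_der d₁ fun a ha => (h.reg a ha).1
  have p2 := pd_der d₂ fun a ha => (h.reg a ha).2
  have b1 := e2 _ p1
  have b2 := e2 _ p2
  have b3 := e3 _ p1
  have b4 := e3 _ p2
  simp only [h.e₁₁, h.e₁₂, h.e₂₁, h.e₂₂, ev_one, ev_zero] at b1 b2 b3 b4
  rw [e1 X hX, e2 X hX, e3 X hX, e1 _ p1, e1 _ p2]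
  generalize ev y (d₁ u) = p at *
  generalize ev y (d₁ v) = q at *
  generalize ev y (d₂ u) = r at *
  generalize ev y (d₂ v) = z at *
  have c0 : (a * d - b * c) * (p * z - r * q) = 1 := by
    linear_combination (-(c * r + d * z)) * b1 - b4 + (c * p + d * q) * b2
  have c1 : p * (a * d - b * c) = d := by linear_combination (-d) * b1 + b * b3
  have c2 : q * (a * d - b * c) = -c := by linear_combination (-a) * b3 + c * b1
  have c3 : r * (a * d - b * c) = -b := by linear_combination (-d) * b2 + b * b4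
  have c4 : z * (a * d - b * c) = a := by linear_combination (-a) * b4 + c * b2
  refine mul_left_cancel₀ (left_ne_zero_of_mul_eq_one c0) ?_
  linear_combination (-α * (a * X u + b * X v)) * c1 - β * (a * X u + b * X v) * c2 -
    α * (c * X u + d * X v) * c3 - β * (c * X u + d * X v) * c4

theorem pd_ch {y : Pt S.W} {e : Ch (Pt S.W)} {s t : K} (h : IsCh e s t) (hy : y ∈ e.source)
    (v : C2) : PD y fun f => fderiv ℂ (fun z => ev (e.symm z) f) (e y) v where
  add f hf g hg := by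
    have h1 : (fun z => ev (e.symm z) (f + g)) =ᶠ[𝓝 (e y)]
        fun z => ev (e.symm z) f + ev (e.symm z) g := by
      filter_upwards [(e.tendsto_symm hy).eventually ((nhds_reg hf).and (nhds_reg hg))] with z hz
      exact ev_add hz.1 hz.2
    rw [h1.fderiv_eq, fderiv_fun_add (h.an y hy f hf).differentiableAt
      (h.an y hy g hg).differentiableAt]
    rfl
  mul f hf g hg := by
    have h1 : (fun z => ev (e.symm z) (f * g)) =ᶠ[𝓝 (e y)]
        fun z => ev (e.symm z) f * ev (e.symm z) g := by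
      filter_upwards [(e.tendsto_symm hy).eventually ((nhds_reg hf).and (nhds_reg hg))] with z hz
      exact ev_mul hz.1 hz.2
    rw [h1.fderiv_eq, fderiv_fun_mul (h.an y hy f hf).differentiableAt
      (h.an y hy g hg).differentiableAt, e.left_inv hy]
    rfl
  cst c := by simp [ev_const]

theorem hasF {y : Pt S.W} {s t : K} {d₁ d₂ : Derivation ℂ K K} (h : Dual y s t d₁ d₂)
    {e : Ch (Pt S.W)} (he : IsCh e s t) (hy : y ∈ e.source) {f : K} (hf : f ∈ y.ring) :
    HasFDerivAt (fun z => ev (e.symm z) f)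
      (ev y (d₁ f) • (ContinuousLinearMap.proj 0 : C2 →L[ℂ] ℂ) +
        ev y (d₂ f) • (ContinuousLinearMap.proj 1 : C2 →L[ℂ] ℂ)) (e y) := by
  have h0 : ∀ᶠ z in 𝓝 (e y), z = ![ev (e.symm z) s, ev (e.symm z) t] := by
    filter_upwards [e.open_target.mem_nhds (e.map_source hy)] with z hz
    rw [← he.app _ (e.map_target hz), e.right_inv hz]
  have h1 : (fun z => ev (e.symm z) s) =ᶠ[𝓝 (e y)] (ContinuousLinearMap.proj 0 : C2 →L[ℂ] ℂ) :=
    h0.mono fun z hz => (congrFun hz 0).symm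
  have h2 : (fun z => ev (e.symm z) t) =ᶠ[𝓝 (e y)] (ContinuousLinearMap.proj 1 : C2 →L[ℂ] ℂ) :=
    h0.mono fun z hz => (congrFun hz 1).symm
  refine (he.an y hy f hf).differentiableAt.hasFDerivAt.congr_fderiv ?_
  ext1 v
  have h3 := pd_eq h (pd_ch he hy v) hf
  simp only [h1.fderiv_eq, h2.fderiv_eq, ContinuousLinearMap.fderiv] at h3
  rw [h3]
  rfl

end DerH

theorem der : DER := by
  intro K _ _ S x s t d₁ d₂ h
  filter_upwards [nhds_reg h.s_mem, nhds_reg h.t_mem,
    DerH.nhds_der d₁ fun a ha => (h.reg a ha).1, DerH.nhds_der d₂ fun a ha => (h.reg a ha).2]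
    with y h1 h2 h3 h4
  have h5 : Dual y s t d₁ d₂ :=
    ⟨h1, h2, fun a ha => ⟨h3 a ha, h4 a ha⟩, h.e₁₁, h.e₁₂, h.e₂₁, h.e₂₂, h.all⟩
  exact ⟨h5, fun e he hy f hf => DerH.hasF h5 he hy hf⟩

end Vale.Agent.P253Y.An
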