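import Vale.Agent.P253Y.An.Sk2
import Vale.Agent.P253Y.G.Basic
import Vale.Agent.P267.H283.Pars1
import Vale.Agent.P267.H283.Facts2
import Vale.Agent.P267.H662.CurvThm

/-! P253, surfaces, block E: holomorphic bundles have a degree on every curve. -/

set_option linter.all false

open scoped Manifold ContDiff
open Filter Topology Set

noncomputable section

namespace Vale.Agent.P253Y.An

open Vale.Agent.P297Z Vale.Agent.P297Z.Sf
open Vale.Agent.P267 Vale.Agent.P267.FL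
open Vale.Agent.P267.RR (isec IsCanon OX)
open Vale.Agent.P267.BlockC (ALB)

namespace DexH

theorem big (a c e h : ℝ) (hh : 1 ≤ h) :
    ∃ k : ℕ, c - a - k * h < 0 ∧ 0 < e + 2 * k * a + k * k * h - k * c := by
  obtain ⟨k, hk⟩ := exists_nat_gt (2 * |a| + |c| + |e| + 1)
  have a1 := abs_nonneg a
  have a2 := neg_abs_le a
  have c1 := abs_nonneg c
  have c2 := le_abs_self c
  have e1 := abs_nonneg e
  have e2 := neg_abs_le e
  have k1 : (k : ℝ) ≤ k * h := le_mul_of_one_le_right (by positivity) hh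
  refine ⟨k, by linarith, ?_⟩
  have k2 : |e| + 1 ≤ 2 * a + k * h - c := by linarith
  have k3 : 2 * a + k * h - c ≤ k * (2 * a + k * h - c) :=
    le_mul_of_one_le_left (by linarith) (by linarith)
  nlinarith

variable {X : Type} [TopologicalSpace X] [T2Space X] [CompactSpace X] [ChartedSpace C2 X]
  [IsManifold 𝓘(ℂ, C2) ω X]

theorem i_ten (L L' M : ALB X) : isec (ten L L').L M.L = isec L.L M.L + isec L'.L M.L :=
  H283.isec_ten (BlockC.formFacts (H662.curvFacts X)) L L' M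

theorem i_ten' (L L' M : ALB X) : isec M.L (ten L L').L = isec M.L L.L + isec M.L L'.L :=
  H283.isec_ten' (BlockC.formFacts (H662.curvFacts X)) L L' M

theorem i_du (L M : ALB X) : isec (du L).L M.L = -isec L.L M.L :=
  H283.isec_du (BlockC.formFacts (H662.curvFacts X)) L M

theorem sec_of {L : HL X} {κ : ℤ} (h : RR.h0 L.A.L L.a κ ≠ 0) : ∃ s ∈ L.H0 κ, s ≠ 0 :=
  (Submodule.ne_bot_iff _).1 fun e => h (by
    change RR.H0 L.A.L L.a κ = ⊥ at e
    rw [RR.h0, e, finrank_bot])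

end DexH

open DexH in
/-- A twist by a multiple of the hyperplane class has a section. -/
theorem twist_sec (rr : RR.RRBlock) (efk : EFK) (ise : ISEC) (lin : LIN) (can : CAN) (obe : OBE)
    {K : Type} [Field K] [Algebra ℂ K] (S : Surf K) [Ok S.W] (L : HL (Pt S.W)) :
    ∃ (k : ℕ) (B : OB (k • S.H)), ∃ s ∈ (L.ten B.toHL).H0 0, s ≠ 0 := by
  have hA := S.all
  obtain ⟨-, hS, hR, -⟩ := rr (Pt S.W)
  obtain ⟨φ, h1, h2⟩ := lin K S L.A
  obtain ⟨BK⟩ := obe K S S.kap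
  obtain ⟨σ, s1, s2⟩ := can K S BK
  have hK : IsCanon BK.A.L := ⟨σ, ((RR.mem_H0 _ _ _).1 s1).1.1, ((RR.mem_H0 _ _ _).1 s1).1.2, s2⟩
  obtain ⟨k, k1, k2⟩ := big (φ S.H).re (inter S.kap S.H : ℤ)
    (2 * (RR.chi (OX (Pt S.W)) 0 0 : ℤ) + (isec L.A.L L.A.L).re - (isec L.A.L BK.A.L).re)
    (inter S.H S.H : ℤ) (by exact_mod_cast hA.sq)
  obtain ⟨B⟩ := obe K S (k • S.H)
  refine ⟨k, B, sec_of fun o => ?_⟩
  have x0 := S.x_ne 0
  have e1 : inter S.H (S.H + div S.W (S.x 0)) = inter S.H S.H := by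
    rw [Mp.i_add', Mp.i_div' x0, add_zero]
  have a1 : RR.h2 (L.ten B.toHL).A.L (L.ten B.toHL).a 0 = 0 := by
    rw [(hS _ _ _ (L.ten B.toHL).hol 0).2.2]
    by_contra o'
    obtain ⟨s, t1, t2⟩ := sec_of (L := (L.ten B.toHL).du) (κ := 1) o'
    obtain ⟨BA⟩ := obe K S (S.H + div S.W (S.x 0))
    have b1 := efk K S _ s t1 t2 _ BA
      (eff_of_mem hA.toLoc2 (mem_H0_H hA.toLoc2 (S.x_mem 0)) x0)
      fun C => by rw [inter_lin hA.toRR _ _ x0]; exact Hd.nef_H hA C
    have b2 : isec (L.ten B.toHL).du.A.L BA.A.L = -(φ S.H + (k * inter S.H S.H : ℤ)) := by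
      change isec (du (ten L.A B.A)).L BA.A.L = _
      rw [i_du, i_ten, h1, ise K S _ _ B BA, map_add, h2 _ x0, add_zero, Mp.i_nsmul, e1]
    rw [b2, Mp.i_add', Mp.i_div' x0, add_zero] at b1
    simp only [Complex.neg_re, Complex.add_re, Complex.intCast_re] at b1
    push_cast at b1
    linarith
  have a2 := hR _ _ _ _ BK.A.L (L.ten B.toHL).hol hK
  have a3 : isec (L.ten B.toHL).A.L (L.ten B.toHL).A.L =
      isec L.A.L L.A.L + 2 * (k * φ S.H) + (k * (k * inter S.H S.H) : ℤ) := by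
    change isec (ten L.A B.A).L (ten L.A B.A).L = _
    rw [i_ten, i_ten', i_ten', BlockC.isec_comm B.A.L L.A.L, h1, ise K S _ _ B B, map_nsmul,
      Mp.i_nsmul, Mp.i_nsmul', nsmul_eq_mul]
    ring
  have a4 : isec (L.ten B.toHL).A.L BK.A.L =
      isec L.A.L BK.A.L + (k * inter S.kap S.H : ℤ) := by
    change isec (ten L.A B.A).L BK.A.L = _
    rw [i_ten, ise K S _ _ B BK, Mp.i_nsmul, Sf.inter_comm S.H]
  rw [a3, a4, RR.chi, o, a1] at a2
  have a5 := congrArg Complex.re a2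
  simp only [Complex.add_re, Complex.sub_re, Complex.intCast_re, Complex.div_ofNat_re,
    Complex.mul_re, Complex.natCast_re, Complex.natCast_im, Complex.re_ofNat, Complex.im_ofNat,
    zero_mul, sub_zero] at a5
  push_cast at a5
  have a6 : (0 : ℝ) ≤ RR.h1 (L.ten B.toHL).A.L (L.ten B.toHL).a 0 := Nat.cast_nonneg _
  linarith

theorem dex (rr : RR.RRBlock) (msp : MSP) (deg : DEG) (rst : RST) (efk : EFK) (ise : ISEC)
    (lin : LIN) (can : CAN) (obe : OBE) : DEX := by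
  intro K _ _ S _ L C
  obtain ⟨k, B, s, s1, s2⟩ := twist_sec rr efk ise lin can obe S L
  obtain ⟨Z, -, -, hZ⟩ := msp K S _ s s1 s2 {C}
  obtain ⟨BZ⟩ := obe K S (-Z)
  obtain ⟨d, -, hd, -⟩ := hZ BZ C (Finset.mem_singleton_self C)
  exact ⟨_, (deg K S C L.A B.A _ _).2 ((deg K S C _ _ _ _).2 hd (rst K S C _ BZ))
    (rst K S C _ B)⟩

end Vale.Agent.P253Y.An
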