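import Vale.Agent.P253Y.An.Sk2
import Vale.Agent.P253Y.G.Basic

/-! P253, surfaces, block C: the points form a compact complex surface. -/

set_option linter.all false

open Filter Topology Set IsLocalRing

noncomputable section

namespace Vale.Agent.P253Y.An

open Vale.Agent.P297Z Vale.Agent.P297Z.Sf

namespace OksH

variable {K : Type} [Field K] [Algebra ℂ K] {S : Surf K}

/-- Every point lies on a curve. -/
theorem exists_on (x : Pt S.W) : ∃ C : Crv S.W, x.On C := by
  obtain ⟨C⟩ := crv_ne S.all.toLoc2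
  obtain ⟨w₀, h1, h2⟩ := C.exists_in
  obtain ⟨y, hy, hne⟩ := (S.all.inf_pt C w₀ h1 h2).nontrivial.exists_ne x
  obtain ⟨w, h3, h4⟩ := S.all.sep x y hne.symm
  obtain ⟨C', h5, -⟩ := hyp_van S.all.toLoc2 h3 h4.1
  exact ⟨C', h5⟩

theorem pre (hP : PLK) (C : Crv S.W) : IsPreconnected {x : Pt S.W | x.On C} := by
  have := hP C.Fn
  rw [← range_pt]
  exact isPreconnected_range (continuous_pt C)

theorem conn (hP : PLK) (hO : ORTH) : ConnectedSpace (Pt S.W) := by
  have : PreconnectedSpace (Pt S.W) := by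
    refine ⟨isPreconnected_of_forall_constant fun f hf x _ y _ => ?_⟩
    have hc : ∀ {C : Crv S.W} {u v : Pt S.W}, u.On C → v.On C → f u = f v := fun {C} _ _ a b =>
      (pre hP C).constant (hf.mono (subset_univ _)) a b
    obtain ⟨C, hC⟩ := exists_on x
    obtain ⟨C', hC'⟩ := exists_on y
    have key := hO K S {C | ∀ u : Pt S.W, u.On C → f u = f x} fun A hA B hB => by
      have n : A ≠ B := fun e => hB (e ▸ hA)
      refine le_antisymm (not_lt.1 fun h => ?_) (Mp.i_cl n)
      obtain ⟨z, k1, k2⟩ := (Mp.i_pos_iff n).1 h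
      exact hB fun u hu => (hc hu k2).trans (hA z k1)
    rcases key with h | h
    · exact absurd (fun u hu => hc hu hC) (eq_empty_iff_forall_notMem.1 h C)
    · exact ((eq_univ_iff_forall.1 h C') y hC').symm
  exact { toNonempty := S.all.pt_ne }

end OksH

theorem oks (h1 : T2C) (h2 : CH) (h3 : PLK) (h4 : ORTH) : OKS := fun K _ _ S =>
  { par := fun x => by
      obtain ⟨w, hw, hx⟩ := x.exists_in
      obtain ⟨-, -, -, -, s, t, -, -, e⟩ := S.all.gens x w hw hx
      exact ⟨(s, t), e⟩
    ch := h2 K S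
    t2 := (h1 K S).1
    cpt := (h1 K S).2
    conn := OksH.conn h3 h4 }

end Vale.Agent.P253Y.An
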