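import Vale.Agent.P253Y.An.Frm
import Vale.Agent.P253Y.An.Oks

/-! P253, surfaces, block C: bundles with a holomorphic section. -/

set_option linter.all false

open scoped Manifold ContDiff
open Filter Topology Set

noncomputable section

namespace Vale.Agent.P253Y.An

open Vale.Agent.P297Z Vale.Agent.P297Z.Sf
open Vale.Agent.P267 Vale.Agent.P267.FL
open Frm

theorem effX (msp : MSP) (di : DI) (is : ISEC) (lin : LIN) (obe : OBE) : EFF := by
  intro K _ _ S _ L s s1 s2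
  obtain ⟨φ, p, q⟩ := lin K S L.A
  have key : ∀ A : Sf.Div S.W, 0 ≤ A → S.Nef A → ∃ (Z : Sf.Div S.W) (e : ℤ), 0 ≤ Z ∧ 0 ≤ e ∧
      0 ≤ inter A Z ∧ φ A = (inter A Z + e : ℤ) ∧
      (e = 0 → Z = 0 → ∀ C, A C ≠ 0 → ∀ x, x.On C → s x ≠ 0) := fun A hA hN => by
    obtain ⟨Z, z1, -, z2⟩ := msp K S L s s1 s2 A.support
    obtain ⟨B⟩ := obe K S (-Z)
    choose! d d1 d2 d3 using z2 B
    have a1 : ∀ C ∈ A.support, φ C.cl = (inter C.cl Z + d C : ℤ) := fun C hC => by
      obtain ⟨B'⟩ := obe K S C.cl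
      have := di K S C _ _ B' (d2 C hC)
      rw [isec_ten, p, is K S _ _ B B', Mp.i_neg, Sf.inter_comm] at this
      push_cast at this ⊢
      linear_combination this
    have a2 : ∀ C ∈ A.support, 0 ≤ A C * d C := fun C hC => mul_nonneg (hA C) (d1 C hC)
    refine ⟨Z, ∑ C ∈ A.support, A C * d C, z1, Finset.sum_nonneg a2, ?_, ?_, fun e z C c => ?_⟩
    · rw [Mp.i_on' (Mp.on_support Z)]
      exact Finset.sum_nonneg fun C _ => mul_nonneg (z1 C) (hN C)
    · rw [Mp.i_on (Mp.on_support A), ← Finset.sum_add_distrib, Int.cast_sum]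
      conv_lhs => rw [(Mp.on_support A).eq_sum, map_sum]
      refine Finset.sum_congr rfl fun C hC => ?_
      rw [map_zsmul, a1 C hC, zsmul_eq_mul, ← Int.cast_mul, mul_add]
    · have c' := Finsupp.mem_support_iff.2 c
      exact d3 C c' ((mul_eq_zero.1
        ((Finset.sum_eq_zero_iff_of_nonneg a2).1 e C c')).resolve_left c) z
  refine ⟨fun A B hA hN => ?_, fun B h x => ?_⟩
  · obtain ⟨Z, e, -, a1, a2, a3, -⟩ := key A hA hN
    rw [p, a3, Complex.intCast_re]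
    exact_mod_cast add_nonneg a2 a1
  obtain ⟨C, hC⟩ := OksH.exists_on x
  obtain ⟨m₀, hm⟩ := S.all.gen_sec (-C.cl)
  obtain ⟨g, g1, g2, -⟩ := hm (max m₀ 1) (le_max_left _ _) x
  have m1 : 0 < max m₀ 1 := lt_of_lt_of_le one_pos (le_max_right _ _)
  generalize max m₀ 1 = m at g1 m1
  have b1 : ∀ X, C.cl X ≤ (m • S.H + div S.W g) X := fun X => by
    have := g1.resolve_left g2 X trivial
    rw [Finsupp.add_apply, div_apply S.all.toLoc2]
    change 0 ≤ X.ord g + (-C.cl X + (m • S.H) X) at this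
    omega
  have b2 : ∀ X, inter (m • S.H + div S.W g) X = m * inter S.H X := fun X => by
    rw [Mp.i_add, Mp.i_div g2, add_zero, Mp.i_smul]
  obtain ⟨Z, e, a0, a1, a2, a3, a4⟩ := key _ (fun X => (Mp.cl_nonneg C X).trans (b1 X))
    fun X => b2 _ ▸ mul_nonneg m1.le (Hd.nef_H S.all X)
  rw [map_add, q g g2, map_zsmul, ← p _ B, h, smul_zero, add_zero, eq_comm,
    Int.cast_eq_zero] at a3
  have b3 := b1 C
  rw [Mp.cl_self] at b3
  refine a4 (by omega) (Hd.eq_zero_of_deg S.all a0 ?_) C (by omega) x hC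
  exact (mul_eq_zero.1 (b2 Z ▸ show inter (m • S.H + div S.W g) Z = 0 by omega)).resolve_left m1.ne'

theorem efkX (eff : EFF) (can : CAN) (is : ISEC) (obe : OBE) : EFK := by
  intro K _ _ S _ L s s1 s2 A B hA hN
  obtain ⟨BK⟩ := obe K S S.kap
  obtain ⟨σ, a1, a2⟩ := can K S BK
  obtain ⟨⟨b1, b2⟩, b3⟩ := (RR.mem_H0 _ _ _).1 s1
  obtain ⟨⟨c1, c2⟩, c3⟩ := (RR.mem_H0 _ _ _).1 a1
  obtain ⟨x, hx⟩ := Function.ne_iff.1 s2
  have := (eff K S (L.ten BK.toHL) (fun y => LB.ten (s y) (σ y)) ((RR.mem_H0 _ _ _).2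
    ⟨⟨reg0_iff_at.2 fun y => LB.at0_ten (b1.at y) (c1.at y), b2.ten c2⟩, by
      funext y i
      have := LB.db0_ten (L := L.A.L) (L' := BK.A.L) (a := L.a) (a' := BK.a)
        ((b1.at y).of_le (by simp))
        ((c1.at y).of_le (by simp)) (b2 y) (c2 y) i
      rw [b3, c3] at this
      refine this.trans ?_
      ext k
      simp [LB.ten_apply]
      rfl⟩)
    (Function.ne_iff.2 ⟨x, LB.ten_ne_zero hx (a2 x)⟩)).1 A B hA hN
  change 0 ≤ (RR.isec (ten L.A BK.A).L B.A.L).re at this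
  rwa [isec_ten, is K S _ _ BK B, Complex.add_re, Complex.intCast_re] at this

end Vale.Agent.P253Y.An
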