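import Vale.Agent.P253Y.An.Sk

/-! P253, surfaces, block C: the open embedding of the complement of the boundary. -/

set_option linter.all false

open scoped Manifold ContDiff
open Filter Topology Set IsLocalRing

noncomputable section

namespace Vale.Agent.P253Y.An

open Vale.Agent.P297Z Vale.Agent.P297Z.Sf
open Vale.Agent.P267 Vale.Agent.P267.FL

namespace EmbH

variable {K : Type} [Field K] [Algebra ℂ K] {S : Surf K}
  {M : Type} [TopologicalSpace M] [ChartedSpace C2 M] (F : Fld M K)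

/-- The value at `m` on a subalgebra of `O m`. -/
def vh (m : M) {A : Subalgebra ℂ K} (h : A ≤ F.O m) : A →ₐ[ℂ] ℂ where
  toFun f := F.val f m
  map_one' := by simpa using F.val_const m 1
  map_mul' f g := F.val_mul m _ (h f.2) _ (h g.2)
  map_zero' := by simpa using F.val_const m 0
  map_add' f g := F.val_add m _ (h f.2) _ (h g.2)
  commutes' c := F.val_const m c

theorem val_ne {m : M} {f : K} (h0 : f ≠ 0) (hf : f ∈ F.O m) (h : f⁻¹ ∈ F.O m) :
    F.val f m ≠ 0 := by
  intro e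
  have h1 := F.val_mul m _ hf _ h
  have h2 : F.val 1 m = 1 := by simpa using F.val_const m 1
  rw [mul_inv_cancel₀ h0, h2, e, zero_mul] at h1
  exact one_ne_zero h1

theorem val_sub_const {m : M} {f : K} (hf : f ∈ F.O m) :
    F.val (f - algebraMap ℂ K (F.val f m)) m = 0 := by
  rw [sub_eq_add_neg, ← map_neg, F.val_add m _ hf _ ((F.O m).algebraMap_mem _), F.val_const,
    add_neg_cancel]

theorem ev_of_le {y : Pt S.W} {m : M} (h : y.ring ≤ F.O m) {f : K} (hf : f ∈ y.ring) :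
    ev y f = F.val f m := by
  have h1 : f - algebraMap ℂ K (F.val f m) ∈ y.ring := sub_mem hf (y.ring.algebraMap_mem _)
  refine ev_eq ⟨h1, ?_⟩
  by_contra h2
  rw [not_or, not_not] at h2
  exact val_ne F h2.1 (h h1) (h h2.2) (val_sub_const F (h hf))

theorem exists_le {m : M} {w : K} (hw : w ∈ S.W) (h0 : w ≠ 0) (h : chart S.W w ≤ F.O m) :
    ∃ y : Pt S.W, y.ring ≤ F.O m ∧ y.In w := by
  have hm : (RingHom.ker (vh F m h)).IsMaximal :=
    RingHom.ker_isMaximal_of_surjective _ fun c => ⟨algebraMap ℂ _ c, (vh F m h).commutes c⟩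
  refine ⟨⟨loc _ _ hm.isPrime, w, hw, h0, _, hm, rfl⟩, ?_, h0, fun a ha => ?_⟩
  · exact loc_le hm.isPrime h fun b hb => F.inv m _ (h b.2) hb
  · exact le_loc _ _ hm.isPrime (div_mem_chart ha)

theorem le_unique {y y' : Pt S.W} {m : M} (h : y.ring ≤ F.O m) (h' : y'.ring ≤ F.O m) :
    y = y' := by
  obtain ⟨w, hw, h1⟩ := y.exists_in
  obtain ⟨w', hw', h2⟩ := y'.exists_in
  have h3 : y'.In w := by
    refine (Pt.in_iff h2 hw' hw).2 fun e => ?_
    have h4 := ev_van e
    rw [ev_of_le F h' e.1] at h4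
    exact val_ne F (div_ne_zero h1.1 h2.1) (h' e.1) (by rw [inv_div]; exact h (h1.2 _ hw')) h4
  obtain ⟨p, hp, e, hv⟩ := S.all.pt_chart y w hw h1
  refine S.all.pt_ext _ _ ?_
  rw [e]
  refine loc_le _ h3.chart_le fun b hb => (inv_mem (h3.chart_le b.2) ?_).2
  rw [ev_of_le F h' (h3.chart_le b.2), ← ev_of_le F h (h1.chart_le b.2)]
  exact fun e => hb ((hv b).2 ((van_iff_ev (h1.chart_le b.2)).2 e))

variable (S) in
open Classical in
/-- The centre of a point of `M` on the surface. -/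
def ct (m : M) : Pt S.W :=
  if h : ∃ y : Pt S.W, y.ring ≤ F.O m then h.choose else S.all.pt_ne.some

theorem ct_eq {y : Pt S.W} {m : M} (h : y.ring ≤ F.O m) : ct S F m = y := by
  have h0 : ∃ y : Pt S.W, y.ring ≤ F.O m := ⟨y, h⟩
  rw [ct, dif_pos h0]
  exact le_unique F h0.choose_spec h

theorem nhds_chart {m : M} {w : K} (h : chart S.W w ≤ F.O m) :
    ∀ᶠ m' in 𝓝 m, chart S.W w ≤ F.O m' := by
  have := S.model.fin
  obtain ⟨T, hT⟩ := (Submodule.fg_iff_finiteDimensional S.W).2 this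
  have h1 : ∀ᶠ m' in 𝓝 m, ∀ a ∈ T, a / w ∈ F.O m' :=
    (eventually_all_finset T).2 fun a ha =>
      F.nhds m _ (h (div_mem_chart (hT ▸ Submodule.subset_span ha)))
  filter_upwards [h1] with m' hm'
  refine chart_le fun a ha => ?_
  rw [← hT] at ha
  induction ha using Submodule.span_induction with
  | mem a ha => exact hm' a ha
  | zero => simpa using zero_mem _
  | add a b _ _ ha hb => rw [add_div]; exact add_mem ha hb
  | smul c a _ ha => rw [smul_div_assoc]; exact Subalgebra.smul_mem _ ha c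

theorem val_cont {m : M} {f : K} (hf : f ∈ F.O m) : ContinuousAt (F.val f) m :=
  (F.hol m f hf).self_of_nhds.continuousAt

theorem nhds_ct {x : Pt S.W} {m : M} (h : x.ring ≤ F.O m) {f : K} (hf : f ∈ x.ring) :
    ∀ᶠ m' in 𝓝 m, (ct S F m').ring ≤ F.O m' ∧ f ∈ (ct S F m').ring := by
  obtain ⟨w, hw, h1⟩ := x.exists_in
  obtain ⟨p, hp, e, hv⟩ := S.all.pt_chart x w hw h1
  rw [e] at hf
  obtain ⟨a, b, hb, hf⟩ := hf
  have h2 : F.val b m ≠ 0 := by
    rw [← ev_of_le F h (h1.chart_le b.2)]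
    exact fun e => hb ((hv b).2 ((van_iff_ev (h1.chart_le b.2)).2 e))
  filter_upwards [nhds_chart F (h1.chart_le.trans h),
    (val_cont F (h (h1.chart_le b.2))).eventually_ne h2] with m' h3 h4
  obtain ⟨y, h5, h6⟩ := exists_le F hw h1.1 h3
  rw [ct_eq F h5]
  refine ⟨h5, ?_⟩
  rw [← ev_of_le F h5 (h6.chart_le b.2)] at h4
  obtain ⟨h7, h8⟩ := inv_mem (h6.chart_le b.2) h4
  have : f = a * (b : K)⁻¹ := by rw [← hf, mul_inv_cancel_right₀ h7]
  rw [this]
  exact mul_mem (h6.chart_le a.2) h8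

theorem ev_ct {x : Pt S.W} {m : M} (h : x.ring ≤ F.O m) {f : K} (hf : f ∈ x.ring) :
    (fun m' => ev (ct S F m') f) =ᶠ[𝓝 m] F.val f :=
  (nhds_ct F h hf).mono fun _ h => ev_of_le F h.1 h.2

theorem tendsto_ct {x : Pt S.W} {m : M} (h : x.ring ≤ F.O m) :
    Tendsto (ct S F) (𝓝 m) (𝓝 x) := by
  refine tendsto_pt fun f hf => ⟨(nhds_ct F h hf).mono fun _ h => h.2, ?_⟩
  rw [ev_of_le F h hf]
  exact (val_cont F (h hf)).tendsto.congr' (ev_ct F h hf).symm

/-- The map given by two functions. -/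
def pr (s t : K) (m : M) : C2 := ![F.val s m, F.val t m]

theorem pr_hol {m : M} {s t : K} (hs : s ∈ F.O m) (ht : t ∈ F.O m) :
    ∀ᶠ m' in 𝓝 m, MDifferentiableAt 𝓘(ℂ, C2) 𝓘(ℂ, C2) (pr F s t) m' := by
  filter_upwards [F.hol m s hs, F.hol m t ht] with m' h1 h2
  rw [mdifferentiableAt_iff] at h1 h2 ⊢
  refine ⟨continuousAt_pi.2 fun i => ?_, differentiableWithinAt_pi.2 fun i => ?_⟩
  · fin_cases i
    · exact h1.1
    · exact h2.1
  · fin_cases i
    · exact h1.2
    · exact h2.2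

variable [IsManifold 𝓘(ℂ, C2) 1 M]

theorem pr_an {m : M} {s t : K} (hs : s ∈ F.O m) (ht : t ∈ F.O m) :
    AnalyticAt ℂ (pr F s t ∘ (chartAt C2 m).symm) (chartAt C2 m m) := by
  have h1 : ∀ᶠ z in 𝓝 (chartAt C2 m m), DifferentiableAt ℂ (pr F s t ∘ (chartAt C2 m).symm) z := by
    filter_upwards [((chartAt C2 m).tendsto_symm (mem_chart_source _ m)).eventually (pr_hol F hs ht),
      (chartAt C2 m).open_target.mem_nhds (mem_chart_target _ m)] with z h1 h2
    exact (h1.comp z (mdifferentiableAt_atlas_symm (chart_mem_atlas _ m) h2)).differentiableAt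
  obtain ⟨U, hU, hUo, hyU⟩ := _root_.eventually_nhds_iff.1 h1
  exact Vale.Agent.P281.MF.analyticAt_of_differentiableOn hUo
    (fun w hw => (hU w hw).differentiableWithinAt) hyU

variable [Ok S.W]

theorem chart_ct {x : Pt S.W} {m : M} (h : x.ring ≤ F.O m) :
    ∀ᶠ m' in 𝓝 m, ct S F m' ∈ (chartAt C2 x).source ∧
      chartAt C2 x (ct S F m') = pr F (p₁ x) (p₂ x) m' := by
  filter_upwards [(tendsto_ct F h).eventually
    ((chartAt C2 x).open_source.mem_nhds (mem_chart_source _ x)),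
    ev_ct F h (p₁ x).2, ev_ct F h (p₂ x).2] with m' h1 h2 h3
  refine ⟨h1, ?_⟩
  rw [(isCh_chartAt x).app _ h1, h2, h3, pr]

theorem ct_hol {x : Pt S.W} {m : M} (h : x.ring ≤ F.O m) :
    MDifferentiableAt 𝓘(ℂ, C2) 𝓘(ℂ, C2) (ct S F) m := by
  rw [mdifferentiableAt_iff_target, ct_eq F h]
  refine ⟨by rw [ContinuousAt, ct_eq F h]; exact tendsto_ct F h, ?_⟩
  exact (pr_hol F (h (p₁ x).2) (h (p₂ x).2)).self_of_nhds.congr_of_eventuallyEq
    ((chart_ct F h).mono fun _ h => h.2)

theorem pr_inj {x : Pt S.W} {m : M} (h : F.O m = x.ring) :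
    Function.Injective (fderiv ℂ (pr F (p₁ x) (p₂ x) ∘ (chartAt C2 m).symm) (chartAt C2 m m)) := by
  obtain ⟨s, hs, t, ht, hi⟩ := F.jet m
  have h0 := (chart_ct F h.ge).self_of_nhds
  rw [ct_eq F h.ge] at h0
  have hP := (pr_hol F (h.ge (p₁ x).2) (h.ge (p₂ x).2)).self_of_nhds
  have hH : AnalyticAt ℂ (fun z => (![ev ((chartAt C2 x).symm z) s,
      ev ((chartAt C2 x).symm z) t] : C2)) (pr F (p₁ x) (p₂ x) m) := by
    rw [← h0.2]
    refine analyticAt_pi_iff.2 fun i => ?_
    fin_cases i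
    · exact (isCh_chartAt x).an x h0.1 _ (h.le hs)
    · exact (isCh_chartAt x).an x h0.1 _ (h.le ht)
  have he : (fun y => (![F.val s y, F.val t y] : C2)) =ᶠ[𝓝 m]
      (fun z => (![ev ((chartAt C2 x).symm z) s, ev ((chartAt C2 x).symm z) t] : C2)) ∘
        pr F (p₁ x) (p₂ x) := by
    filter_upwards [chart_ct F h.ge, ev_ct F h.ge (h.le hs), ev_ct F h.ge (h.le ht)]
      with m' h1 h2 h3
    rw [Function.comp_apply, ← h1.2, (chartAt C2 x).left_inv h1.1, h2, h3]
  rw [he.mfderiv_eq, mfderiv_comp m hH.differentiableAt.mdifferentiableAt hP] at hi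
  have h1 : Function.Injective (mfderiv 𝓘(ℂ, C2) 𝓘(ℂ, C2) (pr F (p₁ x) (p₂ x)) m) :=
    Function.Injective.of_comp hi
  rw [hP.mfderiv] at h1
  simp only [writtenInExtChartAt, mfld_simps, fderivWithin_univ] at h1
  exact h1

theorem loc_inv {x : Pt S.W} {m : M} (h : F.O m = x.ring) :
    ∃ k : Pt S.W → M, k x = m ∧ MDifferentiableAt 𝓘(ℂ, C2) 𝓘(ℂ, C2) k x ∧
      (∀ᶠ x' in 𝓝 x, x'.ring ≤ F.O (k x')) ∧ ∀ᶠ m' in 𝓝 m, k (ct S F m') = m' := by
  haveI : IsManifold 𝓘(ℂ, C2) 1 (Pt S.W) := IsManifold.of_le (n := ω) le_top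
  have h0 := (chart_ct F h.ge).self_of_nhds
  rw [ct_eq F h.ge] at h0
  have hm := mem_chart_source C2 m
  have hi := pr_inj F h
  have hG := (pr_an F (h.ge (p₁ x).2) (h.ge (p₂ x).2)).hasStrictFDerivAt
  set G := pr F (p₁ x) (p₂ x) ∘ (chartAt C2 m).symm with hGd
  have hx : G (chartAt C2 m m) = chartAt C2 x x := by
    rw [hGd, Function.comp_apply, (chartAt C2 m).left_inv hm, h0.2]
  let A : C2 ≃L[ℂ] C2 := (LinearEquiv.ofInjectiveEndo
    (fderiv ℂ G (chartAt C2 m m) : C2 →ₗ[ℂ] C2) hi).toContinuousLinearEquiv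
  have hA : HasStrictFDerivAt G (A : C2 →L[ℂ] C2) (chartAt C2 m m) := hG
  set l := hA.localInverse G A _ with hl
  have l0 : l (chartAt C2 x x) = chartAt C2 m m := by rw [← hx]; exact hA.localInverse_apply_image
  have l1 : DifferentiableAt ℂ l (chartAt C2 x x) := by
    rw [← hx]
    exact hA.to_localInverse.differentiableAt
  have k0 : (chartAt C2 m).symm (l (chartAt C2 x x)) = m := by rw [l0, (chartAt C2 m).left_inv hm]
  have k1 : MDifferentiableAt 𝓘(ℂ, C2) 𝓘(ℂ, C2)
      (fun x' => (chartAt C2 m).symm (l (chartAt C2 x x'))) x := by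
    refine (mdifferentiableAt_atlas_symm (chart_mem_atlas _ m) ?_).comp x
      (l1.mdifferentiableAt.comp x (mdifferentiableAt_atlas (chart_mem_atlas _ x) h0.1))
    rw [l0]
    exact mem_chart_target _ m
  have k2 : Tendsto (fun x' => (chartAt C2 m).symm (l (chartAt C2 x x'))) (𝓝 x) (𝓝 m) := by
    have := k1.continuousAt.tendsto
    rwa [k0] at this
  refine ⟨_, k0, k1, ?_, ?_⟩
  · have r := hA.eventually_right_inverse
    rw [hx] at r
    filter_upwards [k2.eventually (chart_ct F h.ge), k2.eventually (nhds_ct F h.ge (zero_mem _)),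
      ((chartAt C2 x).continuousAt h0.1).tendsto.eventually r,
      (chartAt C2 x).open_source.mem_nhds h0.1] with x' h1 h2 h3 h4
    have h5 : ct S F ((chartAt C2 m).symm (l (chartAt C2 x x'))) = x' :=
      (chartAt C2 x).injOn h1.1 h4 (h1.2.trans h3)
    have h6 := h2.1
    rwa [h5] at h6
  · filter_upwards [chart_ct F h.ge,
      ((chartAt C2 m).continuousAt hm).tendsto.eventually hA.eventually_left_inverse,
      (chartAt C2 m).open_source.mem_nhds hm] with m' h1 h2 h3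
    have h4 : G (chartAt C2 m m') = pr F (p₁ x) (p₂ x) m' := by
      rw [hGd, Function.comp_apply, (chartAt C2 m).left_inv h3]
    rw [h1.2, ← h4, hl, h2, (chartAt C2 m).left_inv h3]

omit [Ok S.W] in
theorem ex_off (D : Finset (Crv S.W)) : ∃ x : Pt S.W, Res.Off D x := by
  rcases D.eq_empty_or_nonempty with rfl | ⟨C₀, h₀⟩
  · exact ⟨S.all.pt_ne.some, fun C hC => absurd hC (Finset.notMem_empty C)⟩
  obtain ⟨C, hC⟩ : ∃ C, C ∉ D := by
    by_contra h
    simp only [not_exists, not_not] at h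
    obtain ⟨g, -, hg⟩ := S.all.move D fun _ => 1
    obtain ⟨c, rfl⟩ := S.all.const g (Or.inr fun C _ => by simp [hg C (h C)])
    have h1 := hg C₀ h₀
    rw [C₀.ord_const] at h1
    exact zero_ne_one h1
  obtain ⟨w, hw, h1⟩ := C.exists_in
  have h2 : (⋃ C' ∈ (D : Set (Crv S.W)), {x : Pt S.W | x.On C ∧ x.On C'}).Finite :=
    D.finite_toSet.biUnion fun C' h => S.all.fin_meet C C' fun e => hC (e ▸ h)
  obtain ⟨x, h3, h4⟩ := (S.all.inf_pt C w hw h1).exists_notMem_finite h2
  exact ⟨x, fun C' h5 h6 => h4 (mem_biUnion h5 ⟨h3.1, h6⟩)⟩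

end EmbH

open EmbH in
theorem emb : EMB := by
  intro M _ _ _ K _ _ S D F _ hP
  classical
  obtain ⟨x₀, h₀⟩ := ex_off D
  obtain ⟨m₀, -⟩ := hP x₀ h₀
  let j : Pt S.W → M := fun x => if h : Res.Off D x then (hP x h).choose else m₀
  have hj : ∀ x, Res.Off D x → F.O (j x) = x.ring := fun x hx => by
    simp only [j, dif_pos hx]
    exact (hP x hx).choose_spec
  have key : ∀ x, Res.Off D x → MDifferentiableAt 𝓘(ℂ, C2) 𝓘(ℂ, C2) j x ∧
      ∀ᶠ m' in 𝓝 (j x), Res.Off D (ct S F m') ∧ j (ct S F m') = m' := fun x hx => by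
    obtain ⟨k, k0, k1, k2, k3⟩ := loc_inv F (hj x hx)
    have h1 : ∀ᶠ x' in 𝓝 x, Res.Off D x' ∧ j x' = k x' := by
      filter_upwards [k2, (isOpen_off D).mem_nhds hx] with x' h1 h2
      exact ⟨h2, F.sep _ _ ((hj x' h2).le.trans h1)⟩
    refine ⟨k1.congr_of_eventuallyEq (h1.mono fun _ h => h.2), ?_⟩
    filter_upwards [(tendsto_ct F (hj x hx).ge).eventually h1, k3] with m' h2 h3
    exact ⟨h2.1, h2.2.trans h3⟩
  have hl : ∀ x, Res.Off D x → ct S F (j x) = x := fun x hx => ct_eq F (hj x hx).ge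
  have hc : ∀ m, Res.Off D (ct S F m) ∧ j (ct S F m) = m →
      MDifferentiableAt 𝓘(ℂ, C2) 𝓘(ℂ, C2) (ct S F) m := fun m h =>
    ct_hol F (x := ct S F m) (by rw [← hj _ h.1, h.2])
  refine ⟨{ toFun := j
            invFun := ct S F
            source := {x | Res.Off D x}
            target := {m | Res.Off D (ct S F m) ∧ j (ct S F m) = m}
            map_source' := fun x hx => by
              rw [mem_setOf_eq, hl x hx]
              exact ⟨hx, rfl⟩
            map_target' := fun m hm => hm.1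
            left_inv' := hl
            right_inv' := fun m hm => hm.2
            open_source := isOpen_off D
            open_target := isOpen_iff_mem_nhds.2 fun m hm => by
              have h := (key _ hm.1).2
              rwa [hm.2] at h
            continuousOn_toFun := fun x hx => (key x hx).1.continuousAt.continuousWithinAt
            continuousOn_invFun := fun m hm => (hc m hm).continuousAt.continuousWithinAt },
    rfl, hj, fun x hx f hf => (ev_of_le F (hj x hx).ge hf).symm,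
    fun x hx => (key x hx).1.mdifferentiableWithinAt,
    fun m hm => (hc m hm).mdifferentiableWithinAt⟩

end Vale.Agent.P253Y.An
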