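import Vale.Agent.P253Y.An.Frm

/-! P253, surfaces, block E: the orthogonal of the boundary. -/

set_option linter.all false

open scoped Manifold ContDiff
open Filter Topology Set

noncomputable section

namespace Vale.Agent.P253Y.An

open Vale.Agent.P297Z Vale.Agent.P297Z.Sf
open Vale.Agent.P267 Vale.Agent.P267.FL
open Vale.Agent.P267.RR (isec)
open Vale.Agent.P267.BlockC (ALB pair)
open Frm

theorem eps (h1 : TR1) (h2 : TR2) (h3 : SURG) : EPS := by
  intro K _ _ S _ D hP L hL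
  obtain ⟨L', e1, e2⟩ := h3 (Pt S.W) L {x | ¬ Res.Off D x} (isOpen_off D).isClosed_compl
    (h2 K S D L fun C hC => h1 K S C L (hL C hC))
  have H := ff (Pt S.W)
  have b1 := H.curv_smooth L'
  have b2 := H.smooth_smul Complex.I _ b1
  have a1 : isec L.L L.L = isec L'.L L'.L := by
    rw [← isec_congr e1, isec_comm, ← isec_congr e1]
  have a2 : 0 ≤ (pair _ _).re := hP (Complex.I • L'.L.curv)
    ⟨⟨b2, H.closed_smul _ _ b1 (H.curv_closed L'), isClosed_closure.isCompact⟩, H.curv_real L'⟩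
    ((H332.supp2_smul_subset _ _).trans fun x hx => not_not.1 fun o => disjoint_left.1 e2 hx o)
  rw [H.pair_smul _ _ _ b1 b2, BlockC.pair_comm, H.pair_smul _ _ _ b1 b1, ← mul_assoc,
    Complex.I_mul_I] at a2
  have a3 : -(1 / (4 * (Real.pi : ℂ) ^ 2)) * pair L'.L.curv L'.L.curv =
      ((1 / (4 * Real.pi ^ 2) : ℝ) : ℂ) * (-1 * pair L'.L.curv L'.L.curv) := by
    push_cast
    ring
  rw [a1, BlockC.isec_eq, a3, Complex.re_ofReal_mul]
  positivity

variable {M : Type} [TopologicalSpace M] [ChartedSpace C2 M]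

theorem psd_of (h : D.BOC M) {K : Type} [Field K] [Algebra ℂ K] {S : Surf K} [Ok S.W]
    {D : Finset (Crv S.W)} {F : Fld M K} {ι : OpenPartialHomeomorph (Pt S.W) M} (e : Emb F D ι) :
    Psd {x | Res.Off D x} := fun η a b => h (Pt S.W) ι e.hol e.hol' η a (e.source ▸ b)

theorem eout_of [IsManifold 𝓘(ℂ, C2) 1 M] (h1 : OKS) (h2 : EMB) (h3 : EPS) (h4 : OBE) (h5 : RST)
    (h6 : ISEC) (h : D.BOC M) : EOUT M := by
  intro K _ _ S D F hP G hG
  have := h1 K S
  obtain ⟨ι, e⟩ := h2 M K S D F hP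
  obtain ⟨B⟩ := h4 K S G
  have a := h3 K S D (psd_of h e) B.A fun C hC => hG C hC ▸ h5 K S C G B
  rw [h6 K S G G B B] at a
  exact_mod_cast a

end Vale.Agent.P253Y.An
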