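import Vale.Agent.P253Y.Res.Defs
import Vale.Agent.P297Y.Alg.Cs
import Vale.Agent.P297Y.Jac.Loc

/-! P253, surfaces, block C: values of rational functions, the classical topology. -/

set_option linter.all false

open Filter Topology Set IsLocalRing

noncomputable section

namespace Vale.Agent.P253Y.An

open Vale.Agent.P297Z Vale.Agent.P297Z.Sf
open Vale.Agent.P019P (CFF Plk Mge)

variable {K : Type} [Field K] [Algebra ℂ K] {W : Submodule ℂ K}

open Classical in
/-- The value of a rational function at a point (zero if it is not regular there). -/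
def ev (x : Pt W) (f : K) : ℂ :=
  if h : ∃ c : ℂ, x.Van (f - algebraMap ℂ K c) then h.choose else 0

theorem ev_eq {x : Pt W} {f : K} {c : ℂ} (h : x.Van (f - algebraMap ℂ K c)) : ev x f = c := by
  have h0 : ∃ c : ℂ, x.Van (f - algebraMap ℂ K c) := ⟨c, h⟩
  have h1 := h.sub h0.choose_spec
  rw [sub_sub_sub_cancel_left, ← map_sub] at h1
  rw [ev, dif_pos h0]
  exact sub_eq_zero.1 (Pt.van_const h1)

theorem ev_const (x : Pt W) (c : ℂ) : ev x (algebraMap ℂ K c) = c :=
  ev_eq (by simpa using x.van_zero)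

theorem ev_zero (x : Pt W) : ev x (0 : K) = 0 := by simpa using ev_const x 0

theorem ev_one (x : Pt W) : ev x (1 : K) = 1 := by simpa using ev_const x 1

theorem ev_van {x : Pt W} {f : K} (h : x.Van f) : ev x f = 0 := ev_eq (by simpa using h)

/-- The classical topology. -/
instance top : TopologicalSpace (Pt W) :=
  .generateFrom {s | ∃ (f : K) (U : Set ℂ), IsOpen U ∧ s = {y | f ∈ y.ring ∧ ev y f ∈ U}}

theorem isOpen_val (f : K) {U : Set ℂ} (hU : IsOpen U) :
    IsOpen {y : Pt W | f ∈ y.ring ∧ ev y f ∈ U} :=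
  TopologicalSpace.isOpen_generateFrom_of_mem ⟨f, U, hU, rfl⟩

theorem isOpen_reg (f : K) : IsOpen {y : Pt W | f ∈ y.ring} := by
  simpa using isOpen_val (W := W) f isOpen_univ

theorem nhds_val {x : Pt W} {f : K} (hf : f ∈ x.ring) {U : Set ℂ} (hU : U ∈ 𝓝 (ev x f)) :
    ∀ᶠ y in 𝓝 x, f ∈ y.ring ∧ ev y f ∈ U := by
  obtain ⟨V, h1, h2, h3⟩ := mem_nhds_iff.1 hU
  filter_upwards [(isOpen_val f h2).mem_nhds ⟨hf, h3⟩] with y hy using ⟨hy.1, h1 hy.2⟩

theorem nhds_reg {x : Pt W} {f : K} (hf : f ∈ x.ring) : ∀ᶠ y in 𝓝 x, f ∈ y.ring :=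
  (isOpen_reg f).mem_nhds hf

theorem continuousAt_ev {x : Pt W} {f : K} (hf : f ∈ x.ring) :
    ContinuousAt (fun y : Pt W => ev y f) x := fun _ hU =>
  (nhds_val hf hU).mono fun _ h => h.2

theorem tendsto_pt {α : Type*} {L : Filter α} {y : α → Pt W} {x : Pt W}
    (h : ∀ f ∈ x.ring, (∀ᶠ a in L, f ∈ (y a).ring) ∧
      Tendsto (fun a => ev (y a) f) L (𝓝 (ev x f))) : Tendsto y L (𝓝 x) := by
  refine TopologicalSpace.tendsto_nhds_generateFrom_iff.2 ?_
  rintro _ ⟨f, U, hU, rfl⟩ ⟨h1, h2⟩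
  exact (h f h1).1.and ((h f h1).2.eventually (hU.mem_nhds h2))

theorem isClosed_on (C : Crv W) : IsClosed {x : Pt W | x.On C} := by
  refine isOpen_compl_iff.1 (isOpen_iff_mem_nhds.2 fun x hx => ?_)
  obtain ⟨f, hf⟩ := not_forall.1 hx
  obtain ⟨h1, h2⟩ := Classical.not_imp.1 hf
  filter_upwards [nhds_reg h1] with y hy h using h2 (h f hy)

theorem isOpen_off (D : Finset (Crv W)) : IsOpen {x : Pt W | Res.Off D x} := by
  have : {x : Pt W | Res.Off D x} = ⋂ C ∈ D, {x : Pt W | x.On C}ᶜ := by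
    ext x
    simp [Res.Off]
  rw [this]
  exact isOpen_biInter_finset fun C _ => (isClosed_on C).isOpen_compl

variable {S : Surf K} {x : Pt S.W} {f g : K}

theorem van_sub_ev (hf : f ∈ x.ring) : x.Van (f - algebraMap ℂ K (ev x f)) := by
  obtain ⟨c, hc⟩ := S.all.val x f hf
  rwa [ev_eq hc]

theorem ev_add (hf : f ∈ x.ring) (hg : g ∈ x.ring) : ev x (f + g) = ev x f + ev x g :=
  ev_eq (by
    have h := (van_sub_ev hf).add (van_sub_ev hg)
    rwa [sub_add_sub_comm, ← map_add] at h)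

theorem ev_sub (hf : f ∈ x.ring) (hg : g ∈ x.ring) : ev x (f - g) = ev x f - ev x g :=
  ev_eq (by
    have h := (van_sub_ev hf).sub (van_sub_ev hg)
    rwa [sub_sub_sub_comm, ← map_sub] at h)

theorem ev_neg (hf : f ∈ x.ring) : ev x (-f) = -ev x f := by
  simpa [ev_zero] using ev_sub (zero_mem _) hf

theorem ev_mul (hf : f ∈ x.ring) (hg : g ∈ x.ring) : ev x (f * g) = ev x f * ev x g :=
  ev_eq (by
    have h := ((van_sub_ev hf).mul_right hg).add
      ((van_sub_ev hg).mul_left (x.ring.algebraMap_mem (ev x f)))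
    have e : (f - algebraMap ℂ K (ev x f)) * g +
        algebraMap ℂ K (ev x f) * (g - algebraMap ℂ K (ev x g)) =
        f * g - algebraMap ℂ K (ev x f * ev x g) := by
      rw [map_mul]
      ring
    rwa [e] at h)

theorem ev_smul (c : ℂ) (hf : f ∈ x.ring) : ev x (c • f) = c * ev x f := by
  rw [Algebra.smul_def, ev_mul (x.ring.algebraMap_mem c) hf, ev_const]

theorem ev_pow (hf : f ∈ x.ring) (n : ℕ) : ev x (f ^ n) = ev x f ^ n := by
  induction n with
  | zero => simp [ev_one]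
  | succ n ih => rw [pow_succ, ev_mul (pow_mem hf n) hf, ih, pow_succ]

/-- The value at a point is a homomorphism of algebras. -/
def evHom (x : Pt S.W) : x.ring →ₐ[ℂ] ℂ where
  toFun f := ev x f
  map_one' := ev_one x
  map_mul' f g := ev_mul f.2 g.2
  map_zero' := ev_zero x
  map_add' f g := ev_add f.2 g.2
  commutes' c := ev_const x c

theorem evHom_apply (x : Pt S.W) (f : x.ring) : evHom x f = ev x f := rfl

theorem ev_sum {ι : Type*} (s : Finset ι) {f : ι → K} (hf : ∀ i ∈ s, f i ∈ x.ring) :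
    ev x (∑ i ∈ s, f i) = ∑ i ∈ s, ev x (f i) := by
  classical
  induction s using Finset.induction_on with
  | empty => simp [ev_zero]
  | insert a s ha ih =>
    have h1 : ∀ i ∈ s, f i ∈ x.ring := fun i hi => hf i (Finset.mem_insert_of_mem hi)
    rw [Finset.sum_insert ha, Finset.sum_insert ha,
      ev_add (hf a (Finset.mem_insert_self a s)) (sum_mem h1), ih h1]

theorem van_iff_ev (hf : f ∈ x.ring) : x.Van f ↔ ev x f = 0 :=
  ⟨ev_van, fun h => by simpa [h] using van_sub_ev hf⟩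

theorem inv_mem (hf : f ∈ x.ring) (h : ev x f ≠ 0) : f ≠ 0 ∧ f⁻¹ ∈ x.ring := by
  have h1 : ¬ x.Van f := fun h1 => h (ev_van h1)
  simp only [Pt.Van, not_and, not_or, not_not] at h1
  exact h1 hf

theorem ev_inv (hf : f ∈ x.ring) (h : ev x f ≠ 0) : ev x f⁻¹ = (ev x f)⁻¹ := by
  have h1 := ev_mul hf (inv_mem hf h).2
  rw [mul_inv_cancel₀ (inv_mem hf h).1, ev_one] at h1
  exact eq_inv_of_mul_eq_one_right h1.symm

theorem ev_ne_of_unit (h0 : f ≠ 0) (hf : f ∈ x.ring) (h : f⁻¹ ∈ x.ring) : ev x f ≠ 0 := fun e =>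
  ((van_iff_ev hf).2 e).2.elim h0 fun h1 => h1 h

/-! ### The normalisation of a curve -/

theorem pt_on (C : Crv S.W) (w : Plk ℂ C.Fn) : (S.pt C w).On C :=
  ((cs K S).on_iff C _).2 ⟨w, rfl⟩

theorem rs_mem {C : Crv S.W} {w : Plk ℂ C.Fn} (hf : f ∈ (S.pt C w).ring) : C.rs f ∈ w.1 :=
  (((cs K S).pt_iff C w _).1 rfl f hf).2

theorem ev_pt {C : Crv S.W} {w : Plk ℂ C.Fn} (hf : f ∈ (S.pt C w).ring) :
    ev (S.pt C w) f = P297Y.Jac.ev w (C.rs f) := by
  have h1 := van_sub_ev hf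
  have h2 := ((cs K S).pt_van C w _ h1.1).1 h1
  rw [C.rs_sub (pt_on C w f hf) (C.const_mem _), C.rs_const] at h2
  exact (P297Y.Jac.ev_eq h2).symm

theorem range_pt (C : Crv S.W) : range (S.pt C) = {x | x.On C} := by
  ext x
  exact ((cs K S).on_iff C x).symm

theorem nhds_not_on {A : Set (Crv W)} (hA : A.Finite) {x : Pt W} (h : ∀ C ∈ A, ¬ x.On C) :
    ∀ᶠ y in 𝓝 x, ∀ C ∈ A, ¬ y.On C :=
  (eventually_all_finite hA).2 fun C hC => (isClosed_on C).isOpen_compl.mem_nhds (h C hC)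

theorem fin_ord (S : Surf K) (f : K) (G : Sf.Div S.W) : {C : Crv S.W | C.ord f + G C ≠ 0}.Finite :=
  ((S.all.fin_div f).union G.support.finite_toSet).subset fun C hC => by
    by_contra h
    simp only [mem_union, Function.mem_support, Finset.mem_coe, Finsupp.mem_support_iff, not_or,
      not_not] at h
    exact hC (by rw [h.1, h.2, add_zero])

theorem nhds_stalk {G : Sf.Div S.W} (hf : f ∈ stalk x G) : ∀ᶠ y in 𝓝 x, f ∈ stalk y G := by
  rcases hf with hf | hf
  · exact .of_forall fun y => Or.inl hf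
  have hA : {C : Crv S.W | C.ord f + G C < 0}.Finite := (fin_ord S f G).subset fun C hC => ne_of_lt hC
  filter_upwards [nhds_not_on hA fun C hC h => (hf C h).not_gt hC] with y hy
  exact Or.inr fun C hC => not_lt.1 fun h => hy C h hC

theorem nhds_genAt {G : Sf.Div S.W} (hf : GenAt x G f) : ∀ᶠ y in 𝓝 x, GenAt y G f := by
  filter_upwards [nhds_not_on (fin_ord S f G) fun C hC h => hC (hf.2 C h)] with y hy
  exact ⟨hf.1, fun C hC => not_not.1 fun h => hy C h hC⟩

theorem GenAt.mem {G : Sf.Div W} {x : Pt W} (hf : GenAt x G f) : f ∈ stalk x G :=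
  Or.inr fun C hC => (hf.2 C hC).ge

/-- Only finitely many places of `C` lie over the other curves. -/
theorem fin_over (C : Crv S.W) {A : Set (Crv S.W)} (hA : A.Finite) (h : C ∉ A) :
    {w | ∃ C' ∈ A, (S.pt C w).On C'}.Finite := by
  refine (hA.biUnion fun C' hC' => (S.all.fin_meet C C' fun e => h (e ▸ hC')).biUnion
    fun x _ => (cs K S).fin_pt C x).subset ?_
  rintro w ⟨C', h1, h2⟩
  simp only [mem_iUnion, mem_setOf_eq]
  exact ⟨C', h1, _, ⟨pt_on C w, h2⟩, rfl⟩

theorem continuous_pt (C : Crv S.W) : Continuous (S.pt C) := by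
  refine continuous_iff_continuousAt.2 fun w => tendsto_pt fun f hf => ?_
  have h0 : ∀ᶠ q in 𝓝 w, f ∈ (S.pt C q).ring := by
    rcases (S.all.normal _ f).2 hf with h | h
    · exact .of_forall fun q => h ▸ zero_mem _
    have hA : {C' : Crv S.W | C'.ord f + (0 : Sf.Div S.W) C' < 0}.Finite :=
      (fin_ord S f 0).subset fun C hC => ne_of_lt hC
    have h1 := fin_over C hA fun e => (h C (pt_on C w)).not_gt e
    filter_upwards [h1.isClosed.isOpen_compl.mem_nhds
      (fun ⟨C', h2, h3⟩ => (h C' h3).not_gt h2 : w ∈ _)] with q hq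
    exact (S.all.normal _ f).1 (Or.inr fun C' hC' => not_lt.1 fun e => hq ⟨C', e, hC'⟩)
  refine ⟨h0, ?_⟩
  rw [ev_pt hf]
  refine Tendsto.congr' (h0.mono fun q hq => (ev_pt hq).symm) fun U hU => ?_
  exact (P297Y.Jac.nhds_val (rs_mem hf) hU).mono fun q hq => hq.2

end Vale.Agent.P253Y.An
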