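import Vale.Agent.P253Y.An.Sk2
import Vale.Agent.P253Y.G.Basic

/-! P253, surfaces, block E: the first Betti number of the compactification. -/

set_option linter.all false

open scoped Manifold ContDiff
open Filter Topology Set

noncomputable section

namespace Vale.Agent.P253Y.An

open Vale.Agent.P297Z Vale.Agent.P297Z.Sf
open Vale.Agent.P267 Vale.Agent.P267.FL

variable {K : Type} [Field K] [Algebra ℂ K] {S : Surf K}

namespace ExsH

variable {y : Pt S.W} {Z : Sf.Div S.W} {t : K}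

/-- A local equation of an effective divisor is regular. -/
theorem gen_mem (hZ : 0 ≤ Z) (h : GenAt y (-Z) t) : t ∈ y.ring :=
  (S.all.normal y t).1 (Or.inr fun C hC => by
    have h1 := h.2 C hC
    have h2 : 0 ≤ Z C := hZ C
    simp only [Finsupp.neg_apply, Finsupp.zero_apply] at h1 ⊢
    omega)

/-- The zeros of a local equation. -/
theorem gen_ne (hZ : 0 ≤ Z) (h : GenAt y (-Z) t) : ev y t ≠ 0 ↔ ∀ C, y.On C → Z C = 0 := by
  have h0 := gen_mem hZ h
  have h3 : ∀ C : Crv S.W, C.ord t⁻¹ = -C.ord t := fun C => C.pl.ord_inv t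
  refine ⟨fun e C hC => ?_, fun e => ev_ne_of_unit h.1 h0 ((S.all.normal y _).1
    (Or.inr fun C hC => ?_))⟩
  · have h1 := h.2 C hC
    have h2 : 0 ≤ Z C := hZ C
    have h4 := ((S.all.normal y _).2 (inv_mem h0 e).2).resolve_left (inv_ne_zero h.1) C hC
    simp only [Finsupp.neg_apply, Finsupp.zero_apply, h3] at h1 h4
    omega
  · have h1 := h.2 C hC
    simp only [Finsupp.neg_apply, Finsupp.zero_apply, h3, e C hC] at h1 ⊢
    omega

theorem off_iff {D : Finset (Crv S.W)} (h : GenAt y (-Mp.rd D) t) : Res.Off D y ↔ ev y t ≠ 0 := by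
  rw [gen_ne (Mp.rd_nonneg D) h]
  exact ⟨fun e C hC => Mp.rd_on D C fun k => e C k hC,
    fun e C k hC => one_ne_zero ((Mp.rd_mem k).symm.trans (e C hC))⟩

/-- Near a point the curves of `D` are the zeros of a function. -/
theorem ex_eq (D : Finset (Crv S.W)) (x : Pt S.W) :
    ∃ t ∈ x.ring, t ≠ 0 ∧ ∀ᶠ y in 𝓝 x, Res.Off D y ↔ ev y t ≠ 0 := by
  obtain ⟨t, ht⟩ := S.all.gen x (-Mp.rd D)
  exact ⟨t, gen_mem (Mp.rd_nonneg D) ht, ht.1, (nhds_genAt ht).mono fun _ => off_iff⟩

theorem dense_off (h : INJ) (D : Finset (Crv S.W)) : Dense {x : Pt S.W | Res.Off D x} := fun x => by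
  obtain ⟨t, h1, h2, h3⟩ := ex_eq D x
  exact mem_closure_iff_frequently.2
    ((((h K S x t h1 h2).filter_mono nhdsWithin_le_nhds).and_eventually h3).mono
      fun y hy => hy.2.2 hy.1)

end ExsH

open ExsH in
theorem exs (h1 : LCON) (h2 : EXT1) (h3 : INJ) : EXS := fun K _ _ S _ D hD => by
  refine h2 _ _ (isOpen_off D) (dense_off h3 D) hD fun x V hV => ?_
  obtain ⟨t, k1, k2, k3⟩ := ex_eq D x
  obtain ⟨V', k4, k5, k6⟩ := h1 _ _ x (holN_ev k1)
    ((h3 K S x t k1 k2).filter_mono nhdsWithin_le_nhds) _ (inter_mem hV k3)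
  refine ⟨V', k4, fun y hy => (k5 hy).1, ?_⟩
  rwa [show V' ∩ {x | Res.Off D x} = V' ∩ {y | ev y t ≠ 0} from
    Set.ext fun y => and_congr_right fun hy => (k5 hy).2]

section

variable {M : Type} [TopologicalSpace M] [ChartedSpace C2 M] {F : Fld M K} [Ok S.W]
  {D : Finset (Crv S.W)} {ι : OpenPartialHomeomorph (Pt S.W) M}

theorem Emb.target (h : Emb F D ι) (o : Onto F D) : ι.target = univ :=
  eq_univ_of_forall fun m => by
    obtain ⟨x, h1, h2⟩ := o m
    have h3 : x ∈ ι.source := h.source ▸ h1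
    rw [F.sep m _ (h2.trans (h.ring x h3).symm).le]
    exact ι.map_source h3

/-- The complement of `D` is homeomorphic to `M`. -/
def Emb.homeo (h : Emb F D ι) (o : Onto F D) : {x : Pt S.W | Res.Off D x} ≃ₜ M :=
  ((Homeomorph.setCongr h.source.symm).trans ι.toHomeomorphSourceTarget).trans
    ((Homeomorph.setCongr (h.target o)).trans (Homeomorph.Set.univ M))

theorem sc_off [SimplyConnectedSpace M] (h : Emb F D ι) (o : Onto F D) :
    SimplyConnectedSpace {x : Pt S.W | Res.Off D x} :=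
  (h.homeo o).toHomotopyEquiv.simplyConnectedSpace

end

end Vale.Agent.P253Y.An
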