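import Vale.Agent.P253Y.An.Sk
import Vale.Agent.P267.H175.Thin
import Vale.Agent.P290.H416.SurfFL
import Vale.Agent.P290.H416.Herm
import Vale.Agent.P290.H437.FLExact

/-! P253, surfaces, blocks C and E: closed one-forms. -/

set_option linter.all false

open scoped Manifold ContDiff
open Filter Topology Set

noncomputable section

namespace Vale.Agent.P253Y.An

open Vale.Agent.P267 Vale.Agent.P267.FL
open Vale.Agent.P267.RR (OX h1 mem_Z1 mem_B1)
open Vale.Agent.P267.H815 (HolN)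
open Vale.Agent.P211.HK Vale.Agent.P290.H437

theorem lcon : LCON := by
  intro X _ _ _ _ _ _ h x hh _ V hV
  have hx := mem_chart_source C2 x
  set e := chartAt C2 x with he
  have h1 : ∀ᶠ z in 𝓝 (e x), DifferentiableAt ℂ (h ∘ e.symm) z ∧ z ∈ e.target ∧ e.symm z ∈ V :=
    (hh.analyticAt.eventually_analyticAt.mono fun z hz => hz.differentiableAt).and
      ((e.open_target.eventually_mem (e.map_source hx)).and
        ((H815.tendsto_symm x hx).eventually hV))
  obtain ⟨r, hr, hb⟩ := Metric.eventually_nhds_iff_ball.1 h1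
  refine ⟨e.symm '' Metric.ball (e x) r, ?_, ?_, ?_⟩
  · filter_upwards [(e.continuousAt hx).eventually (Metric.ball_mem_nhds _ hr),
      e.open_source.mem_nhds hx] with y h2 h3 using ⟨e y, h2, e.left_inv h3⟩
  · rintro _ ⟨z, hz, rfl⟩
    exact (hb z hz).2.2
  · have h2 := (H175.isPreconnected_ball_diff fun z hz =>
      (hb z hz).1.differentiableWithinAt).image e.symm
      (e.continuousOn_symm.mono fun z hz => (hb z hz.1).2.1)
    have h3 : e.symm '' (Metric.ball (e x) r \ {z | (h ∘ e.symm) z = 0}) =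
        e.symm '' Metric.ball (e x) r ∩ {y | h y ≠ 0} := by
      ext y
      constructor
      · rintro ⟨z, hz, rfl⟩
        exact ⟨⟨z, hz.1, rfl⟩, hz.2⟩
      · rintro ⟨⟨z, hz, rfl⟩, h4⟩
        exact ⟨z, ⟨hz, h4⟩, rfl⟩
    exact h3 ▸ h2

namespace Ext1H

section Top

variable {X : Type} [TopologicalSpace X] {U : Set X}

/-- extension by zero -/
def ex (s : U → ℂ) (x : X) : ℂ := open Classical in if h : x ∈ U then s ⟨x, h⟩ else 0

theorem ex_val (s : U → ℂ) (q : U) : ex s q = s q := dif_pos q.2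

/-- restriction of a local system to an open set -/
theorem restr {Par : X → (X → ℂ) → Prop} (h : LocSys (F := fun _ => ℂ) Par) (hU : IsOpen U) :
    LocSys (X := U) (F := fun _ => ℂ) fun p s => Par p (ex s) := by
  have m : ∀ p : U, map (↑) (𝓝 p) = 𝓝 (p : X) := hU.isOpenEmbedding_subtypeVal.map_nhds_eq
  have k : ∀ (p : U) (Q : X → Prop), (∀ᶠ x in 𝓝 (p : X), Q x) ↔ ∀ᶠ q : U in 𝓝 p, Q q :=
    fun p Q => by rw [← m, eventually_map]
  refine ⟨fun p s hs => (k p _).1 (h.opn p _ hs), fun p s s' hs hs' e => ?_,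
    fun p s s' hs hs' e => ?_, fun p s s' hs e => h.loc p _ _ hs ((k p _).2 ?_), fun p => ?_⟩
  · simpa only [ex_val] using (k p _).1 (h.uniq p _ _ hs hs' (by rw [ex_val, ex_val, e]))
  · rw [← ex_val s, ← ex_val s']
    refine h.clo p _ _ hs hs' ?_
    rw [← m, frequently_map]
    simpa only [ex_val] using e
  · simpa only [ex_val] using e
  · obtain ⟨W, hW, H⟩ := h.ext p
    refine ⟨(↑) ⁻¹' W, continuous_subtype_val.continuousAt.preimage_mem_nhds hW, fun q hq v => ?_⟩
    obtain ⟨s, h1, h2⟩ := H q hq v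
    refine ⟨fun q => s q, h1, fun q' hq' => h.loc q' s _ (h2 q' hq') ((k q' _).2 ?_)⟩
    exact Eventually.of_forall fun y => (ex_val (fun q => s q) y).symm

/-- extension of a parallel section -/
theorem extend {Par : X → (X → ℂ) → Prop} (h : LocSys (F := fun _ => ℂ) Par) (hd : Dense U)
    (hc : ∀ x, ∀ V ∈ 𝓝 x, ∃ V' ∈ 𝓝 x, V' ⊆ V ∧ IsPreconnected (V' ∩ U)) {s : X → ℂ}
    (hs : ∀ q ∈ U, Par q s) : ∃ u : X → ℂ, ∀ x, Par x u := by
  have k : ∀ x, ∃ t : X → ℂ, Par x t ∧ ∀ᶠ y in 𝓝 x, y ∈ U → t y = s y := fun x => by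
    obtain ⟨W, hW, H⟩ := h.ext x
    obtain ⟨V, hV, h1, h2⟩ := hc x W hW
    obtain ⟨y, hy⟩ := hd.inter_nhds_nonempty hV
    obtain ⟨t, h3, h4⟩ := H y (h1 hy.2) (s y)
    refine ⟨t, h4 x (mem_of_mem_nhds hW), ?_⟩
    filter_upwards [hV] with z hz hz'
    exact h.eqOn h2 (fun q hq => h4 q (h1 hq.1)) (fun q hq => hs q hq.2) ⟨hy.2, hy.1⟩ h3 z ⟨hz, hz'⟩
  choose t h1 h2 using k
  refine ⟨fun x => t x x, fun x => h.loc x _ _ (h1 x) ?_⟩
  filter_upwards [h.opn x _ (h1 x), (h2 x).eventually_nhds] with y h3 h4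
  refine h.clo y _ _ h3 (h1 y) ?_
  refine ((mem_closure_iff_frequently.1 (hd y)).and_eventually (h4.and (h2 y))).mono ?_
  rintro z ⟨a, b, c⟩
  rw [b a, c a]

end Top

end Ext1H

theorem ext1 : EXT1 := by
  intro X _ _ _ _ _ _ U hU hd hsc hc A hA h0
  have hcl : ClosedF A := ⟨hA, congrArg TwoF.f20 h0, congrArg TwoF.f11 h0, congrArg TwoF.f02 h0⟩
  have : LocallyPathConnectedSpace X := ChartedSpace.locallyPathConnectedSpace C2 X
  have : LocallyPathConnectedSpace U := hU.locallyPathConnectedSpace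
  obtain ⟨p⟩ := (inferInstance : Nonempty U)
  obtain ⟨s, ⟨-, hs⟩, -⟩ := (Ext1H.restr (locSys_primFL hcl) hU).existsUnique p 0
  obtain ⟨u, hu⟩ := Ext1H.extend (locSys_primFL hcl) hd hc fun q hq => hs ⟨q, hq⟩
  refine ⟨u, ?_, ?_⟩
  · rw [reg0_iff]
    intro x
    rw [← comp_symm_eq]
    exact (hu x).self_of_nhds.1
  · have h1 : del0 u = A.f10 := funext fun x => (hu x).self_of_nhds.2.1
    have h2 : dbar0 0 u = A.f01 := funext fun x => (hu x).self_of_nhds.2.2
    rw [dF0, h1, h2]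

namespace Ext1H

variable {X : Type} [TopologicalSpace X] [T2Space X] [CompactSpace X] [ConnectedSpace X]
  [ChartedSpace C2 X] [IsManifold 𝓘(ℂ, C2) ω X]

open Vale.Agent.P267.H469 Vale.Agent.P267.H661 Vale.Agent.P290.H416 in
theorem db1 (h : Ex1 X) : Db1 X := by
  intro a ha h0
  have ex : ∀ A : Om1 X, D1 A = 0 → ∃ u : S0 X, A = D0 u := fun A hA => by
    obtain ⟨u, hu, h⟩ := h (toA A) (toA_smooth A) (by
      have e1 : del10 (toA A).f10 = 0 := congrArg (fun F : Om2 X => (F.1 : X → ℂ)) hA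
      have e2 : del1 (toA A).f01 + dbar10 (toA A).f10 = 0 :=
        congrArg (fun F : Om2 X => (F.2.1 : X → Matrix (Fin 2) (Fin 2) ℂ)) hA
      have e3 : dbar1 0 (toA A).f01 = 0 := congrArg (fun F : Om2 X => (F.2.2 : X → ℂ)) hA
      rw [OneF.d, e1, e2, e3]
      rfl)
    exact ⟨⟨u, hu⟩, Prod.ext (Subtype.ext (congrArg OneF.f10 h).symm)
      (Subtype.ext (congrArg OneF.f01 h).symm)⟩
  obtain ⟨g, hg⟩ := exists_isHerm X
  obtain ⟨u, hu⟩ := (scal0 hg).H01 ex (a := ((0, ⟨a, ha⟩) : Om1 X)) rfl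
    (Prod.ext rfl (Prod.ext rfl (Subtype.ext (funext h0))))
  exact ⟨u, u.2, fun x i => (congrArg (fun A : Om1 X => (A.2 : X → Fin 2 → ℂ) x i) hu).symm⟩

theorem sec_one (M : LB X (Fin 1)) (s : X → EuclideanSpace ℂ (Fin 1)) : M.Sec s := by
  intro x
  have h : M.P x 0 0 = 1 := by
    have := M.tr x
    simpa [Matrix.trace] using this
  ext i
  fin_cases i
  simp [LB.act, Matrix.mulVec, dotProduct, h]

theorem act_one (M : LB X (Fin 1)) (x : X) (v : EuclideanSpace ℂ (Fin 1)) :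
    LB.act (M.P x) v = v := sec_one M (fun _ => v) x

theorem h1_O (h : Db1 X) : h1 (OX X) 0 0 = 0 := by
  rw [h1]
  have : Subsingleton (RR.H1 (OX X) 0 0) := by
    rw [Submodule.Quotient.subsingleton_iff, Submodule.comap_subtype_eq_top]
    intro w hw
    obtain ⟨⟨h1, h2⟩, h3⟩ := (mem_Z1 _ _ _).1 hw
    have h4 : Reg1 ∞ 0 (fun x i => w x i 0) := by
      intro e he
      have h5 := h1 e he
      rw [contDiffOn_pi] at h5 ⊢
      intro i
      have h6 : (fun z => loc1 0 e (fun x i => w x i 0) z i) =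
          fun z => (loc1 0 e w z i) 0 := by
        funext z
        simp [loc1]
      rw [h6]
      exact ((EuclideanSpace.proj 0 : EuclideanSpace ℂ (Fin 1) →L[ℂ] ℂ).restrictScalars
        ℝ).contDiff.comp_contDiffOn (h5 i)
    have h5 : ∀ x, dbar1 0 (fun x i => w x i 0) x = 0 := by
      intro x
      have h6 := congrFun h3 x
      have h7 : dbar1 0 (fun x i => w x i 0) x = (dbar1 0 w x) 0 := by
        have hd : ∀ i, DifferentiableAt ℝ (fun z => loc1 0 (chartAt C2 x) w z i)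
            (chartAt C2 x x) := fun i => RR.Reg1.differentiableAt h1 x i
        have hl : ∀ i, (fun z => loc1 0 (chartAt C2 x) (fun x i => w x i 0) z i) =
            fun z => (EuclideanSpace.proj 0 : EuclideanSpace ℂ (Fin 1) →L[ℂ] ℂ)
              (loc1 0 (chartAt C2 x) w z i) := by
          intro i
          funext z
          simp [loc1]
        rw [dbar1, hl, hl, dzb_clm _ (hd 1), dzb_clm _ (hd 0)]
        simp [dbar1]
      rw [h7]
      have h8 : dbar1 0 w x = 0 := by simpa [LB.db1, act_one] using h6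
      rw [h8]
      rfl
    obtain ⟨u, hu, hu2⟩ := h _ h4 h5
    rw [mem_B1]
    have h9 : Reg0 ∞ 0 (fun x => u x • (EuclideanSpace.single 0 (1 : ℂ) :
        EuclideanSpace ℂ (Fin 1))) := by
      intro e he
      have := hu e he
      rw [LB.loc0_zero] at this ⊢
      exact this.smul contDiffOn_const
    refine ⟨_, ⟨h9, sec_one _ _⟩, ?_⟩
    funext x i
    have hd : DifferentiableAt ℝ (loc0 0 (chartAt C2 x) u) (chartAt C2 x x) :=
      RR.Reg0.differentiableAt hu x
    have h10 : dbar0 0 (fun x => u x • (EuclideanSpace.single 0 (1 : ℂ) :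
        EuclideanSpace ℂ (Fin 1))) x i = dbar0 0 u x i • EuclideanSpace.single 0 (1 : ℂ) := by
      have hl : loc0 0 (chartAt C2 x) (fun x => u x • (EuclideanSpace.single 0 (1 : ℂ) :
        EuclideanSpace ℂ (Fin 1))) = fun z => loc0 0 (chartAt C2 x) u z •
          (fun _ => (EuclideanSpace.single 0 (1 : ℂ) : EuclideanSpace ℂ (Fin 1))) z := by
        funext z
        simp [loc0]
      rw [dbar0, hl, FL.dzb_smul hd (differentiableAt_const _), dzb_const]
      simp [dbar0]
    simp only [LB.db0, act_one, h10, hu2, Pi.zero_apply, zero_smul, add_zero]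
    ext k
    fin_cases k
    simp
  exact Module.finrank_zero_of_subsingleton

end Ext1H

theorem h01 : H01 := fun X _ _ _ _ _ _ h => ⟨Ext1H.db1 h, Ext1H.h1_O (Ext1H.db1 h)⟩

end Vale.Agent.P253Y.An
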