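import Vale.Agent.P253Y.An.Sk2
import Vale.Agent.P267.H662.CurvThm

/-! P253, surfaces, blocks C and E: calculus of the intersection numbers of line bundles. -/

set_option linter.all false

open scoped Manifold ContDiff
open Filter Topology Set

noncomputable section

namespace Vale.Agent.P253Y.An.Frm

open Vale.Agent.P267 Vale.Agent.P267.FL
open Vale.Agent.P267.RR (isec IsCanon OX)
open Vale.Agent.P267.BlockC (ALB ExactTwo FormFacts pair)

variable {X : Type} [TopologicalSpace X] [ChartedSpace C2 X] [IsManifold 𝓘(ℂ, C2) ω X]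

theorem ten_curv (L M : ALB X) : (ten L M).L.curv = L.L.curv + M.L.curv :=
  TwoF.ext (funext fun x => LB.F20_tensor L.L M.L x)
    (funext fun x => Matrix.ext fun i j => LB.F11_tensor L.L M.L x i j)
    (funext fun x => LB.F02_tensor L.L M.L x)

theorem du_curv (L : ALB X) : (du L).L.curv = -L.L.curv :=
  TwoF.ext (funext fun x => LB.F20_dual L.L x)
    (funext fun x => Matrix.ext fun i j => LB.F11_dual L.L x i j)
    (funext fun x => LB.F02_dual L.L x)

theorem OX_curv : (OX X).curv = 0 :=
  TwoF.ext (funext fun x => LB.F20_triv (0 : Fin 1) x) (funext fun x => LB.F11_triv (0 : Fin 1) x)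
    (funext fun x => LB.F02_triv (0 : Fin 1) x)

variable (X) in
/-- The trivial bundle. -/
def one : HL X := ⟨⟨Fin 1, OX X⟩, 0, H682.isHol_OX⟩

/-- A bundle with a smooth section without zeros has exact curvature. -/
theorem exact_of_sec {L : ALB X} {s : X → EuclideanSpace ℂ L.ι} (h1 : Reg0 ∞ 0 s)
    (h2 : L.L.Sec s) (h3 : ∀ x, s x ≠ 0) : ExactTwo L.L.curv := by
  have h4 : ∀ e : Ch X, loc0 0 e (fun _ : X => H682.up 1) = fun _ => H682.up 1 := fun e => by
    funext z
    simp [loc0]
  have h5 := H662.curv_sub_exact (L' := OX X) (σ' := fun _ => H682.up 1) h1 h2 h3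
    (fun e _ => by rw [h4]; exact contDiffOn_const) (H682.sec_OX _)
    fun x h => by simpa using congrArg H682.dw h
  rwa [OX_curv, sub_zero] at h5

theorem isec_comm (L M : ALB X) : isec L.L M.L = isec M.L L.L := BlockC.isec_comm _ _

variable [T2Space X] [CompactSpace X]

variable (X) in
theorem ff : FormFacts X := BlockC.formFacts (H662.curvFacts X)

theorem isec_congr {L L' : ALB X} (h : ExactTwo (L.L.curv - L'.L.curv)) (M : ALB X) :
    isec L.L M.L = isec L'.L M.L := by
  have := (ff X).isec_of_exact_sub (L := L) (E := fun _ : Fin 1 => L') (fun _ => 1)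
    (by simpa using h) M
  simpa using this

theorem isec_exact {L : ALB X} (h : ExactTwo L.L.curv) (M : ALB X) : isec L.L M.L = 0 := by
  rw [BlockC.isec_eq, (ff X).pair_of_exact h M.L.curv_smooth M.L.curv_closed, mul_zero]

theorem isec_add {N L L' : ALB X} (h : ExactTwo (N.L.curv - (L.L.curv + L'.L.curv))) (M : ALB X) :
    isec N.L M.L = isec L.L M.L + isec L'.L M.L := by
  have := (ff X).isec_of_exact_sub (L := N) (E := ![L, L']) (fun _ => 1)
    (by rw [Fin.sum_univ_two, one_smul, one_smul]; exact h) M
  rwa [Fin.sum_univ_two, one_mul, one_mul] at this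

theorem isec_ten (L L' M : ALB X) : isec (ten L L').L M.L = isec L.L M.L + isec L'.L M.L :=
  isec_add (by rw [ten_curv, sub_self]; exact (ff X).exactTwo_zero) M

theorem isec_ten' (M L L' : ALB X) : isec M.L (ten L L').L = isec M.L L.L + isec M.L L'.L := by
  rw [isec_comm, isec_ten, isec_comm L, isec_comm L']

theorem isec_du (L M : ALB X) : isec (du L).L M.L = -isec L.L M.L := by
  have := (ff X).isec_of_exact_sub (L := du L) (E := fun _ : Fin 1 => L) (fun _ => -1)
    (by simpa [du_curv] using (ff X).exactTwo_zero) M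
  simpa using this

theorem isec_one (M : ALB X) : isec (one X).A.L M.L = 0 :=
  isec_exact (L := (one X).A) (by
    change ExactTwo (OX X).curv
    rw [OX_curv]; exact (ff X).exactTwo_zero) M

end Vale.Agent.P253Y.An.Frm
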