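import Vale.Agent.P253Y.An.Sk
import Vale.Agent.P253Y.Res.Derz
import Vale.Agent.P297Z.Diff.Can

/-! P253, surfaces, block C: two hyperplane sections that meet transversally. -/

set_option linter.all false

open IsLocalRing

namespace Vale.Agent.P253Y.An

open Vale.Agent.P297Z Vale.Agent.P297Z.Sf

namespace GenlH

variable {K : Type} [Field K] [Algebra ℂ K] {S : Surf K}

/-- The projection to the plane is unramified outside the support of the canonical divisor. -/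
theorem par_of_kap {x : Pt S.W} (hx : x.In (S.x 0)) (hk : ∀ C, x.On C → S.kap C = 0) {a b : ℂ}
    (ha : x.Van (S.x 1 / S.x 0 - algebraMap ℂ K a))
    (hb : x.Van (S.x 2 / S.x 0 - algebraMap ℂ K b)) :
    Res.Par x.ring (S.x 1 / S.x 0 - algebraMap ℂ K a) (S.x 2 / S.x 0 - algebraMap ℂ K b) := by
  obtain ⟨_, -, _, -, s, t, -, -, hst⟩ := S.all.gens x _ (S.x_mem 0) hx
  have hp := (Res.par_iff s t).1 hst
  obtain ⟨δ₁, δ₂, r, a1, a2, a3, a4⟩ := Res.derz' S.model.td ((Res.mdl S).geo x) hp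
  obtain ⟨c, hc, e⟩ := S.all.change _ _ _ _ (Res.Dz.indep δ₁ δ₂ a1 a2 a4) S.indep
  have e1 : wedge (S.x 1 / S.x 0) (S.x 2 / S.x 0) δ₁ δ₂ = c := by
    rw [e, wedge, a1, a2, a4]
    ring
  have hinv : c⁻¹ ∈ x.ring := (S.all.normal x _).1 (Or.inr fun C hC => by
    obtain ⟨d₁, d₂, h1, h2, h3, h4⟩ := (S.all.least _ _ S.indep C).1
    have h5 : canDiv S.W (S.x 1 / S.x 0) (S.x 2 / S.x 0) C = 0 := hk C hC
    rw [e] at h3 h4
    rw [h5, Pl.ord_mul _ hc (right_ne_zero_of_mul h3)] at h4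
    have h6 : 0 ≤ C.pl.ord (wedge (s : K) t d₁ d₂) := Pl.ord_nonneg_of_mem _ (sub_mem
      (mul_mem (h1 _ (hC _ s.2)) (h2 _ (hC _ t.2))) (mul_mem (h1 _ (hC _ t.2)) (h2 _ (hC _ s.2))))
    unfold Crv.ord
    rw [Pl.ord_inv, Finsupp.zero_apply]
    omega)
  have key : ∀ (g : K) (z : ℂ), x.Van (g - algebraMap ℂ K z) → ∃ p ∈ x.ring, ∃ q ∈ x.ring,
      g - algebraMap ℂ K z = p * s + q * t ∧ x.Van (δ₁ g - p) ∧ x.Van (δ₂ g - q) := by
    intro g z hg
    obtain ⟨p, hp1, q, hq1, h⟩ := hp.2.2 _ hg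
    refine ⟨p, hp1, q, hq1, h, ?_, ?_⟩
    · have h1 := congrArg δ₁ h
      rw [map_sub, δ₁.map_algebraMap, sub_zero, map_add, Derivation.leibniz, Derivation.leibniz,
        a1, a2] at h1
      have h2 : δ₁ g - p = δ₁ p * s + δ₁ q * t := by
        rw [h1]
        simp only [smul_eq_mul]
        ring
      rw [h2]
      exact Pt.Van.add (Pt.Van.mul_left (r p hp1).1 hp.1) (Pt.Van.mul_left (r q hq1).1 hp.2.1)
    · have h1 := congrArg δ₂ h
      rw [map_sub, δ₂.map_algebraMap, sub_zero, map_add, Derivation.leibniz, Derivation.leibniz,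
        a3, a4] at h1
      have h2 : δ₂ g - q = δ₂ p * s + δ₂ q * t := by
        rw [h1]
        simp only [smul_eq_mul]
        ring
      rw [h2]
      exact Pt.Van.add (Pt.Van.mul_left (r p hp1).2 hp.1) (Pt.Van.mul_left (r q hq1).2 hp.2.1)
  obtain ⟨α, hα, β, hβ, u0, u1, u2⟩ := key _ _ ha
  obtain ⟨γ, hγ, ε, hε, v0, v1, v2⟩ := key _ _ hb
  have hu := hx.2 _ (S.x_mem 1)
  have hv := hx.2 _ (S.x_mem 2)
  have hd : α * ε - γ * β ∈ x.ring := sub_mem (mul_mem hα hε) (mul_mem hγ hβ)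
  have h1 : x.Van (c - (α * ε - γ * β)) := by
    have h2 := ((u1.mul_right (r _ hv).2).add (v2.mul_left hα)).sub
      ((v1.mul_right (r _ hu).2).add (u2.mul_left hγ))
    rw [← e1, wedge]
    convert h2 using 1
    ring
  obtain ⟨h3, h4⟩ := Pt.inv_mem hd fun h => by
    have h2 := h1.add h
    rw [sub_add_cancel] at h2
    exact h2.2.elim hc fun o => o hinv
  refine ⟨ha, hb, fun f hf => ?_⟩
  obtain ⟨p, hp1, q, hq1, h⟩ := hp.2.2 _ hf
  refine ⟨_, mul_mem h4 (sub_mem (mul_mem hp1 hε) (mul_mem hq1 hγ)), _,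
    mul_mem h4 (sub_mem (mul_mem hq1 hα) (mul_mem hp1 hβ)), ?_⟩
  rw [u0, v0, h, mul_assoc, mul_assoc, ← mul_add, eq_inv_mul_iff_mul_eq₀ h3]
  ring

/-- A point of the plane outside the branch curve. -/
theorem exists_ab (S : Surf K) : ∃ a b : ℂ, ∀ x : Pt S.W, x.In (S.x 0) →
    x.Van (S.x 1 / S.x 0 - algebraMap ℂ K a) → x.Van (S.x 2 / S.x 0 - algebraMap ℂ K b) →
    ∀ C, x.On C → S.kap C = 0 := by
  have h1 : ∀ C : Crv S.W, ∃ U : MvPolynomial (Fin 2) ℂ, U ≠ 0 ∧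
      (C.In (S.x 0) → SB.cv C (MvPolynomial.aeval (SB.yc S 0) U) < 1) := fun C => by
    by_cases h : C.In (S.x 0)
    · obtain ⟨U, h1, h2, -⟩ := SB.exists_eqn S.all.toLoc h
      exact ⟨U, h1, fun _ => h2⟩
    · exact ⟨1, one_ne_zero, fun o => absurd o h⟩
  choose U h0 hU using h1
  obtain ⟨z, hz⟩ : ∃ z : Fin 2 → ℂ, MvPolynomial.eval z (∏ C ∈ S.kap.support, U C) ≠ 0 := by
    by_contra o
    refine Finset.prod_ne_zero_iff.2 (fun C (_ : C ∈ S.kap.support) => h0 C)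
      (MvPolynomial.funext fun z => ?_)
    rw [map_zero]
    exact not_not.1 fun e => o ⟨z, e⟩
  refine ⟨z 0, z 1, fun x hx ha hb C hC => by_contra fun o => ?_⟩
  rw [map_prod] at hz
  have h2 := Finset.prod_ne_zero_iff.1 hz C (Finsupp.mem_support_iff.2 o)
  have h3 : ∀ j, SB.yc S 0 j ∈ x.ring ∧ ev x (SB.yc S 0 j) = z j :=
    Fin.forall_fin_two.2 ⟨⟨hx.2 _ (S.x_mem _), ev_eq ha⟩, hx.2 _ (S.x_mem _), ev_eq hb⟩
  have h4 : ∀ P : MvPolynomial (Fin 2) ℂ, MvPolynomial.aeval (SB.yc S 0) P ∈ x.ring ∧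
      ev x (MvPolynomial.aeval (SB.yc S 0) P) = MvPolynomial.eval z P := fun P => by
    induction P using MvPolynomial.induction_on with
    | C c =>
      rw [MvPolynomial.aeval_C, MvPolynomial.eval_C]
      exact ⟨x.ring.algebraMap_mem c, ev_const x c⟩
    | add p q hp hq =>
      rw [map_add, map_add]
      exact ⟨add_mem hp.1 hq.1, by rw [ev_add hp.1 hq.1, hp.2, hq.2]⟩
    | mul_X p j hp =>
      rw [map_mul, map_mul, MvPolynomial.aeval_X, MvPolynomial.eval_X]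
      exact ⟨mul_mem hp.1 (h3 j).1, by rw [ev_mul hp.1 (h3 j).1, hp.2, (h3 j).2]⟩
  obtain ⟨h5, h6⟩ := inv_mem (h4 (U C)).1 (by rw [(h4 _).2]; exact h2)
  exact (hU C (hC.crv_in hx)).ne
    ((SB.val_eq_one_iff C h5).2 (Pl.ord_unit _ (hC _ (h4 _).1) (hC _ h6)))

theorem idl_eq {x : Pt S.W} {Z : Sf.Div S.W} {s : x.ring} (hs : GenAt x (-Z) (s : K)) :
    idl x Z = Ideal.span {s} := by
  ext f
  rw [mem_idl, ← Mu.div_mem_ring S.all.toLoc hs, Ideal.mem_span_singleton']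
  constructor
  · intro h
    exact ⟨⟨_, h⟩, Subtype.ext (div_mul_cancel₀ _ hs.1)⟩
  · rintro ⟨c, rfl⟩
    have : ((c * s : x.ring) : K) / s = c := mul_div_cancel_right₀ _ hs.1
    rw [this]
    exact c.2

theorem gen_div {x : Pt S.W} {w l : K} (hw : GenAt x S.H w) (hl : l ≠ 0) :
    GenAt x (-(S.H + div S.W l)) (l / w) := by
  refine ⟨div_ne_zero hl hw.1, fun C hC => ?_⟩
  have h1 := hw.2 C hC
  rw [Finsupp.neg_apply, Finsupp.add_apply, SB.div_apply S.model]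
  unfold Crv.ord at *
  rw [Pl.ord_div _ hl hw.1]
  omega

theorem not_gen {x : Pt S.W} {l : K} (hl : l ≠ 0) :
    ¬ GenAt x S.H l ↔ ∃ C, x.On C ∧ (S.H + div S.W l) C ≠ 0 := by
  simp only [GenAt, Finsupp.add_apply, SB.div_apply S.model, not_and, not_forall, add_comm (S.H _)]
  exact ⟨fun h => by
    obtain ⟨C, h1, h2⟩ := h hl
    exact ⟨C, h1, h2⟩, fun ⟨C, h1, h2⟩ _ => ⟨C, h1, h2⟩⟩

theorem lin (S : Surf K) (a b : ℂ) :
    LinearIndependent ℂ ![S.x 1 - a • S.x 0, S.x 2 - b • S.x 0] := by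
  refine LinearIndependent.pair_iff.2 fun p q h => ?_
  have h1 : MvPolynomial.C p * (MvPolynomial.X 0 - MvPolynomial.C a) +
      MvPolynomial.C q * (MvPolynomial.X 1 - MvPolynomial.C b) = (0 : MvPolynomial (Fin 2) ℂ) := by
    refine S.indep.eq_zero_of_aeval_eq_zero _ ?_
    have h0 := S.x_ne 0
    simp only [Algebra.smul_def] at h
    simp only [map_add, map_mul, map_sub, MvPolynomial.aeval_C, MvPolynomial.aeval_X,
      Matrix.cons_val_zero, Matrix.cons_val_one]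
    field_simp
    linear_combination h
  have h2 := congrArg (MvPolynomial.eval ![a + 1, b]) h1
  have h3 := congrArg (MvPolynomial.eval ![a, b + 1]) h1
  simp at h2 h3
  exact ⟨h2, h3⟩

end GenlH

open GenlH in
theorem genl : GENL := by
  intro K _ _ S
  have hA := S.all
  obtain ⟨a, b, hab⟩ := exists_ab S
  have hl := lin S a b
  have n1 : S.x 1 - a • S.x 0 ≠ 0 := hl.ne_zero 0
  have n2 : S.x 2 - b • S.x 0 ≠ 0 := hl.ne_zero 1
  have m1 : S.x 1 - a • S.x 0 ∈ S.W := sub_mem (S.x_mem 1) (S.W.smul_mem a (S.x_mem 0))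
  have m2 : S.x 2 - b • S.x 0 ∈ S.W := sub_mem (S.x_mem 2) (S.W.smul_mem b (S.x_mem 0))
  have hX : ∀ i, S.x i ∈ S.X := fun i => Submodule.subset_span ⟨i, rfl⟩
  have hZ : ∀ l ∈ S.W, l ≠ 0 → 0 ≤ S.H + div S.W l := fun l h h0 C => by
    rw [Finsupp.add_apply, SB.div_apply S.model, add_comm]
    exact SB.ord_add_hyp_nonneg S.model C h h0
  have h3 : ∀ C, (S.H + div S.W (S.x 1 - a • S.x 0)) C = 0 ∨
      (S.H + div S.W (S.x 2 - b • S.x 0)) C = 0 := fun C => by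
    simp only [Finsupp.add_apply, SB.div_apply S.model, add_comm (S.H _)]
    exact (hA.two _ (sub_mem (hX 1) (S.X.smul_mem a (hX 0))) _
      (sub_mem (hX 2) (S.X.smul_mem b (hX 0))) hl C).imp
        (SB.in_iff S.model C m1 n1).1 (SB.in_iff S.model C m2 n2).1
  have hT := meet_finite hA.toLoc1 h3
  have key : ∀ x ∈ hT.toFinset, GenAt x S.H (S.x 0) ∧ ∃ s t : x.ring,
      (s : K) = (S.x 1 - a • S.x 0) / S.x 0 ∧ (t : K) = (S.x 2 - b • S.x 0) / S.x 0 ∧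
      maximalIdeal x.ring = Ideal.span {s, t} := fun x hx => by
    obtain ⟨g1, g2⟩ := hT.mem_toFinset.1 hx
    have i1 : ¬ x.In _ := fun h => (not_gen n1).2 g1 (Bl4.gen_hyp S hA.toLoc m1 h)
    have i2 : ¬ x.In _ := fun h => (not_gen n2).2 g2 (Bl4.gen_hyp S hA.toLoc m2 h)
    have i0 : x.In (S.x 0) := by
      by_contra o
      have v0 := mem_van.2 ⟨S.x_mem 0, o⟩
      have v1 := add_mem (mem_van.2 ⟨m1, i1⟩) ((van x).smul_mem a v0)
      have v2 := add_mem (mem_van.2 ⟨m2, i2⟩) ((van x).smul_mem b v0)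
      rw [sub_add_cancel] at v1 v2
      obtain ⟨i, hi⟩ := hA.pt_cover x
      fin_cases i
      exacts [o hi, (mem_van.1 v1).2 hi, (mem_van.1 v2).2 hi]
    have e : ∀ (y : K) (c : ℂ), (y - c • S.x 0) / S.x 0 = y / S.x 0 - algebraMap ℂ K c :=
      fun y c => by rw [sub_div, Algebra.smul_def, mul_div_cancel_right₀ _ (S.x_ne 0)]
    have w1 := not_not.1 (mt (Pt.in_iff i0 (S.x_mem 0) m1).2 i1)
    have w2 := not_not.1 (mt (Pt.in_iff i0 (S.x_mem 0) m2).2 i2)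
    rw [e] at w1 w2
    exact ⟨Bl4.gen_hyp S hA.toLoc (S.x_mem 0) i0, ⟨_, w1.1⟩, ⟨_, w2.1⟩, (e _ _).symm, (e _ _).symm,
      (Res.par_iff _ _).2 (par_of_kap i0 (hab x i0 w1 w2) w1 w2)⟩
  refine ⟨_, Mu.mem_hyp hA.toLoc m1, _, Mu.mem_hyp hA.toLoc m2, S.x 0, hT.toFinset, n1, n2, ?_,
    fun x g1 g2 => hT.mem_toFinset.2 ⟨(not_gen n1).1 g1, (not_gen n2).1 g2⟩, key⟩
  rw [← inter_lin hA.toRR _ _ n2, inter_comm, ← inter_lin hA.toRR _ _ n1,
    inter_eq hA.inte (hZ _ m1 n1) (hZ _ m2 n2) h3,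
    finsum_eq_sum_of_support_subset (s := hT.toFinset) _ fun x hx => by
      rw [hT.coe_toFinset]
      exact (hA.multPos x _ _ (hZ _ m1 n1) (hZ _ m2 n2) h3).2.1 fun e => hx (by simp [e]),
    Finset.card_eq_sum_ones, Nat.cast_sum]
  refine Finset.sum_congr rfl fun x hx => congrArg _ ?_
  obtain ⟨g, s, t, e1, e2, e3⟩ := key x hx
  have h4 := hA.jet_dim x 1
  rw [mult, idl_eq (s := s) (e1 ▸ gen_div g n1), idl_eq (s := t) (e2 ▸ gen_div g n2),
    ← Ideal.span_insert, ← e3, ← pow_one (maximalIdeal x.ring)]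
  omega

end Vale.Agent.P253Y.An
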