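import Vale.Agent.P253Y.An.Sk
import Vale.Agent.P267.H994.Exist
import Vale.Agent.P267.H283.Pars1
import Vale.Agent.P267.H682.HodgeRR
import Vale.Agent.P267.H469.Sd

/-! P253, surfaces, blocks C and E: Poincare duality and the bound for the Hodge number. -/

set_option linter.all false

open scoped Manifold ContDiff
open Filter Topology Set

noncomputable section

namespace Vale.Agent.P253Y.An

open Vale.Agent.P267 Vale.Agent.P267.FL
open Vale.Agent.P267.RR (isec IsCanon OX FiniteStmt SerreStmt RRStmt h1 h11 ZOm1 BOm1 H1 Z1 mem_Z1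
  mem_B1)
open Vale.Agent.P267.BlockC (ALB ExactTwo Unimod FormFacts)
open Vale.Agent.P267.H469 (S0 S10 S01 S11 S20 S02 Om1 Om2 D0 D1 D2 dbar11L dbar10L del1L del11L
  del02L dbar20L dbar1L ofOm1 ofOm2 toOm1 toOm2)
open Vale.Agent.P267.H682

namespace H11H

theorem finrank_le {V W W' : Type*} [AddCommGroup V] [Module ℂ V] [AddCommGroup W] [Module ℂ W]
    [AddCommGroup W'] [Module ℂ W'] (φ : V →ₗ[ℂ] W) (ψ : V →ₗ[ℂ] W') (hφ : Function.Surjective φ)
    (h : LinearMap.ker ψ ≤ LinearMap.ker φ) {N : ℕ} (e : Fin N → W')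
    (he : LinearMap.range ψ ≤ Submodule.span ℂ (range e)) : Module.finrank ℂ W ≤ N := by
  have h1 : Module.Finite ℂ (Submodule.span ℂ (range e)) := Module.Finite.span_of_finite ℂ
    (finite_range e)
  have h2 : Module.Finite ℂ (LinearMap.range ψ) := Submodule.finiteDimensional_of_le he
  have h3 : Module.Finite ℂ (V ⧸ LinearMap.ker ψ) := .equiv ψ.quotKerEquivRange.symm
  have h4 : Function.Surjective ((LinearMap.ker ψ).liftQ φ h) := fun w => by
    obtain ⟨v, rfl⟩ := hφ w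
    exact ⟨Submodule.Quotient.mk v, rfl⟩
  calc _ ≤ Module.finrank ℂ (V ⧸ LinearMap.ker ψ) := LinearMap.finrank_le_finrank_of_surjective h4
    _ = Module.finrank ℂ (LinearMap.range ψ) := ψ.quotKerEquivRange.finrank_eq
    _ ≤ Module.finrank ℂ (Submodule.span ℂ (range e)) := Submodule.finrank_mono he
    _ ≤ N := (finrank_range_le_card e).trans (Fintype.card_fin N).le

variable {X : Type} [TopologicalSpace X] [ChartedSpace C2 X] [IsManifold 𝓘(ℂ, C2) ω X]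

/-- the first cohomology of the canonical bundle vanishes -/
theorem exists_dbar0_eq (hF : FiniteStmt X) (hS : SerreStmt X) (h : h1 (OX X) 0 0 = 0)
    {w : X → Fin 2 → ℂ} (hw : Reg1 ∞ 1 w) (h0 : dbar1 1 w = 0) :
    ∃ η : X → ℂ, Reg0 ∞ 1 η ∧ dbar0 1 η = w := by
  have h1 := (hF (Fin 1) (OX X) 0 isHol_OX 1).2.1
  have h2 : Module.finrank ℂ (H1 (OX X) 0 1) = 0 := by
    have h3 := (hS (Fin 1) (OX X) 0 isHol_OX 1).2.1
    rw [lb_eq_OX (OX X).dual, neg_zero, sub_self, h] at h3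
    exact h3
  have h3 : Subsingleton (H1 (OX X) 0 1) := Module.finrank_zero_iff.1 h2
  have hm : (fun x i => up (w x i)) ∈ Z1 (OX X) 0 1 := by
    rw [mem_Z1]
    refine ⟨⟨reg1_clm up hw, sec1_OX _⟩, ?_⟩
    rw [db1_OX]
    funext x
    rw [dbar1_clm up ((hw.at x).of_le (by simp)), h0]
    simp
  have h4 : (Submodule.Quotient.mk ⟨_, hm⟩ : H1 (OX X) 0 1) = 0 := Subsingleton.elim _ _
  rw [Submodule.Quotient.mk_eq_zero] at h4
  obtain ⟨s, ⟨hs, -⟩, h5⟩ := (mem_B1 _ _ _).1 h4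
  rw [db0_OX] at h5
  refine ⟨fun x => dw (s x), reg0_clm dw hs, ?_⟩
  funext x i
  rw [dbar0_clm dw ((hs.at x).of_le (by simp)), h5]
  rfl

variable (X) in
/-- closed forms without component of type `(0, 2)` -/
def W : Submodule ℂ (Om2 X) :=
  LinearMap.ker D2 ⊓ LinearMap.ker ((LinearMap.snd ℂ _ _).comp (LinearMap.snd ℂ _ _))

theorem mem_W {F : Om2 X} : F ∈ W X ↔ D2 F = 0 ∧ F.2.2 = 0 := Iff.rfl

/-- the component of type `(1, 1)` -/
def mid : W X →ₗ[ℂ] ZOm1 X where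
  toFun F := ⟨F.1.2.1, mem_ZOm1.2 ⟨F.1.2.1.2, by
    have h : dbar11L F.1.2.1 + del02L F.1.2.2 = 0 := congrArg Prod.snd (mem_W.1 F.2).1
    rwa [(mem_W.1 F.2).2, map_zero, add_zero] at h⟩⟩
  map_add' _ _ := rfl
  map_smul' _ _ := rfl

theorem mid_surj (hF : FiniteStmt X) (hS : SerreStmt X) (h : h1 (OX X) 0 0 = 0) :
    Function.Surjective (mid (X := X)) := by
  rintro ⟨g, hg⟩
  obtain ⟨h1, h2⟩ := mem_ZOm1.1 hg
  obtain ⟨η, h3, h4⟩ := exists_dbar0_eq hF hS h (H469.reg_del11 h1)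
    (H469.dbar1_del11 h1 (congrArg Subtype.val h2))
  refine ⟨⟨(-⟨η, h3⟩, ⟨g, h1⟩, 0), mem_W.2 ⟨Prod.ext ?_ ?_, rfl⟩⟩, rfl⟩
  · change dbar20L (-⟨η, h3⟩ : S20 X) + del11L (⟨g, h1⟩ : S11 X) = 0
    rw [map_neg, neg_add_eq_zero]
    exact Subtype.ext h4
  · change dbar11L (⟨g, h1⟩ : S11 X) + del02L (0 : S02 X) = 0
    rw [map_zero, add_zero, h2]

theorem mid_exact (hD : Db1 X) (F : W X) (A : Om1 X) (h : D1 A = F) :
    (mid F : X → Matrix (Fin 2) (Fin 2) ℂ) ∈ BOm1 X := by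
  have h1 : (D1 A).2.2 = 0 := h ▸ (mem_W.1 F.2).2
  obtain ⟨u, hu, h2⟩ := hD A.2 A.2.2 fun x => congrFun (congrArg Subtype.val h1) x
  have h3 : (A - D0 ⟨u, hu⟩).2 = 0 :=
    sub_eq_zero.2 (Subtype.ext (funext fun x => funext fun i => (h2 x i).symm))
  have h4 : D1 (A - D0 ⟨u, hu⟩) = F := by rw [map_sub, H469.D1_D0, sub_zero, h]
  have h5 : del1L (A - D0 ⟨u, hu⟩).2 + dbar10L (A - D0 ⟨u, hu⟩).1 = F.1.2.1 :=
    congrArg (fun G : Om2 X => G.2.1) h4
  rw [h3, map_zero, zero_add] at h5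
  exact mem_BOm1.2 ⟨_, (A - D0 ⟨u, hu⟩).1.2, congrArg Subtype.val h5⟩

end H11H

theorem uni : UNI := by
  intro X _ _ _ _ _ _ hF hS hR hp ⟨K, hK⟩
  have H : FormFacts X := BlockC.formFacts (BlockC.curvThm X)
  have rr : ∀ L : ALB X, ∃ k : ℤ, isec L.L L.L - isec L.L K.L = 2 * k := fun L => by
    obtain ⟨a, ha⟩ := exists_isHol hF hS hp L.L
    refine ⟨RR.chi L.L a 0 - RR.chi (OX X) 0 0, ?_⟩
    push_cast
    rw [hR _ _ L.L a K.L ha hK]
    ring
  obtain ⟨N, h, -⟩ := H994.unimod_of_int' X fun L M => by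
    obtain ⟨k1, h1⟩ := rr L
    obtain ⟨k2, h2⟩ := rr M
    obtain ⟨k3, h3⟩ := rr (H283.ten L M)
    refine ⟨k3 - k1 - k2, ?_⟩
    rw [H283.isec_ten H, H283.isec_ten H, H283.isec_ten' H, H283.isec_ten' H,
      BlockC.isec_comm M.L L.L] at h3
    push_cast
    linear_combination (h3 - h1 - h2) / 2
  exact ⟨N, h⟩

open H11H in
theorem h11le : H11 := by
  intro X _ _ _ _ _ _ hF hS _ hD h N ⟨E, _, _, _, hE, _⟩
  have H : FormFacts X := BlockC.formFacts (BlockC.curvThm X)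
  refine finrank_le (V := W X) (((BOm1 X).comap (ZOm1 X).subtype).mkQ.comp (mid (X := X)))
    ((LinearMap.range (D1 (X := X))).mkQ.comp (W X).subtype)
    ((Submodule.mkQ_surjective _).comp (mid_surj hF hS h)) (fun F hF' => ?_)
    (fun i => Submodule.Quotient.mk (toOm2 _ (H.curv_smooth (E i)))) ?_
  · obtain ⟨A, hA⟩ := (Submodule.Quotient.mk_eq_zero _).1 (LinearMap.mem_ker.1 hF')
    exact LinearMap.mem_ker.2 ((Submodule.Quotient.mk_eq_zero _).2 (mid_exact hD F A hA))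
  · rintro _ ⟨F, rfl⟩
    obtain ⟨t, ⟨A, hA, h1⟩, -⟩ := hE (ofOm2 F.1) (H469.ofOm2_smooth _)
      (H469.D2_eq_zero.1 (mem_W.1 F.2).1)
    have h2 : D1 (toOm1 A hA) = F.1 - ∑ i, t i • toOm2 _ (H.curv_smooth (E i)) := by
      apply H469.ofOm2_inj
      rw [map_sub, map_sum]
      simp only [map_smul]
      exact h1
    refine (Submodule.mem_span_range_iff_exists_fun ℂ).2 ⟨t, ?_⟩
    have h3 : (LinearMap.range (D1 (X := X))).mkQ (D1 (toOm1 A hA)) = 0 :=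
      (Submodule.Quotient.mk_eq_zero _).2 ⟨_, rfl⟩
    rw [h2, map_sub, map_sum, sub_eq_zero] at h3
    simp only [map_smul] at h3
    exact h3.symm

end Vale.Agent.P253Y.An
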