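import Vale.Agent.P253Y.An.Lin

/-! P253, surfaces, block C: the analytic and the algebraic intersection numbers agree. -/

set_option linter.all false

open scoped Manifold ContDiff
open Filter Topology Set

noncomputable section

namespace Vale.Agent.P253Y.An

open Vale.Agent.P297Z Vale.Agent.P297Z.Sf
open Vale.Agent.P267 Vale.Agent.P267.FL
open Vale.Agent.P267.RR (isec)
open Vale.Agent.P267.BlockC (ALB ExactTwo)
open Frm

namespace IsecH

/-- Curvatures with disjoint supports. -/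
theorem isec_disj {X : Type} [TopologicalSpace X] [ChartedSpace C2 X] [IsManifold 𝓘(ℂ, C2) ω X]
    [T2Space X] [CompactSpace X] {L M : ALB X}
    (h : Disjoint (H332.supp2 M.L.curv) (H332.supp2 L.L.curv)) : isec L.L M.L = 0 := by
  have e : L.L.curv.wedge M.L.curv = fun _ => 0 := by
    funext x
    by_cases o : x ∈ H332.supp2 M.L.curv
    · obtain ⟨h1, h2, h3⟩ := H332.eq_zero_of_notMem_supp2 (disjoint_left.1 h o)
      simp [TwoF.wedge, h1, h2, h3]
    · obtain ⟨h1, h2, h3⟩ := H332.eq_zero_of_notMem_supp2 o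
      simp [TwoF.wedge, h1, h2, h3]
  rw [isec, e, H533.intX_zero, mul_zero]

variable {K : Type} [Field K] [Algebra ℂ K] {S : Surf K}

/-- An additive map is determined by its values on the curves. -/
theorem ext_cl (φ : Sf.Div S.W →+ ℂ) (c : ℂ) (X : Sf.Div S.W)
    (h : ∀ C : Crv S.W, φ C.cl = c * (inter X C.cl : ℤ)) (G : Sf.Div S.W) :
    φ G = c * (inter X G : ℤ) := by
  rw [Mp.i_on' (Mp.on_support G)]
  conv_lhs => rw [(Mp.on_support G).eq_sum, map_sum]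
  push_cast
  rw [Finset.mul_sum]
  refine Finset.sum_congr rfl fun C _ => ?_
  rw [map_zsmul, h, zsmul_eq_mul]
  ring

variable [Ok S.W]

/-- A bundle of degree zero on a curve is orthogonal to the bundle of the curve. -/
theorem pair0 (h1 : TR1) (h2 : TR2) (h3 : SURG) {C : Crv S.W} {L : ALB (Pt S.W)} (B : OB C.cl)
    (h : Deg C L 0) : isec L.L B.A.L = 0 := by
  obtain ⟨L', e1, e2⟩ := h3 (Pt S.W) L {x | ¬ Res.Off {C} x} (isOpen_off {C}).isClosed_compl
    (h2 K S {C} L fun C' hC => by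
      rw [Finset.mem_singleton.1 hC]
      exact h1 K S C L h)
  have a1 : ∀ x : Pt S.W, (1 : K) ∈ stalk x C.cl := fun x =>
    Or.inr fun C' _ => by simpa using Mp.cl_nonneg C C'
  obtain ⟨B', e3, e4⟩ := h3 (Pt S.W) B.A (H332.supp2 L'.L.curv) isClosed_closure
    ⟨B.v 1, fun x _ => (B.secAt x 1 (a1 x)).sm.continuousAt.continuousWithinAt, fun x hx =>
      ⟨(B.secAt x 1 (a1 x)).sec, B.ne x 1 ⟨one_ne_zero, fun C' hC => by
        have a2 : Res.Off {C} x := not_not.1 (disjoint_left.1 e2 hx)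
        have a3 : C' ≠ C := fun e => a2 C (Finset.mem_singleton_self C) (e ▸ hC)
        simpa using Mp.cl_ne a3⟩⟩⟩
  rw [← isec_congr e1, isec_comm, ← isec_congr e3, isec_comm]
  exact isec_disj e4

/-- The powers of a bundle. -/
theorem pow (h1 : LIN) (h2 : OBE) (h3 : DEG) (h4 : RST) {C : Crv S.W} {L : ALB (Pt S.W)} {d : ℤ}
    (h : Deg C L d) (n : ℕ) :
    ∃ L', Deg C L' (n * d) ∧ ∀ M : ALB (Pt S.W), isec L'.L M.L = n * isec L.L M.L := by
  induction n with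
  | zero =>
    obtain ⟨B⟩ := h2 K S 0
    refine ⟨B.A, by simpa [Mp.i_zero] using h4 K S C 0 B, fun M => ?_⟩
    obtain ⟨φ, p, -⟩ := h1 K S M
    rw [isec_comm, p, map_zero, Nat.cast_zero, zero_mul]
  | succ n ih =>
    obtain ⟨L', a, b⟩ := ih
    refine ⟨ten L' L, ?_, fun M => ?_⟩
    · rw [Nat.cast_succ, add_one_mul]
      exact (h3 K S C L' L _ _).1 a h
    · rw [isec_ten, b, Nat.cast_succ, add_one_mul]

/-- The intersection number is proportional to the degree. -/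
theorem prop (h1 : LIN) (h2 : OBE) (h3 : DEG) (h4 : RST) (h5 : TR1) (h6 : TR2) (h7 : SURG)
    (BH : OB S.H) {C : Crv S.W} {L : ALB (Pt S.W)} {d : ℤ} (B : OB C.cl) (h : Deg C L d) :
    (inter S.H C.cl : ℤ) * isec L.L B.A.L = d * isec BH.A.L B.A.L := by
  obtain ⟨n, hn⟩ := Int.eq_ofNat_of_zero_le (show 0 ≤ inter S.H C.cl from (S.all.crv C).le)
  obtain ⟨L', a, b⟩ := pow h1 h2 h3 h4 h n
  obtain ⟨B'⟩ := h2 K S (-d • S.H)
  obtain ⟨φ, p, -⟩ := h1 K S B.A
  have c := (h3 K S C L' B'.A _ _).1 a (h4 K S C _ B')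
  rw [Mp.i_smul, hn, show (n : ℤ) * d + -d * n = 0 by ring] at c
  have e := pair0 h5 h6 h7 B c
  rw [isec_ten, b, isec_comm B'.A, p, map_zsmul, ← p _ BH, isec_comm B.A, zsmul_eq_mul] at e
  rw [hn]
  push_cast at e ⊢
  linear_combination e

end IsecH

open IsecH in
theorem di (h1 : LIN) (h2 : OBE) (h3 : DEG) (h4 : RST) (h5 : TR1) (h6 : TR2) (h7 : SURG)
    (h8 : ORTH) (h9 : CAL) : DI := by
  intro K _ _ S _ C L d B h
  obtain ⟨BH⟩ := h2 K S S.H
  obtain ⟨ψ, p, -⟩ := h1 K S BH.A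
  have pos : ∀ C : Crv S.W, ((inter S.H C.cl : ℤ) : ℂ) ≠ 0 := fun C =>
    Int.cast_ne_zero.2 (S.all.crv C).ne'
  obtain ⟨c, hc⟩ : ∃ c : ℂ, ψ C.cl = c * (inter S.H C.cl : ℤ) :=
    ⟨_, (div_mul_cancel₀ _ (pos C)).symm⟩
  have a1 : {X : Crv S.W | ψ X.cl = c * (inter S.H X.cl : ℤ)} = univ := by
    refine (h8 K S _ fun X hX Y hY => by_contra fun o => hY ?_).resolve_left
      (Set.Nonempty.ne_empty ⟨C, hc⟩)
    obtain ⟨BX⟩ := h2 K S X.cl
    obtain ⟨BY⟩ := h2 K S Y.cl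
    have b1 := prop h1 h2 h3 h4 h5 h6 h7 BH BX (h4 K S X _ BY)
    have b2 := prop h1 h2 h3 h4 h5 h6 h7 BH BY (h4 K S Y _ BX)
    have b3 : ψ X.cl = c * (inter S.H X.cl : ℤ) := hX
    rw [p, b3, isec_comm, Sf.inter_comm Y.cl] at b1
    rw [p] at b2
    have b4 : isec BX.A.L BY.A.L = (inter X.cl Y.cl : ℤ) * c :=
      mul_left_cancel₀ (pos X) (by rw [b1]; ring)
    exact mul_left_cancel₀ (Int.cast_ne_zero.2 o) (by rw [← b2, b4]; ring)
  have a2 := ext_cl ψ c S.H (fun X => (a1 ▸ mem_univ X :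
    X ∈ {X : Crv S.W | ψ X.cl = c * (inter S.H X.cl : ℤ)})) S.H
  rw [← p _ BH, h9 K S BH] at a2
  have a3 : c = 1 := mul_right_cancel₀ (Int.cast_ne_zero.2 S.all.sq.ne') (by rw [← a2, one_mul])
  have a4 := prop h1 h2 h3 h4 h5 h6 h7 BH B h
  rw [p, hc, a3, one_mul, mul_comm] at a4
  exact mul_right_cancel₀ (pos C) a4

theorem isec_eq (h1 : DI) (h2 : LIN) (h3 : RST) (h4 : OBE) : ISEC := by
  intro K _ _ S _ G G' B B'
  obtain ⟨φ, p, -⟩ := h2 K S B.A
  rw [p, IsecH.ext_cl φ 1 G (fun C => ?_) G', one_mul]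
  obtain ⟨BC⟩ := h4 K S C.cl
  rw [← p _ BC, h1 K S C B.A _ BC (h3 K S C G B), one_mul]

end Vale.Agent.P253Y.An
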