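import Vale.Agent.P253Y.An.Der
import Vale.Agent.P267.H815.H0
import Vale.Agent.P267.H815.Coord

/-! P253, surfaces, block C: division by the equation of a curve. -/

set_option linter.all false

open scoped Manifold ContDiff
open Filter Topology Set IsLocalRing

noncomputable section

namespace Vale.Agent.P253Y.An

open Vale.Agent.P297Z Vale.Agent.P297Z.Sf
open Vale.Agent.P019P (CFF Plk)
open Vale.Agent.P267 Vale.Agent.P267.FL
open Vale.Agent.P267.H815 (HolN)

namespace LdivH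

/-- The zeros of a nonzero function on a curve have no interior point. -/
theorem freq_ne {E : Type} [Field E] [Algebra ℂ E] [CFF ℂ E] {a : E} (ha : a ≠ 0)
    (w : Plk ℂ E) : ∃ᶠ q in 𝓝 w, P297Y.Jac.ev q a ≠ 0 := by
  have c := P297Y.Jac.ch w
  have h1 : ∃ᶠ q in 𝓝 w, q ≠ w := by
    refine c.tendsto_pt.frequently
      (((frequently_nhdsWithin_iff (p := fun _ => True)).1 (Frequently.of_forall
        (f := 𝓝[≠] (0 : ℂ)) fun _ => trivial)).and_eventually c.ev_t |>.mono ?_)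
    rintro s ⟨⟨-, h2⟩, h3⟩ h4
    rw [h4, P297Y.Jac.ev_eq_zero c.t_mem] at h3
    exact h2 h3.symm
  have h2 := ((P019P.dv_finite (k := ℂ) ha).subset (diff_subset (t := {w}))).isClosed
  refine (h1.and_eventually (h2.isOpen_compl.mem_nhds fun h => h.2 rfl)).mono fun q hq h => ?_
  have h3 : P019P.ord q a = 0 := by_contra fun e => hq.2 ⟨e, hq.1⟩
  rcases P297Y.Jac.mem_of_ev (P297Y.Jac.mem_iff.2 (Or.inr h3.ge)) h with e | e
  · exact ha e
  · omega

variable {K : Type} [Field K] [Algebra ℂ K] {S : Surf K} {C : Crv S.W} {t : K} {y : Pt S.W}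

theorem ord_one (h : GenAt y (-C.cl) t) (hy : y.On C) : C.ord t = 1 :=
  (CsH.gen_ord h hy).trans Finsupp.single_eq_same

/-- The zeros of the equation are the points of the curve. -/
theorem zero_iff (ht : t ∈ y.ring) (h : GenAt y (-C.cl) t) : ev y t = 0 ↔ y.On C := by
  refine ⟨fun h0 => by_contra fun hy => ev_ne_of_unit h.1 ht (CsH.unit_of S y fun C' hC' =>
    (CsH.gen_ord h hC').trans (Finsupp.single_eq_of_ne fun e => hy (e ▸ hC'))).2 h0,
    fun hy => by_contra fun h0 => ?_⟩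
  have h1 : C.ord t = 0 := Pl.ord_unit _ (hy _ ht) (hy _ (inv_mem ht h0).2)
  rw [ord_one h hy] at h1
  exact one_ne_zero h1

/-- One of the two derivatives of the equation does not vanish along the curve. -/
theorem part {s s' : K} {d₁ d₂ : Derivation ℂ K K} (hd : Dual y s s' d₁ d₂) (ht : t ∈ y.ring)
    (h : GenAt y (-C.cl) t) (hy : y.On C) : C.rs (d₁ t) ≠ 0 ∨ C.rs (d₂ t) ≠ 0 := by
  obtain ⟨δ, p, r, b1, b2, b3⟩ := ParA.exists_unit S.all C
  have h1 := ord_one h hy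
  obtain ⟨h2, h3⟩ := ParA.ord_der (f := t) r b1 b2 b3 (by omega)
  by_contra h4
  rw [not_or, not_not, not_not] at h4
  have a1 := r _ (hy _ hd.s_mem)
  have a2 := r _ (hy _ hd.t_mem)
  have a3 := hy _ (hd.reg t ht).1
  have a4 := hy _ (hd.reg t ht).2
  refine CsH.rs_ne (C := C) h2 (by omega) ?_
  rw [hd.all δ t, C.rs_add (mul_mem a1 a3) (mul_mem a2 a4), C.rs_mul a1 a3, C.rs_mul a2 a4, h4.1,
    h4.2, mul_zero, mul_zero, add_zero]

/-- The smooth points are dense in the curve. -/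
theorem dense [Ok S.W] (h1 : DER) (ht : t ∈ y.ring) (h : GenAt y (-C.cl) t) (hy : y.On C) :
    ∃ᶠ z in 𝓝 y, z.On C ∧ mfderiv 𝓘(ℂ, C2) 𝓘(ℂ) (fun z : Pt S.W => ev z t) z ≠ 0 := by
  obtain ⟨d₁, d₂, hd⟩ := exists_dual S y _ _ (par_spec y)
  obtain ⟨w, rfl⟩ : y ∈ range (S.pt C) := (range_pt C).symm ▸ hy
  have h2 : ∃ᶠ q in 𝓝 w, P297Y.Jac.ev q (C.rs (d₁ t)) ≠ 0 ∨ P297Y.Jac.ev q (C.rs (d₂ t)) ≠ 0 :=
    frequently_or_distrib.2 ((part hd ht h hy).imp (freq_ne · w) (freq_ne · w))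
  have h3 := (continuous_pt C).tendsto w
  refine h3.frequently ((h2.and_eventually (h3.eventually ((h1 K S _ _ _ _ _ hd).and
    ((nhds_reg ht).and (chart_source_mem_nhds C2 _))))).mono ?_)
  rintro q ⟨a1, ⟨a2, a3⟩, a4, a5⟩
  refine ⟨pt_on C q, (H815.mfderiv_ne_zero_iff _ a5 (holN_ev a4).self).2 fun e => ?_⟩
  have a6 := (a3 _ (isCh_chartAt _) a5 t a4).fderiv.symm.trans e
  rw [← ev_pt (a2.reg t a4).1, ← ev_pt (a2.reg t a4).2] at a1
  rcases a1 with a1 | a1
  · exact a1 (by simpa using congrArg (fun L : C2 →L[ℂ] ℂ => L (Pi.single 0 1)) a6)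
  · exact a1 (by simpa using congrArg (fun L : C2 →L[ℂ] ℂ => L (Pi.single 1 1)) a6)

end LdivH

theorem ldiv (h1 : DER) (h2 : INJ) : LDIV := by
  intro K _ _ S _ x C t ht h f hf hv
  refine H815.extendM hf (holN_ev ht) ((h2 K S x t ht h.1).filter_mono nhdsWithin_le_nhds) ?_
  filter_upwards [((nhds_reg ht).and ((nhds_genAt h).and (hv.and hf.eventually))).eventually_nhds
    |>.eventually_nhds] with z hz h0
  obtain ⟨a1, a2, -⟩ := hz.self_of_nhds.self_of_nhds
  refine mem_closure_iff_frequently.2 (((LdivH.dense h1 a1 a2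
    ((LdivH.zero_iff a1 a2).1 h0)).and_eventually hz).mono ?_)
  rintro y ⟨⟨b1, b2⟩, b3⟩
  obtain ⟨b4, b5, -, b6⟩ := b3.self_of_nhds
  have b7 := (LdivH.zero_iff b4 b5).2 b1
  exact ⟨b7, H815.bound_of_vanish (holN_ev b4) b7 b2 b6
    (b3.mono fun u hu e => hu.2.2.1 ((LdivH.zero_iff hu.1 hu.2.1).1 e))⟩

end Vale.Agent.P253Y.An
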