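import Vale.Agent.P253Y.An.Frm
import Vale.Agent.P253Y.G.Basic

/-! P253, surfaces, block C: the intersection number with the bundle of a divisor is additive. -/

set_option linter.all false

open scoped Manifold ContDiff
open Filter Topology Set

noncomputable section

namespace Vale.Agent.P253Y.An

open Vale.Agent.P297Z Vale.Agent.P297Z.Sf
open Vale.Agent.P267 Vale.Agent.P267.FL
open Vale.Agent.P267.RR (isec)
open Vale.Agent.P267.BlockC (ALB ExactTwo)
open Frm

namespace LinH

variable {K : Type} [Field K] [Algebra ℂ K] {S : Surf K} [Ok S.W]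

/-- A divisor with a global generator. -/
theorem isec_gen {G : Sf.Div S.W} (B : OB G) {f : K} (h : ∀ x, GenAt x G f) (L : ALB (Pt S.W)) :
    isec L.L B.A.L = 0 := by
  rw [isec_comm]
  exact isec_exact (exact_of_sec (s := B.v f)
    (reg0_iff_at.2 fun x => (B.secAt x f (GenAt.mem (h x))).sm)
    (fun x => (B.secAt x f (GenAt.mem (h x))).sec) fun x => B.ne x f (h x)) L

theorem gen_div {g : K} (hg : g ≠ 0) (x : Pt S.W) : GenAt x (div S.W g) g⁻¹ :=
  ⟨inv_ne_zero hg, fun C _ => by
    rw [div_apply S.all.toLoc2]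
    have h1 := Pl.ord_mul C.pl (inv_ne_zero hg) hg
    rw [inv_mul_cancel₀ hg, Pl.ord_one] at h1
    exact h1.symm⟩

omit [Ok S.W] in
theorem gen_zero (x : Pt S.W) : GenAt x (0 : Sf.Div S.W) (1 : K) :=
  ⟨one_ne_zero, fun C _ => by simpa using Pl.ord_one C.pl⟩

theorem add (h : OBI) {G G' G'' : Sf.Div S.W} (e : G'' = G + G') (B : OB G) (B' : OB G')
    (B'' : OB G'') (L : ALB (Pt S.W)) : isec L.L B''.A.L = isec L.L B.A.L + isec L.L B'.A.L := by
  subst e
  rw [isec_comm, isec_add (h K S G G' B B' B''), isec_comm B.A, isec_comm B'.A]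

end LinH

open LinH in
theorem lin (h1 : OBE) (h2 : OBI) : LIN := by
  intro K _ _ S _ L
  have B := fun G => (h1 K S G).some
  refine ⟨AddMonoidHom.mk' (fun G => isec L.L (B G).A.L) fun G G' => add h2 rfl _ _ _ L,
    fun G B' => ?_, fun g hg => isec_gen (B _) (gen_div hg) L⟩
  rw [add h2 (add_zero G).symm (B G) (B 0) B', isec_gen (B 0) gen_zero, add_zero]
  rfl

end Vale.Agent.P253Y.An
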