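import Vale.Agent.P253Y.An.Sk
import Vale.Agent.P267.H466.LBNF

/-! P253, surfaces, block E: the degree of a bundle with a holomorphic section. -/

set_option linter.all false

open scoped Manifold ContDiff
open Filter Topology Set Asymptotics

noncomputable section

namespace Vale.Agent.P253Y.An

open Vale.Agent.P297Z Vale.Agent.P297Z.Sf
open Vale.Agent.P019P (CFF Plk dg)
open Vale.Agent.P267 Vale.Agent.P267.FL
open Vale.Agent.P267.BlockC (ALB)
open Vale.Agent.P267.H815 (HolN)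
open Vale.Agent.P297Y.Jac (ch)

namespace MspH

/-- An analytic function that vanishes to every order vanishes. -/
theorem flat {f : C2 → ℂ} {x : C2} (hf : AnalyticAt ℂ f x)
    (h : ∀ n : ℕ, f =O[𝓝 x] fun y => ‖y - x‖ ^ n) : ∀ᶠ y in 𝓝 x, f y = 0 := by
  obtain ⟨p, hp⟩ := hf
  have h0 : Tendsto (fun y => x + y) (𝓝 0) (𝓝 x) := by
    simpa using (continuous_const_add x).tendsto 0
  have key : ∀ n y, p n (fun _ => y) = 0 := fun n => Nat.strong_induction_on n fun k hk => by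
    have h1 : p.partialSum (k + 1) = fun y => p k fun _ => y := funext fun z =>
      Finset.sum_eq_single _ (fun b hb e => hk b (by simp at hb; omega) z) (by simp)
    have h2 := ((h (k + 1)).comp_tendsto h0).sub
      (by simpa [Function.comp_def] using hp.isBigO_sub_partialSum_pow (k + 1))
    exact IsBigO.continuousMultilinearMap_apply_eq_zero
      (by simpa [h1, Function.comp_def] using h2)
  filter_upwards [hp.eventually_hasSum_sub] with y hy
  simp only [key] at hy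
  exact hy.unique hasSum_zero

section plk

variable {E : Type} [Field E] [Algebra ℂ E] [CFF ℂ E]

theorem lp_self (w : Plk ℂ E) : lp w w = 0 := P297Y.Jac.ev_eq_zero (ch w).t_mem

theorem lp_cont (w : Plk ℂ E) : ∀ᶠ q in 𝓝 w, ContinuousAt (lp w) q :=
  (P297Y.Jac.nhds_val (P297Y.Jac.mem_of_one (ch w).t_mem) univ_mem).mono fun q hq U hU =>
    (P297Y.Jac.nhds_val hq.1 hU).mono fun _ h => h.2

theorem lp_tendsto (w : Plk ℂ E) : Tendsto (lp w) (𝓝 w) (𝓝 0) :=
  lp_self w ▸ (lp_cont w).self_of_nhds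

theorem lp_tendsto' (w : Plk ℂ E) : Tendsto (lp w) (𝓝[≠] w) (𝓝[≠] 0) := by
  refine tendsto_nhdsWithin_iff.2 ⟨(lp_tendsto w).mono_left nhdsWithin_le_nhds, ?_⟩
  filter_upwards [mem_nhdsWithin_of_mem_nhds (ch w).nhds, self_mem_nhdsWithin] with q h1 h2 h3
  exact h2 (h1.trans ((congrArg (ch w).pt h3).trans (ch w).pt0))

theorem fin_of {N : Set (Plk ℂ E)} (h : ∀ w, ∀ᶠ q in 𝓝[≠] w, q ∉ N) : N.Finite := by
  obtain ⟨T, -, hT⟩ := isCompact_univ.elim_nhds_subcover (fun w => {q | q ∈ ({w}ᶜ : Set _) → q ∉ N})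
    fun w _ => eventually_nhdsWithin_iff.1 (h w)
  refine T.finite_toSet.subset fun q hq => ?_
  obtain ⟨w, hw, h1⟩ := mem_iUnion₂.1 (hT (mem_univ q))
  exact (not_not.1 fun e => h1 e hq : q = w) ▸ hw

theorem all_or [ConnectedSpace (Plk ℂ E)] {N : Set (Plk ℂ E)}
    (h : ∀ w, (∀ᶠ q in 𝓝 w, q ∈ N) ∨ ∀ᶠ q in 𝓝[≠] w, q ∉ N) :
    (∀ w, w ∈ N) ∨ ∀ w, ∀ᶠ q in 𝓝[≠] w, q ∉ N := by
  have h1 : IsClopen (interior N) := ⟨isOpen_compl_iff.1 (isOpen_iff_mem_nhds.2 fun w hw => by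
    filter_upwards [eventually_nhdsWithin_iff.1
      ((h w).resolve_left fun e => hw (mem_interior_iff_mem_nhds.2 e))] with q hq e
    exact hq (fun e' => hw (e' ▸ e)) (interior_subset e)), isOpen_interior⟩
  refine (isClopen_iff.1 h1).symm.imp (fun e w => interior_subset (e ▸ mem_univ w))
    fun e w => (h w).resolve_left fun e' => ?_
  exact (e ▸ mem_interior_iff_mem_nhds.2 e' : w ∈ (∅ : Set _))

end plk

variable {K : Type} [Field K] [Algebra ℂ K] {S : Surf K} {x : Pt S.W} {Z : Sf.Div S.W} {t t' : K}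

theorem mem_of (h : ∀ C : Crv S.W, x.On C → 0 ≤ C.ord t) : t ∈ x.ring :=
  (S.all.normal x t).1 (Or.inr fun C hC => by simpa using h C hC)

theorem gen_mem (hZ : 0 ≤ Z) (h : GenAt x (-Z) t) : t ∈ x.ring := mem_of fun C hC => by
  have h1 := h.2 C hC
  have h2 := hZ C
  simp only [Finsupp.coe_neg, Pi.neg_apply, Finsupp.coe_zero, Pi.zero_apply] at h1 h2
  omega

theorem div_mem (h : GenAt x Z t) (h' : GenAt x Z t') : t' / t ∈ x.ring := mem_of fun C hC => by
  have h1 := h.2 C hC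
  have h2 := h'.2 C hC
  rw [Crv.ord, Pl.ord_div _ h'.1 h.1]
  unfold Crv.ord at h1 h2
  omega

theorem div_ne (h : GenAt x Z t) (h' : GenAt x Z t') : ev x (t' / t) ≠ 0 :=
  ev_ne_of_unit (div_ne_zero h'.1 h.1) (div_mem h h') (inv_div t' t ▸ div_mem h' h)

theorem cl_nonneg (C : Crv S.W) : 0 ≤ C.cl := Finsupp.single_nonneg.2 zero_le_one

variable [Ok S.W]

/-- The section of a curve is analytic in the local parameter. -/
theorem an_pt (C : Crv S.W) (w : Plk ℂ C.Fn) {g : Pt S.W → ℂ} (hg : HolN g (S.pt C w)) :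
    AnalyticAt ℂ (fun r => g (S.pt C ((ch w).pt r))) 0 := by
  have hc := isCh_chartAt (S.pt C w)
  have h1 : ∀ᶠ r in 𝓝 0, S.pt C ((ch w).pt r) ∈ (chartAt C2 (S.pt C w)).source :=
    (((continuous_pt C).tendsto w).comp (ch w).tendsto_pt).eventually
      (chart_source_mem_nhds C2 _)
  have h2 : AnalyticAt ℂ (fun r => chartAt C2 (S.pt C w) (S.pt C ((ch w).pt r))) 0 := by
    refine AnalyticAt.congr (f := fun r => (![P297Y.Jac.ev ((ch w).pt r) (C.rs (p₁ (S.pt C w))),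
      P297Y.Jac.ev ((ch w).pt r) (C.rs (p₂ (S.pt C w)))] : C2)) (analyticAt_pi_iff.2 fun i => ?_)
      (h1.mono fun r hr => ?_)
    · fin_cases i
      exacts [((ch w).an _ (rs_mem (p₁ _).2)).2, ((ch w).an _ (rs_mem (p₂ _).2)).2]
    · beta_reduce
      rw [hc.app _ hr, ev_pt (hc.mem _ hr).1, ev_pt (hc.mem _ hr).2]
  refine (hg.analyticAt.comp_of_eq h2 (by rw [(ch w).pt0])).congr (h1.mono fun r hr => ?_)
  simp only [Function.comp_apply, (chartAt C2 (S.pt C w)).left_inv hr]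

variable {L : ALB (Pt S.W)} {s f f' : Pt S.W → EuclideanSpace ℂ L.ι} {g g' : Pt S.W → ℂ}

/-- The section `s` is divisible by the equation `t` of `Z` near `x`. -/
structure Lc (s : Pt S.W → EuclideanSpace ℂ L.ι) (x : Pt S.W) (Z : Sf.Div S.W) (t : K)
    (g : Pt S.W → ℂ) (f : Pt S.W → EuclideanSpace ℂ L.ι) : Prop where
  gen : GenAt x (-Z) t
  hol : HolN g x
  eq : ∀ᶠ y in 𝓝 x, ContinuousAt f y ∧ Fb L y (f y) ∧ f y ≠ 0 ∧ s y = (ev y t * g y) • f y

theorem Lc.nhds (h : Lc s x Z t g f) : ∀ᶠ y in 𝓝 x, Lc s y Z t g f := by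
  filter_upwards [nhds_genAt h.gen, h.hol.eventually, h.eq.eventually_nhds] with y h1 h2 h3
  exact ⟨h1, h2, h3⟩

theorem Lc.uniq (h3 : INJ) (hZ : 0 ≤ Z) (h : Lc s x Z t g f) (h' : Lc s x Z t' g' f') :
    g x • f x = (ev x (t' / t) * g' x) • f' x := by
  have ht := gen_mem hZ h.gen
  have hu := div_mem h.gen h'.gen
  refine tendsto_nhds_unique_of_frequently_eq (h.hol.continuousAt.smul h.eq.self_of_nhds.1)
    (((continuousAt_ev hu).mul h'.hol.continuousAt).smul h'.eq.self_of_nhds.1)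
    ((((h3 K S x t ht h.gen.1).filter_mono nhdsWithin_le_nhds).and_eventually
      (h.eq.and (h'.eq.and ((nhds_reg ht).and (nhds_reg hu))))).mono ?_)
  rintro y ⟨e0, e1, e2, e3, e4⟩
  refine smul_right_injective _ e0 ?_
  have e5 := ev_mul e3 e4
  rw [mul_div_cancel₀ _ h.gen.1] at e5
  simp only [Pi.smul_apply', Pi.mul_apply]
  rw [smul_smul, smul_smul, ← e1.2.2.2, ← mul_assoc, ← e5, e2.2.2.2]

theorem Lc.zero_iff (h3 : INJ) (hZ : 0 ≤ Z) (h : Lc s x Z t g f) (h' : Lc s x Z t' g' f') :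
    g x = 0 ↔ g' x = 0 := by
  rw [← smul_eq_zero_iff_left h.eq.self_of_nhds.2.2.1, h.uniq h3 hZ h',
    smul_eq_zero_iff_left h'.eq.self_of_nhds.2.2.1, mul_eq_zero_iff_left (div_ne h.gen h'.gen)]

theorem Lc.step (h2 : LDIV) (hZ : 0 ≤ Z) (h : Lc s x Z t g f) (C : Crv S.W)
    (h0 : ∀ᶠ y in 𝓝 x, y.On C → g y = 0) : ∃ t g, Lc s x (Z + C.cl) t g f := by
  obtain ⟨τ, hτ⟩ := S.all.gen x (-C.cl)
  have h4 := gen_mem (cl_nonneg C) hτ
  obtain ⟨g', h5, h6⟩ := h2 K S x C τ h4 hτ g h.hol h0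
  refine ⟨t * τ, g', ⟨mul_ne_zero h.gen.1 hτ.1, fun C' hC' => ?_⟩, h5, ?_⟩
  · have e1 := h.gen.2 C' hC'
    have e2 := hτ.2 C' hC'
    rw [Crv.ord, Pl.ord_mul _ h.gen.1 hτ.1, neg_add, Finsupp.add_apply]
    unfold Crv.ord at e1 e2
    omega
  · filter_upwards [h.eq, h6, nhds_reg h4, nhds_reg (gen_mem hZ h.gen)] with y e1 e2 e3 e4
    rwa [ev_mul e4 e3, mul_assoc, ← e2]

theorem bdd (hs : Dense {y | s y ≠ 0}) (h : Lc s x 0 1 g f) {C : Crv S.W} (hx : x.On C) :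
    ∃ n : ℕ, ∀ Z t g f, 0 ≤ Z → Lc s x Z t g f → Z C ≤ n := by
  by_contra! H
  obtain ⟨τ, hτ⟩ := S.all.gen x (-C.cl)
  have h4 := gen_mem (cl_nonneg C) hτ
  have h5 : ev x τ = 0 := ev_van ⟨h4, Or.inr fun e => by
    have e1 := Pl.ord_nonneg_of_mem _ (hx _ e)
    have e2 := hτ.2 C hx
    simp only [Pl.ord_inv, Finsupp.coe_neg, Pi.neg_apply, Finsupp.single_eq_same] at e1 e2
    unfold Crv.ord at e2
    omega⟩
  have hx' := mem_chart_source C2 x
  have h6 := (holN_ev h4).analyticAt.differentiableAt.isBigO_sub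
  simp only [Function.comp_apply, (chartAt C2 x).left_inv hx', h5, sub_zero] at h6
  have h7 := (H815.eventually_chart_iff x hx' (p := fun y => g y = 0)).1
    (flat h.hol.analyticAt fun n => by
    obtain ⟨Z, t, g', f', hZ, h', hn⟩ := H n
    have h8 : t / τ ^ n ∈ x.ring := mem_of fun C' hC' => by
      have e1 := h'.gen.2 C' hC'
      have e2 := hτ.2 C' hC'
      have e3 := hZ C'
      rw [Crv.ord, Pl.ord_div _ h'.gen.1 (pow_ne_zero n hτ.1), Pl.ord_pow]
      unfold Crv.ord at e1 e2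
      simp only [Finsupp.coe_neg, Pi.neg_apply, Finsupp.coe_zero, Pi.zero_apply] at e1 e2 e3
      by_cases e : C' = C
      · rw [e, Finsupp.single_eq_same] at e2
        rw [e] at e1 ⊢
        rw [show C.pl.ord τ = 1 by omega]
        omega
      · rw [Finsupp.single_eq_of_ne e] at e2
        rw [show C'.pl.ord τ = 0 by omega]
        omega
    have h9 : g =O[𝓝 x] fun y => ‖ev y τ‖ ^ n := by
      have e0 := (((continuousAt_ev h8).mul h'.hol.continuousAt).norm.mul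
        h'.eq.self_of_nhds.1.norm).div h.eq.self_of_nhds.1.norm
        (norm_ne_zero_iff.2 h.eq.self_of_nhds.2.2.1)
      refine IsBigO.of_norm_left (EventuallyEq.trans_isBigO ?_ (by
        simpa using (isBigO_refl (fun y : Pt S.W => ‖ev y τ‖ ^ n) _).mul (e0.isBigO_one ℝ)))
      filter_upwards [h.eq, h'.eq, nhds_reg h4, nhds_reg h8] with y e1 e2 e3 e4
      have e5 := congrArg norm (e1.2.2.2.symm.trans e2.2.2.2)
      have e6 := ev_mul (pow_mem e3 n) e4
      rw [mul_div_cancel₀ _ (pow_ne_zero n hτ.1), ev_pow e3] at e6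
      rw [ev_one, one_mul, e6, norm_smul, norm_smul, mul_assoc, norm_mul, norm_pow,
        norm_mul] at e5
      rw [← mul_div_assoc, eq_div_iff (norm_ne_zero_iff.2 e1.2.2.1), e5, mul_assoc]
    exact (h9.comp_tendsto (H815.tendsto_symm x hx')).trans (h6.norm_norm.pow n))
  obtain ⟨y, e1, e2⟩ := hs.inter_nhds_nonempty (h7.and h.eq)
  exact e1 (by rw [e2.2.2.2.2, e2.1, mul_zero, zero_smul])

theorem base (L : HL (Pt S.W)) {s : Pt S.W → EuclideanSpace ℂ L.A.ι} (hs : s ∈ L.H0 0)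
    (x : Pt S.W) : ∃ g f, Lc s x 0 1 g f := by
  obtain ⟨⟨h1, h2⟩, h3⟩ := (RR.mem_H0 _ _ _).1 hs
  obtain ⟨U, f, hU, hx, h4, h5, h6, h7, h8⟩ := H466.exists_local L.hol h1 h2
    (fun y i => by rw [h3]; rfl) x
  refine ⟨_, f, ⟨one_ne_zero, fun C _ => by simp⟩, (H815.holN_iff x (mem_chart_source _ x)).2
    (by rw [← LB.loc0_zero]; exact h8 x hx), ?_⟩
  filter_upwards [hU.mem_nhds hx] with y hy
  exact ⟨h4.continuous.continuousAt, h5 y, (h6 y hy).1, by rw [ev_one, one_mul, ← h7 y hy]⟩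

/-- The degree on a curve along which the quotient does not vanish. -/
theorem deg (h3 : INJ) (hZ : 0 ≤ Z) {t : Pt S.W → K} {g : Pt S.W → Pt S.W → ℂ}
    {f : Pt S.W → Pt S.W → EuclideanSpace ℂ L.ι} (h : ∀ x, Lc s x Z (t x) (g x) (f x))
    (B : OB (-Z)) (C : Crv S.W) (h0 : ∀ w, ∀ᶠ q in 𝓝[≠] w, g (S.pt C q) (S.pt C q) ≠ 0) :
    ∃ d : ℤ, 0 ≤ d ∧ Deg C (ten L B.A) d ∧ (d = 0 → Z = 0 → ∀ x, x.On C → s x ≠ 0) := by
  have hp := fun w => (continuous_pt C).tendsto w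
  have h1 : ∀ w, ∃ (n : ℕ) (ψ : ℂ → ℂ), AnalyticAt ℂ ψ 0 ∧ ψ 0 ≠ 0 ∧
      ∀ᶠ q in 𝓝 w, g (S.pt C w) (S.pt C q) = lp w q ^ n * ψ (lp w q) := fun w => by
    obtain ⟨n, ψ, e1, e2, e3⟩ := (an_pt C w (h _).hol).exists_eventuallyEq_pow_smul_nonzero_iff.2
      fun e => by
        have : (𝓝[≠] w).NeBot := by
          by_contra e1
          have e2 : ∀ᶠ r in 𝓝 (0 : ℂ), r = 0 := by
            filter_upwards [(ch w).tendsto_pt.eventually (eventually_nhdsWithin_iff.1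
              ((not_neBot.1 e1).symm ▸ eventually_bot : ∀ᶠ q in 𝓝[≠] w, False)), (ch w).ev_t]
              with r e3 e4
            rw [← e4, show (ch w).pt r = w from not_not.1 e3]
            exact lp_self w
          exact (frequently_false _) ((eventually_mem_nhdsWithin.and
            (e2.filter_mono (nhdsWithin_le_nhds (s := {0}ᶜ)))).mono fun r e => e.1 e.2).frequently
        obtain ⟨q, e1, e2, e3, e4⟩ := ((h0 w).and (eventually_nhdsWithin_of_eventually_nhds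
          (((lp_tendsto w).eventually e).and ((ch w).nhds.and
            ((hp w).eventually (h _).nhds))))).exists
        exact e1 (((h _).zero_iff h3 hZ e4).2 (e3 ▸ e2))
    refine ⟨n, ψ, e1, e2, ?_⟩
    filter_upwards [(lp_tendsto w).eventually e3, (ch w).nhds] with q e4 e5
    rw [sub_zero, smul_eq_mul] at e4
    exact (congrArg (fun q => g _ (S.pt C q)) e5).trans e4
  choose n ψ e1 e2 e3 using h1
  have h2 : ∀ w, g (S.pt C w) (S.pt C w) = 0 ↔ n w ≠ 0 := fun w => by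
    rw [(e3 w).self_of_nhds, lp_self, mul_eq_zero_iff_right (e2 w), pow_eq_zero_iff',
      and_iff_right rfl]
  let Δ : Plk ℂ C.Fn →₀ ℤ := Finsupp.ofSupportFinite (fun w => (n w : ℤ))
    ((fin_of (N := {q | g (S.pt C q) (S.pt C q) = 0}) h0).subset fun w hw =>
      (h2 w).2 fun e => hw (by simp [e]))
  have hΔ : ∀ w, Δ w = n w := fun w => rfl
  refine ⟨dg Δ, ?_, ⟨Δ, fun q => LB.ten (g (S.pt C q) (S.pt C q) • f (S.pt C q) (S.pt C q))
    (B.v (t (S.pt C q)) (S.pt C q)), rfl, fun w => ⟨fun q => ψ w (lp w q) •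
      LB.ten (f (S.pt C w) (S.pt C q)) (B.v (t (S.pt C w)) (S.pt C q)), ?_, ?_, ?_⟩⟩,
    fun e e' x hx => ?_⟩
  · rw [P019P.dg_apply]
    exact Finset.sum_nonneg fun w _ => Int.natCast_nonneg _
  · filter_upwards [(hp w).eventually (h _).nhds, lp_cont w,
      (lp_tendsto w).eventually (e1 w).eventually_analyticAt] with q e4 e5 e6
    have e7 := B.secAt _ _ (GenAt.mem e4.gen)
    have e8 := e4.eq.self_of_nhds
    refine ⟨(e6.continuousAt.comp e5).smul ?_, ?_⟩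
    · simp only [← LB.tenL_apply]
      exact (LB.tenL.continuous.continuousAt.comp (e8.1.comp (hp q))).clm_apply
        (e7.sm.continuousAt.comp (hp q))
    · exact (LB.act_smul _ _ _).trans (congrArg _ ((LB.act_tensor_P _ _ _).trans
        (congrArg₂ LB.ten e8.2.1 e7.sec)))
  · exact smul_ne_zero ((lp_self w).symm ▸ e2 w)
      (LB.ten_ne_zero (h _).eq.self_of_nhds.2.2.1 (B.ne _ _ (h _).gen))
  · filter_upwards [mem_nhdsWithin_of_mem_nhds (((hp w).eventually (h _).nhds).and (e3 w))]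
      with q ⟨e4, e5⟩
    have e6 := B.mul _ _ (div_mem e4.gen (h _).gen) _ (GenAt.mem e4.gen)
    rw [div_mul_cancel₀ _ e4.gen.1] at e6
    rw [e6, LB.ten_smul_right, ← LB.ten_smul_left, smul_smul, ← e4.uniq h3 hZ (h _), e5, hΔ,
      zpow_natCast, LB.ten_smul_left]
    exact mul_smul _ _ _
  · obtain ⟨w, rfl⟩ : x ∈ range (S.pt C) := range_pt C ▸ hx
    rw [P019P.dg_apply] at e
    have e4 : n w = 0 := by
      by_contra e4
      exact e4 (Int.natCast_eq_zero.1 ((Finset.sum_eq_zero_iff_of_nonneg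
        fun w _ => Int.natCast_nonneg _).1 e w (Finsupp.mem_support_iff.2
          (Int.natCast_ne_zero.2 e4))))
    have e5 := div_ne (x := S.pt C w) (Z := -Z) (t := 1) ⟨one_ne_zero, by simp [e']⟩ (h _).gen
    rw [div_one] at e5
    rw [(h _).eq.self_of_nhds.2.2.2]
    exact smul_ne_zero (mul_ne_zero e5 fun e6 => (h2 w).1 e6 e4) (h _).eq.self_of_nhds.2.2.1

end MspH

open MspH in
theorem msp (h1 : PLK) (h2 : LDIV) (h3 : INJ) : MSP := by
  intro K _ _ S _ L s hs h0 D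
  obtain ⟨⟨e1, e2⟩, e3⟩ := (RR.mem_H0 _ _ _).1 hs
  obtain ⟨x₀, hx₀⟩ := Function.ne_iff.1 h0
  have hd := H466.dense_ne_zero L.hol e1 e2 (fun y i => by rw [e3]; rfl) hx₀
  have hb : ∀ C : Crv S.W, ∃ n : ℕ, ∀ Z, 0 ≤ Z → (∀ x, ∃ t g f, Lc s x Z t g f) → Z C ≤ n :=
    fun C => by
      obtain ⟨w⟩ := (h1 C.Fn).toNonempty
      obtain ⟨g, f, h⟩ := base L hs (S.pt C w)
      obtain ⟨n, hn⟩ := bdd hd h (pt_on C w)
      exact ⟨n, fun Z hZ H => let ⟨_, _, _, h⟩ := H _; hn Z _ _ _ hZ h⟩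
  choose n hn using hb
  obtain ⟨_, ⟨Z, hZ, hD, H, rfl⟩, hm⟩ := Int.exists_greatest_of_bdd
    (P := fun k => ∃ Z, 0 ≤ Z ∧ Mp.On Z D ∧ (∀ x, ∃ t g f, Lc s x Z t g f) ∧ ∑ C ∈ D, Z C = k)
    ⟨∑ C ∈ D, n C, by
      rintro _ ⟨Z, hZ, -, H, rfl⟩
      exact Finset.sum_le_sum fun C _ => hn C Z hZ H⟩
    ⟨_, 0, le_rfl, fun _ _ => rfl, fun x => ⟨1, base L hs x⟩, rfl⟩
  choose t g f h using H
  refine ⟨Z, hZ, hD, fun B C hC => deg h3 hZ h B C ?_⟩
  have := h1 C.Fn
  refine (all_or (N := {q | g (S.pt C q) (S.pt C q) = 0}) fun w => ?_).resolve_left fun e => ?_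
  · have e4 := (ch w).nhds.and (((continuous_pt C).tendsto w).eventually (h _).nhds)
    refine (an_pt C w (h _).hol).eventually_eq_zero_or_eventually_ne_zero.imp (fun e => ?_)
      fun e => ?_
    · filter_upwards [(lp_tendsto w).eventually e, e4] with q e5 e6
      exact ((h _).zero_iff h3 hZ e6.2).2 (e6.1 ▸ e5)
    · filter_upwards [(lp_tendsto' w).eventually e, mem_nhdsWithin_of_mem_nhds e4] with q e5 e6 e7
      exact e5 (e6.1 ▸ ((h _).zero_iff h3 hZ e6.2).1 e7)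
  · have e4 := hm _ ⟨Z + C.cl, add_nonneg hZ (cl_nonneg C), fun C' hC' => by
      rw [Finsupp.add_apply, hD C' hC', Finsupp.single_eq_of_ne fun e : C' = C => hC' (e ▸ hC),
        add_zero], fun x => ?_, rfl⟩
    · classical
      simp [Finset.sum_add_distrib, Finsupp.single_apply, hC] at e4
    · obtain ⟨t', g', h'⟩ := (h x).step h2 hZ C ((h x).nhds.mono fun y e5 hy => by
        obtain ⟨w, rfl⟩ : y ∈ range (S.pt C) := range_pt C ▸ hy
        exact ((h _).zero_iff h3 hZ e5).1 (e w))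
      exact ⟨t', g', _, h'⟩

end Vale.Agent.P253Y.An
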