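import Vale.Agent.P253Y.An.Sk
import Vale.Agent.P267.H451.Glue

/-! P253, surfaces, block C: the line bundle of a divisor and its degrees on the curves. -/

set_option linter.all false

open scoped Manifold ContDiff
open Filter Topology Set IsLocalRing

noncomputable section

namespace Vale.Agent.P253Y.An

open Vale.Agent.P297Z Vale.Agent.P297Z.Sf
open Vale.Agent.P019P (CFF Plk dg)
open Vale.Agent.P267 Vale.Agent.P267.FL
open Vale.Agent.P267.H451 (Sm Hol GlueData)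

namespace ObeH

theorem bump {X : Type} [TopologicalSpace X] [T2Space X] [ChartedSpace C2 X]
    [IsManifold 𝓘(ℂ, C2) ω X] {x : X} {U : Set X} (hU : U ∈ 𝓝 x) :
    ∃ (ρ : X → ℂ) (Z : Set X), IsClosed Z ∧ Z ⊆ U ∧ (∀ y ∉ Z, ρ y = 0) ∧ (∀ y, Sm ρ y) ∧
      ρ x ≠ 0 := by
  obtain ⟨e, he, hx⟩ : ∃ e ∈ atlas C2 X, x ∈ e.source :=
    ⟨_, chart_mem_atlas C2 x, mem_chart_source C2 x⟩
  obtain ⟨f, f1, f2, f3, -, f4⟩ := exists_contDiff_tsupport_subset (n := ⊤)
    (inter_mem (e.open_target.mem_nhds (e.map_source hx)) (e.tendsto_symm hx hU))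
  have hZ : IsClosed (e.symm '' tsupport f) := (f2.isCompact.image_of_continuousOn
    (e.continuousOn_symm.mono fun z hz => (f1 hz).1)).isClosed
  have h0 : ∀ y ∉ e.symm '' tsupport f, e.source.indicator (fun y => (f (e y) : ℂ)) y = 0 := by
    intro y hy
    by_cases h : y ∈ e.source
    · rw [indicator_of_mem h, image_eq_zero_of_notMem_tsupport
        fun h1 => hy ⟨_, h1, e.left_inv h⟩, Complex.ofReal_zero]
    · exact indicator_of_notMem h _
  refine ⟨e.source.indicator fun y => (f (e y) : ℂ), _, hZ, ?_, h0, fun y => ?_, ?_⟩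
  · rintro _ ⟨z, hz, rfl⟩
    exact (f1 hz).2
  · by_cases h : y ∈ e.source
    · refine Sm.of_chart he h ((Complex.ofRealCLM.contDiff.comp f3).contDiffAt.congr_of_eventuallyEq
        ?_)
      filter_upwards [e.open_target.mem_nhds (e.map_source h)] with z hz
      rw [indicator_of_mem (e.map_target hz), e.right_inv hz]
      rfl
    · refine (Sm.const (0 : ℂ)).congr ?_
      refine mem_of_superset (hZ.isOpen_compl.mem_nhds ?_) h0
      rintro ⟨z, hz, rfl⟩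
      exact h (e.map_target (f1 hz).1)
  · rw [indicator_of_mem hx, f4]
    simp

theorem act_smul {ι : Type} [Fintype ι] [DecidableEq ι] (P : Matrix ι ι ℂ) (c : ℂ)
    (v : EuclideanSpace ℂ ι) : LB.act P (c • v) = c • LB.act P v := by
  ext k
  simp only [LB.act, PiLp.smul_apply, WithLp.ofLp_smul, Matrix.mulVec_smul, Pi.smul_apply]

theorem at0_iff {X : Type} [TopologicalSpace X] [ChartedSpace C2 X] {V : Type}
    [NormedAddCommGroup V] [NormedSpace ℂ V] {s : X → V} {x : X} : At0 ∞ 0 s x ↔ Sm s x := by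
  rw [At0, LB.loc0_zero]
  rfl

variable {K : Type} [Field K] [Algebra ℂ K] {S : Surf K} {G : Sf.Div S.W}

theorem div_mem {y : Pt S.W} {b f : K} (hb : GenAt y G b) (hf : f ∈ stalk y G) :
    f / b ∈ y.ring := by
  by_cases h0 : f = 0
  · rw [h0, zero_div]
    exact zero_mem _
  refine (S.all.normal y _).1 (Or.inr fun C hC => ?_)
  have a1 := hb.2 C hC
  have a2 := hf.resolve_left h0 C hC
  unfold Crv.ord at *
  rw [Pl.ord_div _ h0 hb.1, Finsupp.zero_apply]
  omega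

theorem ev_div_ne {y : Pt S.W} {b f : K} (hb : GenAt y G b) (hf : GenAt y G f) :
    ev y (f / b) ≠ 0 :=
  ev_ne_of_unit (div_ne_zero hf.1 hb.1) (div_mem hb (GenAt.mem hf))
    (by rw [inv_div]; exact div_mem hf (GenAt.mem hb))

variable [Ok S.W]

theorem hol_ev {y : Pt S.W} {f : K} (hf : f ∈ y.ring) : Hol (fun z : Pt S.W => ev z f) y :=
  (isCh_chartAt y).an y (mem_chart_source _ y) f hf

theorem exists_v (G : Sf.Div S.W) : ∃ (n : ℕ) (v : K → Pt S.W → EuclideanSpace ℂ (Fin n)),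
    (∀ x, ∀ f ∈ stalk x G, Sm (v f) x) ∧
    (∀ x, ∀ g ∈ x.ring, ∀ f ∈ stalk x G, v (g * f) x = ev x g • v f x) ∧
    ∀ x f, GenAt x G f → v f x ≠ 0 := by
  choose b hb using fun x : Pt S.W => S.all.gen x G
  choose ρ Z h1 h2 h3 h4 h5 using fun x : Pt S.W => bump (nhds_genAt (hb x))
  obtain ⟨t, ht⟩ := CompactSpace.elim_nhds_subcover (fun x => {y | ρ x y ≠ 0}) fun x =>
    (h4 x x).continuousAt.eventually_ne (h5 x)
  let p : Fin t.card → Pt S.W := fun i => t.equivFin.symm i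
  refine ⟨t.card, fun f y => WithLp.toLp 2 fun i => ρ (p i) y * ev y (f / b (p i)),
    fun x f hf => H451.sm_euclid.2 fun i => ?_, fun x g hg f hf => ?_, fun x f hf h => ?_⟩
  · by_cases hx : x ∈ Z (p i)
    · exact (h4 _ x).mul (hol_ev (div_mem (h2 _ hx) hf)).sm
    · refine (Sm.const (0 : ℂ)).congr ?_
      filter_upwards [(h1 _).isOpen_compl.mem_nhds hx] with y hy
      simp [h3 _ y hy]
  · ext i
    by_cases hx : x ∈ Z (p i)
    · simp only [PiLp.smul_apply, smul_eq_mul]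
      rw [mul_div_assoc, ev_mul hg (div_mem (h2 _ hx) hf)]
      ring
    · simp [h3 _ x hx]
  · obtain ⟨a, ha, hx⟩ := mem_iUnion₂.1 (ht.ge (mem_univ x))
    have e1 : p (t.equivFin ⟨a, ha⟩) = a := by simp [p]
    have e2 := congrArg (fun w : EuclideanSpace ℂ (Fin t.card) => w (t.equivFin ⟨a, ha⟩)) h
    simp only [e1, PiLp.zero_apply] at e2
    exact mul_ne_zero hx (ev_div_ne (h2 a (not_not.1 fun h6 => hx (h3 a x h6))) hf) e2

section

variable {E : Type} [Field E] [Algebra ℂ E] [CFF ℂ E]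

theorem ev_zpow {q : Plk ℂ E} {t : E} (h : P297Y.Jac.ev q t ≠ 0) (m : ℤ) :
    P297Y.Jac.ev q (t ^ m) = P297Y.Jac.ev q t ^ m := by
  have h1 : ∀ n : ℕ, P297Y.Jac.ev q (t ^ n) = P297Y.Jac.ev q t ^ n := fun n => by
    induction n with
    | zero => simpa using P297Y.Jac.ev_one q
    | succ n ih =>
      rw [pow_succ, pow_succ, P297Y.Jac.ev_mul (pow_mem (P297Y.Jac.mem_of_ev_ne h) n)
        (P297Y.Jac.mem_of_ev_ne h), ih]
  obtain ⟨n, rfl | rfl⟩ := Int.eq_nat_or_neg m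
  · rw [zpow_natCast, zpow_natCast, h1]
  · rw [zpow_neg, zpow_neg, zpow_natCast, zpow_natCast,
      P297Y.Jac.ev_inv (by rw [h1]; exact pow_ne_zero _ h), h1]

theorem ev_ne {q : Plk ℂ E} {t : E} (h0 : t ≠ 0) (h : P019P.ord q t = 0) :
    t ∈ q.1 ∧ P297Y.Jac.ev q t ≠ 0 := by
  have h1 : t ∈ q.1 := (P019P.mem_iff_ord q t).2 (Or.inr h.ge)
  refine ⟨h1, fun e => ?_⟩
  have := (P297Y.Jac.mem_of_ev h1 e).resolve_left h0
  omega

end

end ObeH

open ObeH in
theorem obe : OBE := by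
  intro K _ _ S _ G
  obtain ⟨n, v, h1, h2, h3⟩ := exists_v G
  have h4 : ∀ {y : Pt S.W} {b f : K}, GenAt y G b → f ∈ stalk y G →
      v f y = ev y (f / b) • v b y := fun {y b f} hb hf => by
    rw [← h2 y _ (div_mem hb hf) b (GenAt.mem hb), div_mul_cancel₀ _ hb.1]
  let D : GlueData (Pt S.W) (Fin n) K :=
    { U := fun b => {y | GenAt y G b}
      v := v
      isOpen := fun b => isOpen_iff_mem_nhds.2 fun y hy => nhds_genAt hy
      cover := fun x => S.all.gen x G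
      sm := fun b y hy => h1 y b (GenAt.mem hy)
      ne := fun b y hy => h3 y b hy
      change := fun a b => ⟨fun y => ev y (a / b), fun y hy =>
        ⟨hol_ev (div_mem hy.2 (GenAt.mem hy.1)), h4 hy.2 (GenAt.mem hy.1)⟩⟩ }
  refine ⟨⟨⟨⟨Fin n, D.L⟩, D.a, H451.isHol_of_frames fun x => ?_⟩, v, fun x f hf => ?_, h2, h3⟩⟩
  · obtain ⟨b, hb⟩ := D.cover x
    exact ⟨D.v b, D.U b, D.isOpen b, hb, fun y hy => D.frameAt hy⟩
  obtain ⟨b, hb⟩ := S.all.gen x G
  have hF := D.frameAt (β := b) hb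
  refine ⟨at0_iff.2 (h1 x f hf), ?_, fun i => ?_⟩
  · change LB.act (D.L.P x) (v f x) = v f x
    rw [h4 hb hf, act_smul]
    exact congrArg _ hF.sec
  · refine (H451.db0_congr ?_ i).trans (hF.db0_smul (hol_ev (div_mem hb hf)) i)
    filter_upwards [nhds_genAt hb, nhds_stalk hf] with y a1 a2
    exact h4 a1 a2

open ObeH in
theorem rst : RST := by
  intro K _ _ S _ C G B
  obtain ⟨g, g0, hg⟩ := S.all.move {C} fun C' => -G C'
  have hg' := hg C (Finset.mem_singleton_self C)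
  have hd : ∀ C', (G + div S.W g) C' = G C' + C'.ord g := fun C' => by
    rw [Finsupp.add_apply, div, toDiv_apply (S.all.fin_div g)]
  have hD : (G + div S.W g) C = 0 := by rw [hd, hg', add_neg_cancel]
  refine ⟨S.rst C (G + div S.W g), fun q => B.v g (S.pt C q), ?_, fun w => ?_⟩
  · rw [CsH.dg_rst S C _ hD, inter_lin S.all.toRR _ _ g0]
  obtain ⟨b, hb⟩ := S.all.gen (S.pt C w) G
  have τ0 := div_ne_zero g0 hb.1
  have hτ : GenAt (S.pt C w) (-(G + div S.W g)) (g / b) := ⟨τ0, fun C' hC' => by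
    have a1 := hb.2 C' hC'
    rw [Finsupp.neg_apply, hd]
    unfold Crv.ord at *
    rw [Pl.ord_div _ g0 hb.1]
    omega⟩
  have τ1 : C.ord (g / b) = 0 := (CsH.gen_ord hτ (pt_on C w)).trans hD
  have τ2 := CsH.rs_ne τ0 τ1
  rw [CsH.rst_apply S C _ hD w _ hτ]
  obtain ⟨m, hm⟩ : ∃ m, m = P019P.ord w (C.rs (g / b)) := ⟨_, rfl⟩
  obtain ⟨t, ht⟩ : ∃ t, t = (P297Y.Jac.ch w).t := ⟨_, rfl⟩
  have t1 : P019P.ord w t = 1 := ht ▸ (P297Y.Jac.ch w).ord_t
  have t0 : t ≠ 0 := fun e => by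
    rw [e, P019P.ord_zero] at t1
    exact zero_ne_one t1
  have u0 : C.rs (g / b) * (t ^ m)⁻¹ ≠ 0 := mul_ne_zero τ2 (inv_ne_zero (zpow_ne_zero _ t0))
  obtain ⟨u1, u2⟩ := ev_ne (q := w) u0 (by
    rw [P019P.ord_mul _ τ2 (inv_ne_zero (zpow_ne_zero _ t0)), P019P.ord_inv, P019P.ord_zpow, t1,
      ← hm]
    ring)
  have n1 := (P297Y.Jac.nhds_val u1 univ_mem).mono fun q hq => hq.1
  have n2 : ∀ᶠ q in 𝓝 w, GenAt (S.pt C q) G b :=
    (continuous_pt C).continuousAt.eventually (nhds_genAt hb)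
  refine ⟨fun q => P297Y.Jac.ev q (C.rs (g / b) * (t ^ m)⁻¹) • B.v b (S.pt C q), ?_,
    smul_ne_zero u2 (B.ne _ _ hb), ?_⟩
  · filter_upwards [n1, n2] with q a1 a2
    have hs := B.secAt _ b (GenAt.mem a2)
    have c1 : ContinuousAt (fun q => P297Y.Jac.ev q (C.rs (g / b) * (t ^ m)⁻¹)) q :=
      fun U hU => (P297Y.Jac.nhds_val a1 hU).mono fun _ h => h.2
    have c2 : ContinuousAt (fun q => B.v b (S.pt C q)) q :=
      (at0_iff.1 hs.sm).continuousAt.comp (continuous_pt C).continuousAt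
    refine ⟨c1.smul c2, ?_⟩
    rw [Fb, act_smul]
    exact congrArg _ hs.sec
  have hA : {C' : Crv S.W | C'.ord (g / b) ≠ 0}.Finite := S.all.fin_div _
  filter_upwards [nhdsWithin_le_nhds n1, nhdsWithin_le_nhds n2,
    nhdsNE_le_cofinite w (fin_over C hA fun h => h τ1).compl_mem_cofinite,
    nhdsNE_le_cofinite w (P019P.dv_finite (k := ℂ) t0).compl_mem_cofinite] with q a1 a2 a3 a4
  have b1 := (CsH.unit_of S (S.pt C q) (f := g / b) fun C' hC' =>
    not_not.1 fun h => a3 ⟨C', h, hC'⟩).1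
  obtain ⟨b2, b3⟩ := ev_ne t0 (not_not.1 a4)
  have b4 := ev_zpow b3 m
  rw [← hm, lp, ← ht, smul_smul, ← b4,
    ← P297Y.Jac.ev_mul (P297Y.Jac.mem_of_ev_ne (b4 ▸ zpow_ne_zero _ b3)) a1, mul_comm,
    inv_mul_cancel_right₀ (zpow_ne_zero _ t0), ← ev_pt b1, ← B.mul _ _ b1 b (GenAt.mem a2),
    div_mul_cancel₀ _ hb.1]

end Vale.Agent.P253Y.An
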