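import Vale.Agent.P253Y.An.Sk

/-! P253, surfaces, block C: the places of a curve, the identity principle. -/

set_option linter.all false

open Filter Topology Set IsLocalRing

noncomputable section

namespace Vale.Agent.P253Y.An

open Vale.Agent.P297Z Vale.Agent.P297Z.Sf
open Vale.Agent.P019P (CFF Plk dg)
open Vale.Agent.P297Y

namespace PlkH

section

variable {E : Type} [Field E] [Algebra ℂ E] [CFF ℂ E]

theorem tendsto_ne (P : Plk ℂ E) : Tendsto (Jac.ch P).pt (𝓝[≠] 0) (𝓝[≠] P) := by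
  refine tendsto_nhdsWithin_iff.2 ⟨(Jac.ch P).tendsto_pt.mono_left nhdsWithin_le_nhds, ?_⟩
  filter_upwards [nhdsWithin_le_nhds (Jac.ch P).ev_t, self_mem_nhdsWithin] with s h1 h2 h3
  have h4 : Jac.ev ((Jac.ch P).pt s) (Jac.ch P).t = s := h1
  rw [mem_singleton_iff.1 h3, Jac.ev_eq_zero (Jac.ch P).t_mem] at h4
  exact h2 h4.symm

/-- A place is not isolated. -/
theorem neBot (P : Plk ℂ E) : (𝓝[≠] P).NeBot := (tendsto_ne P).neBot

theorem fin_zero {g : E} (h : g ≠ 0) : {Q : Plk ℂ E | Jac.ev Q g = 0}.Finite := by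
  refine (P019P.dv_finite (k := ℂ) h).subset fun Q hQ e => ?_
  rcases Jac.mem_of_ev (Jac.mem_iff.2 (Or.inr e.ge)) hQ with h1 | h1
  · exact h h1
  · omega

theorem ev_ne (P : Plk ℂ E) {g : E} (h : g ≠ 0) : ∀ᶠ Q in 𝓝[≠] P, Jac.ev Q g ≠ 0 :=
  nhdsNE_le_cofinite P (fin_zero h).compl_mem_cofinite

theorem clopen {U : Set (Plk ℂ E)} (hU : IsClopen U) {P Q : Plk ℂ E} (hP : P ∉ U) (hQ : Q ∈ U) :
    False := by
  obtain ⟨f, f0, h1, h2⟩ := P019P.h4_exact (k := ℂ)
    (D := Finsupp.single P (2 * (P019P.gen ℂ E : ℤ) + 1)) P (by rw [P019P.dg_sgl]; omega)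
  rw [Finsupp.single_eq_same] at h2
  have h3 : ∀ R ∈ U, f ∈ R.1 := fun R hR => by
    have h4 := h1 R
    rw [Finsupp.single_eq_of_ne (fun e : R = P => hP (e ▸ hR)), neg_zero] at h4
    exact Jac.mem_iff.2 (Or.inr h4)
  have h4 : ContinuousOn (fun R : Plk ℂ E => ‖Jac.ev R f‖) U := fun R hR =>
    ContinuousAt.continuousWithinAt (ContinuousAt.norm fun V hV =>
      (Jac.nhds_val (h3 R hR) hV).mono fun _ h => h.2)
  obtain ⟨R, hR, h5⟩ := hU.isClosed.isCompact.exists_isMaxOn ⟨Q, hQ⟩ h4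
  have h6 := (Jac.ch R).an f (h3 R hR)
  have h7 : ∀ᶠ s in 𝓝 0, Jac.ev ((Jac.ch R).pt s) f = Jac.ev ((Jac.ch R).pt 0) f :=
    Complex.eventually_eq_of_isLocalMax_norm (f := fun s => Jac.ev ((Jac.ch R).pt s) f)
      (h6.2.eventually_analyticAt.mono fun _ h => h.differentiableAt) (by
        filter_upwards [(Jac.ch R).tendsto_pt.eventually (hU.isOpen.mem_nhds hR)] with s hs
        simpa only [Function.comp, (Jac.ch R).pt0] using isMaxOn_iff.1 h5 _ hs)
  have h8 : f - algebraMap ℂ E (Jac.ev R f) ≠ 0 := fun e => by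
    rw [sub_eq_zero.1 e, P019P.ord_const] at h2
    omega
  obtain ⟨s, h9, h10, h11⟩ := (((tendsto_ne R).eventually (ev_ne R h8)).and
    ((h6.1.and h7).filter_mono nhdsWithin_le_nhds)).exists
  rw [Jac.ev_sub h10 (Jac.cst_mem _ _), Jac.ev_cst, h11, (Jac.ch R).pt0] at h9
  exact h9 (sub_self _)

end

variable {K : Type} [Field K] [Algebra ℂ K] {S : Surf K}

theorem lin {x : Pt S.W} {s t : x.ring} (h : maximalIdeal x.ring = Ideal.span {s, t}) {a b : ℂ}
    (h1 : a • s + b • t ∈ maximalIdeal x.ring ^ 2) : a = 0 ∧ b = 0 := by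
  have h2 := S.all.lead x s t h 1 (fun i => if i = 0 then b else a) (by
    simpa [Finset.sum_range_succ, add_comm] using h1)
  exact ⟨by simpa using h2 1 le_rfl, by simpa using h2 0 zero_le_one⟩

/-- Infinitely many curves pass through a point. -/
theorem inf_crv (x : Pt S.W) : {C : Crv S.W | x.On C}.Infinite := by
  obtain ⟨w, hW, hw⟩ := x.exists_in
  obtain ⟨-, -, -, -, s, t, -, -, h⟩ := S.all.gens x w hW hw
  have hm : ∀ c : ℂ, s + c • t ∈ maximalIdeal x.ring := fun c => by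
    rw [h, Algebra.smul_def]
    exact add_mem (Ideal.subset_span (by simp))
      (Ideal.mul_mem_left _ _ (Ideal.subset_span (by simp)))
  choose C h1 h2 h0 h3 using fun c : ℂ => S.all.crv_of_irr x _ (S.all.ext x w hW hw _ (hm c)
    fun e => one_ne_zero (lin h (a := 1) (b := c) (by rwa [one_smul])).1).1
  refine infinite_of_injective_forall_mem (f := C) (fun c d e => ?_) h1
  obtain ⟨a, ha⟩ := (h3 c (s + d • t)).2 (Or.inr (by rw [e, h2 d]; exact one_pos))
  obtain ⟨k, hk⟩ := S.all.val x a a.2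
  have h4 : a - algebraMap ℂ x.ring k ∈ maximalIdeal x.ring := (x.mem_max _).2 hk
  have h5 := lin h (a := 1 - k) (b := d - k * c) (by
    have e1 : (1 - k) • s + (d - k * c) • t = (s + c • t) * (a - algebraMap ℂ x.ring k) := by
      rw [mul_sub, ← ha]
      simp only [Algebra.smul_def, map_sub, map_mul, map_one]
      ring
    rw [e1, pow_two]
    exact Ideal.mul_mem_mul (hm c) h4)
  rw [sub_eq_zero.1 h5.2, ← sub_eq_zero.1 h5.1, one_mul]

end PlkH

open PlkH

/-- The space of places is connected. -/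
theorem plk : PLK := fun E _ _ _ => by
  refine connectedSpace_iff_clopen.2 ⟨P019P.nonempty_Plk ℂ E, fun U hU => ?_⟩
  refine or_iff_not_imp_left.2 fun h => eq_univ_of_forall fun P => not_not.1 fun hP => ?_
  obtain ⟨Q, hQ⟩ := nonempty_iff_ne_empty.2 h
  exact clopen hU hP hQ

/-- The identity principle. -/
theorem inj : INJ := fun K _ _ S x f hf f0 => by
  obtain ⟨C, h1, h2⟩ := ((inf_crv x).diff (S.all.fin_div f)).nonempty
  obtain ⟨w, rfl⟩ := ((cs K S).on_iff C x).1 h1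
  have h3 : C.rs f ≠ 0 := CsH.rs_ne f0 (not_not.1 h2)
  have h4 : Tendsto (S.pt C) (𝓝[≠] w) (𝓝 (S.pt C w)) :=
    ((continuous_pt C).tendsto w).mono_left nhdsWithin_le_nhds
  have h5 : Tendsto (S.pt C) (𝓝[≠] w) (𝓝[≠] (S.pt C w)) := tendsto_nhdsWithin_iff.2
    ⟨h4, nhdsNE_le_cofinite w ((cs K S).fin_pt C _).compl_mem_cofinite⟩
  have := neBot w
  refine h5.frequently (Eventually.frequently ?_)
  filter_upwards [h4.eventually (nhds_reg hf), ev_ne w h3] with q h6 h7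
  rwa [ev_pt h6]

/-- The normalisation is injective outside a finite set. -/
theorem finj : FINJ := fun K _ _ S C => by
  obtain ⟨P⟩ := P019P.nonempty_Plk ℂ C.Fn
  obtain ⟨t, u, b, m, t1, ur, u1, b1, hb, -, -⟩ := Jac.exists_model P
  have ht : ∀ a, t ≠ algebraMap ℂ C.Fn a := by
    rintro a rfl
    simp [P019P.ord_const] at t1
  have tP : t ∈ P019P.Mge P 1 := Or.inr t1.ge
  have b0 : Jac.ap t u b ≠ 0 := fun e => by
    have h := (Jac.ap_ev (Jac.mem_of_one tP) (ur P (Jac.mem_of_one tP)) b).2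
    rw [e, Jac.ev_eq_zero (zero_mem _), Jac.ev_eq_zero tP, u1, b1] at h
    exact zero_ne_one h
  have key : ∀ e : C.Fn, ∃ f, C.rs f = e ∧ {w | f ∉ (S.pt C w).ring}.Finite := fun e => by
    obtain ⟨f, h1, h2⟩ := C.rs_surj e
    refine ⟨f, h2, (fin_over C (A := {C' | C'.ord f + (0 : Sf.Div S.W) C' < 0})
      ((fin_ord S f 0).subset fun C' hC => ne_of_lt hC) fun h => ?_).subset fun w hw => ?_⟩
    · have h3 := Pl.ord_nonneg_of_mem _ h1
      simp only [mem_setOf_eq, Finsupp.zero_apply, add_zero] at h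
      exact h.not_ge h3
    · by_contra h
      exact hw ((S.all.normal _ f).1 (Or.inr fun C' hC' => not_lt.1 fun e => h ⟨C', e, hC'⟩))
  obtain ⟨t, rfl, h1⟩ := key t
  obtain ⟨u, rfl, h2⟩ := key u
  refine ((h1.union h2).union (fin_zero b0)).subset ?_
  rintro w ⟨w', h3, h4⟩
  by_contra h
  simp only [mem_union, mem_setOf_eq, not_or, not_not] at h
  obtain ⟨⟨h5, h6⟩, h7⟩ := h
  have h8 : t ∈ (S.pt C w').ring := h4 ▸ h5
  have h9 : u ∈ (S.pt C w').ring := h4 ▸ h6
  refine h3 (Jac.plk_uniq ht hb (rs_mem h8) (rs_mem h9) (rs_mem h5) (rs_mem h6) ?_ ?_ ?_)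
  · rw [← ev_pt h8, ← ev_pt h5, h4]
  · rw [← ev_pt h9, ← ev_pt h6, h4]
  · rwa [← (Jac.ap_ev (rs_mem h5) (rs_mem h6) b).2]

end Vale.Agent.P253Y.An
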