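import Vale.Agent.P253Y.An.Sk
import Vale.Agent.P267.H399.Surg
import Vale.Agent.P267.H662.KCanon

/-! P253, surfaces, blocks C and E: surgery of line bundles, additivity of the bundles of
divisors. -/

set_option linter.all false

open scoped Manifold ContDiff ComplexConjugate Matrix
open Filter Topology Set IsLocalRing

noncomputable section

namespace Vale.Agent.P253Y.An

open Vale.Agent.P297Z Vale.Agent.P297Z.Sf
open Vale.Agent.P267 Vale.Agent.P267.FL
open Vale.Agent.P267.BlockC (ALB ExactTwo)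

namespace SurgH

variable {X : Type} [TopologicalSpace X] [ChartedSpace C2 X] [IsManifold 𝓘(ℂ, C2) ω X]
variable {ι ι' : Type} [Fintype ι] [DecidableEq ι] [Fintype ι'] [DecidableEq ι']

theorem curv_tensor (L : LB X ι) (L' : LB X ι') : (L.tensor L').curv = L.curv + L'.curv := by
  have h1 : (L.tensor L').F20 = L.F20 + L'.F20 := funext fun x => LB.F20_tensor L L' x
  have h2 : (L.tensor L').F02 = L.F02 + L'.F02 := funext fun x => LB.F02_tensor L L' x
  have h3 : (L.tensor L').F11 = L.F11 + L'.F11 := by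
    funext x; ext i j; exact LB.F11_tensor L L' x i j
  change (⟨_, _, _⟩ : TwoF X) = ⟨_, _, _⟩
  rw [h1, h2, h3]
  rfl

theorem curv_dual (L : LB X ι) : L.dual.curv = -L.curv := by
  have h1 : L.dual.F20 = -L.F20 := funext fun x => LB.F20_dual L x
  have h2 : L.dual.F02 = -L.F02 := funext fun x => LB.F02_dual L x
  have h3 : L.dual.F11 = -L.F11 := by
    funext x; ext i j; exact LB.F11_dual L x i j
  change (⟨_, _, _⟩ : TwoF X) = ⟨_, _, _⟩
  rw [h1, h2, h3]
  rfl

/-- Isomorphic bundles have cohomologous curvatures. -/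
theorem exact_of_push {L : LB X ι} {L' : LB X ι'} {T : X → Matrix ι' ι ℂ} (h : L.PushData T)
    (h2 : ∀ x, L'.P x * T x = T x) : ExactTwo (L'.curv - L.curv) := by
  have key : (L'.tensor L.dual).IsSmoothTrivial := by
    refine ⟨fun x => WithLp.toLp 2 fun p => T x p.1 p.2, reg0_iff_at.2 fun x => ?_, fun x => ?_,
      fun x h0 => h.ne x ?_⟩
    · have h1 : (fun x => (WithLp.toLp 2 fun p : ι' × ι => T x p.1 p.2 :
          EuclideanSpace ℂ (ι' × ι))) =
          fun x => ∑ p : ι' × ι, T x p.1 p.2 • EuclideanSpace.single p (1 : ℂ) := by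
        funext y
        ext q
        simp [Pi.single_apply]
      rw [h1]
      exact At0.sum fun p _ => (h.at le_rfl x p.1 p.2).smul at0_const
    · ext q
      have h3 : L'.P x * T x * L.P x = T x := by rw [h2, h.mulP]
      have h4 := congrFun (congrFun h3 q.1) q.2
      rw [LB.act_apply, Fintype.sum_prod_type]
      change ∑ k, ∑ l, L'.P x q.1 k * L.P x l q.2 * T x k l = T x q.1 q.2
      rw [← h4, Matrix.mul_apply, Finset.sum_comm]
      refine Finset.sum_congr rfl fun l _ => ?_
      rw [Matrix.mul_apply, Finset.sum_mul]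
      exact Finset.sum_congr rfl fun k _ => by ring
    · ext i j
      exact congrArg (fun w : EuclideanSpace ℂ (ι' × ι) => w (i, j)) h0
  have h5 := H662.triv_exact key
  rwa [curv_tensor, curv_dual, ← sub_eq_add_neg] at h5

/-- The linear map that sends `w` to `u` and kills the orthogonal of `w`. -/
def hom (u : EuclideanSpace ℂ ι') (w : EuclideanSpace ℂ ι) : Matrix ι' ι ℂ :=
  Matrix.of fun i j => u i * ((LB.nsq w)⁻¹ * conj (w j))

theorem hom_smul {c : ℂ} (hc : c ≠ 0) (u : EuclideanSpace ℂ ι') (w : EuclideanSpace ℂ ι) :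
    hom (c • u) (c • w) = hom u w := by
  have h1 : LB.nsq (c • w) = conj c * c * LB.nsq w := by
    rw [LB.nsq, LB.nsq, Finset.mul_sum]
    refine Finset.sum_congr rfl fun i _ => ?_
    rw [PiLp.smul_apply, smul_eq_mul, map_mul]
    ring
  have h2 : conj c ≠ 0 := by simpa using hc
  ext i j
  simp only [hom, Matrix.of_apply, h1, PiLp.smul_apply, smul_eq_mul, map_mul, mul_inv]
  field_simp

omit [IsManifold 𝓘(ℂ, C2) ω X] in
theorem conj_P (L : LB X ι) (x : X) (j k : ι) : conj (L.P x j k) = L.P x k j := by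
  have := congrFun (congrFun (L.herm x) k) j
  rw [Matrix.conjTranspose_apply] at this
  exact this

omit [IsManifold 𝓘(ℂ, C2) ω X] in
theorem conj_sec {L : LB X ι} {x : X} {w : EuclideanSpace ℂ ι} (hw : LB.act (L.P x) w = w)
    (j : ι) : ∑ k, conj (w k) * L.P x k j = conj (w j) := by
  conv_rhs => rw [← hw]
  rw [LB.act_apply, map_sum]
  exact Finset.sum_congr rfl fun k _ => by rw [map_mul, conj_P]; ring

/-- Bundles with frames that have the same transition functions. -/
theorem exact_of_frames {L : LB X ι} {L' : LB X ι'} {u : X → EuclideanSpace ℂ ι'}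
    {w : X → EuclideanSpace ℂ ι} (hu : L'.Sec u) (hw : L.Sec w) (hu0 : ∀ x, u x ≠ 0)
    (hw0 : ∀ x, w x ≠ 0)
    (h : ∀ x, ∃ u' w', At0 ∞ 0 u' x ∧ At0 ∞ 0 w' x ∧
      ∀ᶠ y in 𝓝 x, ∃ c : ℂ, u y = c • u' y ∧ w y = c • w' y) :
    ExactTwo (L'.curv - L.curv) := by
  refine exact_of_push (T := fun x => hom (u x) (w x)) ⟨fun i j => reg0_iff_at.2 fun x => ?_,
    fun x => ?_, fun x h0 => ?_⟩ fun x => ?_
  · obtain ⟨u', w', h1, h2, h3⟩ := h x
    have h4 : w' x ≠ 0 := by
      obtain ⟨c, -, hc⟩ := h3.self_of_nhds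
      intro h5
      exact hw0 x (by rw [hc, h5, smul_zero])
    have h5 : At0 ∞ 0 (fun y => LB.nsq (w' y)) x :=
      At0.sum fun i _ => (LB.At0.conj (h2.clm (LB.ev i))).mul (h2.clm (LB.ev i))
    have h6 : At0 ∞ 0 (fun y => hom (u' y) (w' y) i j) x :=
      (h1.clm (LB.ev i)).mul ((h5.inv0 (LB.nsq_ne_zero h4)).mul
        (LB.At0.conj (h2.clm (LB.ev j))))
    refine h6.congr ?_
    filter_upwards [h3] with y hy
    obtain ⟨c, hc, hc'⟩ := hy
    have h7 : c ≠ 0 := by
      rintro rfl
      exact hw0 y (by rw [hc', zero_smul])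
    rw [hc, hc', hom_smul h7]
  · ext i j
    rw [Matrix.mul_apply]
    simp only [hom, Matrix.of_apply]
    rw [← conj_sec (hw x) j, Finset.mul_sum, Finset.mul_sum]
    exact Finset.sum_congr rfl fun k _ => by ring
  · apply hu0 x
    ext i
    have h1 : ∑ j, hom (u x) (w x) i j * w x j = u x i := by
      simp only [hom, Matrix.of_apply, mul_assoc]
      rw [← Finset.mul_sum, ← Finset.mul_sum]
      change _ * (_ * LB.nsq (w x)) = _
      rw [inv_mul_cancel₀ (LB.nsq_ne_zero (hw0 x)), mul_one]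
    have h0' : hom (u x) (w x) = 0 := h0
    rw [← h1, h0']
    simp
  · ext i j
    rw [Matrix.mul_apply]
    simp only [hom, Matrix.of_apply]
    conv_rhs => rw [← hu x]
    rw [LB.act_apply, Finset.sum_mul]
    exact Finset.sum_congr rfl fun k _ => by ring

/-- A smooth section without zeros on `Z`. -/
theorem smooth_sec [T2Space X] [CompactSpace X] (L : LB X ι) {Z : Set X} (hZ : IsClosed Z)
    {t : X → EuclideanSpace ℂ ι} (ht : ContinuousOn t Z)
    (h : ∀ x ∈ Z, LB.act (L.P x) (t x) = t x ∧ t x ≠ 0) :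
    ∃ s, Reg0 ∞ 0 s ∧ L.Sec s ∧ ∀ x ∈ Z, s x ≠ 0 := by
  have := isManifold_real' (X := X) ∞
  have key := exists_contMDiffMap_forall_mem_convex_of_local_const (n := ⊤) 𝓘(ℝ, C2)
    (t := fun x => {v : EuclideanSpace ℂ ι | x ∈ Z → 0 < (∑ i, conj (t x i) * v i).re})
    (fun x => ?_) fun x => ?_
  · obtain ⟨g, hg⟩ := key
    refine ⟨fun x => LB.act (L.P x) (g x), reg0_iff_at.2 fun x => ?_,
      fun x => L.act_act_P x _, fun x hx h0 => ?_⟩
    · exact LB.at0_act (L.atP le_rfl x) (contMDiffAt_iff_at0.1 (g.contMDiff x))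
    · have h1 : 0 < (∑ i, conj (t x i) * g x i).re := hg x hx
      have h2 : ∑ i, conj (t x i) * g x i = ∑ k, conj (t x k) * LB.act (L.P x) (g x) k := by
        simp only [LB.act_apply, Finset.mul_sum]
        rw [Finset.sum_comm]
        refine Finset.sum_congr rfl fun i _ => ?_
        rw [← conj_sec (h x hx).1 i, Finset.sum_mul]
        exact Finset.sum_congr rfl fun k _ => by ring
      have h0' : LB.act (L.P x) (g x) = 0 := h0
      rw [h2, h0'] at h1
      simp at h1
  · by_cases hx : x ∈ Z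
    · simp only [hx, forall_const]
      refine convex_halfSpace_gt (f := fun v : EuclideanSpace ℂ ι =>
        (∑ i, conj (t x i) * v i).re) ⟨fun u v => ?_, fun a v => ?_⟩ 0
      · simp only [PiLp.add_apply, mul_add, Finset.sum_add_distrib, Complex.add_re]
      · rw [smul_eq_mul, ← Complex.re_ofReal_mul, Finset.mul_sum]
        congr 1
        refine Finset.sum_congr rfl fun i _ => ?_
        rw [PiLp.smul_apply, Complex.real_smul]
        ring
    · simp only [hx, false_imp_iff, setOf_true]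
      exact convex_univ
  · by_cases hx : x ∈ Z
    · refine ⟨t x, ?_⟩
      have h1 : Continuous fun v : EuclideanSpace ℂ ι => (∑ i, conj (v i) * t x i).re := by
        fun_prop
      have h2 : 0 < (∑ i, conj (t x i) * t x i).re := by
        change 0 < (LB.nsq (t x)).re
        rw [LB.nsq_eq, Complex.ofReal_re]
        exact pow_pos (norm_pos_iff.2 (h x hx).2) 2
      have h3 := (h1.continuousAt.tendsto.comp (ht x hx)).eventually (lt_mem_nhds h2)
      exact eventually_nhdsWithin_iff.1 h3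
    · refine ⟨0, ?_⟩
      filter_upwards [hZ.isOpen_compl.mem_nhds hx] with y hy hy'
      exact absurd hy' hy

end SurgH

open SurgH

theorem surg : SURG := by
  intro X _ _ _ _ _ _ L Z hZ hT
  obtain ⟨t, ht, h⟩ := hT
  obtain ⟨s, hs, hsec, h0⟩ := smooth_sec L.L hZ ht h
  have hW : IsOpen {x | s x ≠ 0} := isOpen_ne_fun hs.continuous continuous_const
  obtain ⟨χ, K', hχ, hK', hKW, h1, h2⟩ := H332.exists_cutoff hZ.isCompact hW h0
  have D : LB.SurgData L.L (fun x => (χ x : ℂ)) s := by
    refine ⟨hs, hsec, contMDiff_iff_reg0.1 (Complex.ofRealCLM.contMDiff.comp hχ), fun x => ?_⟩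
    by_cases hx : x ∈ K'
    · exact Or.inl (hKW hx)
    · refine Or.inr ?_
      filter_upwards [hK'.isClosed.isOpen_compl.mem_nhds hx] with y hy
      rw [h2 y hy, Complex.ofReal_zero]
  refine ⟨⟨Option L.ι, LB.surg D⟩, exact_of_push D.push (LB.push_mul D.push),
    disjoint_left.2 fun x hx hxZ => ?_⟩
  have h3 : ∀ᶠ y in 𝓝 x, χ y = 1 := h1.filter_mono (nhds_le_nhdsSet hxZ)
  refine (mem_closure_iff_frequently.1 hx) ?_
  filter_upwards [h3.eventually_nhds] with y hy
  have h4 := LB.curv_const (L₁ := LB.surg D) (M := Matrix.single none none 1) (x := y)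
    (hy.mono fun z hz => LB.surg_P_one D (by rw [hz, Complex.ofReal_one]))
  rintro (h5 | h5 | h5)
  · exact h5 h4.1
  · exact h5 h4.2.1
  · exact h5 h4.2.2

theorem obi : OBI := by
  intro K _ _ S _ G G' B B' B''
  choose f hf using fun x => S.all.gen x G
  choose f' hf' using fun x => S.all.gen x G'
  rw [← curv_tensor]
  refine exact_of_frames (u := fun y => B''.v (f y * f' y) y)
    (w := fun y => LB.ten (B.v (f y) y) (B'.v (f' y) y))
    (fun y => (B''.secAt y _ (GenAt.mem (Bl4.gen_mul (hf y) (hf' y)))).sec)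
    (LB.Sec.ten (fun y => (B.secAt y _ (GenAt.mem (hf y))).sec)
      fun y => (B'.secAt y _ (GenAt.mem (hf' y))).sec)
    (fun y => B''.ne y _ (Bl4.gen_mul (hf y) (hf' y)))
    (fun y => LB.ten_ne_zero (B.ne y _ (hf y)) (B'.ne y _ (hf' y))) fun x => ?_
  refine ⟨B''.v (f x * f' x), fun y => LB.ten (B.v (f x) y) (B'.v (f' x) y),
    (B''.secAt x _ (GenAt.mem (Bl4.gen_mul (hf x) (hf' x)))).sm, ?_, ?_⟩
  · simpa using LB.at0_ten (B.secAt x _ (GenAt.mem (hf x))).sm
      (B'.secAt x _ (GenAt.mem (hf' x))).sm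
  · filter_upwards [nhds_genAt (hf x), nhds_genAt (hf' x)] with y h1 h2
    have a1 : f y / f x ∈ y.ring := (Mu.div_mem_ring S.all.toLoc h1).2 (GenAt.mem (hf y))
    have a2 : f' y / f' x ∈ y.ring := (Mu.div_mem_ring S.all.toLoc h2).2 (GenAt.mem (hf' y))
    have b1 := B.mul y _ a1 _ (GenAt.mem h1)
    have b2 := B'.mul y _ a2 _ (GenAt.mem h2)
    have b3 := B''.mul y _ (mul_mem a1 a2) _ (GenAt.mem (Bl4.gen_mul h1 h2))
    rw [div_mul_cancel₀ _ h1.1] at b1
    rw [div_mul_cancel₀ _ h2.1] at b2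
    rw [div_mul_div_comm, div_mul_cancel₀ _ (mul_ne_zero h1.1 h2.1), ← div_mul_div_comm,
      ev_mul a1 a2] at b3
    refine ⟨_, b3, ?_⟩
    rw [b1, b2, LB.ten_smul_left, LB.ten_smul_right, smul_smul]

end Vale.Agent.P253Y.An
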