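import Vale.Agent.P253Y.An.Sk

/-! P253, surfaces, block C: the space of points is compact Hausdorff. -/

set_option linter.all false

open Filter Topology Set IsLocalRing

noncomputable section

namespace Vale.Agent.P253Y.An

open Vale.Agent.P297Z Vale.Agent.P297Z.Sf

namespace T2cH

variable {K : Type} [Field K] [Algebra ℂ K] {S : Surf K}

theorem t2 : T2Space (Pt S.W) := by
  classical
  refine t2_iff_nhds.2 fun {x y} h => ?_
  by_contra hne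
  obtain ⟨w, h1, h2⟩ := S.all.sep x y hne
  obtain ⟨w₀, h3, -, h4, -⟩ := S.all.avoid {x, y} ∅
  have hx := h4 x (by simp)
  have hy := h4 y (by simp)
  have e1 : ev x (w / w₀) = 0 := ev_van (h1.2 w₀ h3 hx)
  have e2 : ev y (w / w₀) ≠ 0 := fun e =>
    (Pt.in_iff hy h3 h1.1).1 h2 ((van_iff_ev (hy.2 w h1.1)).2 e)
  obtain ⟨U, hU, V, hV, hd⟩ := Filter.disjoint_iff.1 (disjoint_nhds_nhds.2 e2.symm)
  rw [← e1] at hU
  obtain ⟨z, h5, h6⟩ := (((nhds_val (hx.2 w h1.1) hU).filter_mono inf_le_left).and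
    ((nhds_val (hy.2 w h1.1) hV).filter_mono (inf_le_right (a := 𝓝 x)))).exists
  exact Set.disjoint_left.1 hd h5.2 h6.2

theorem best {s : Finset K} (hs : Submodule.span ℂ (s : Set K) = S.W) (y : Pt S.W) :
    ∃ w ∈ s, y.In w ∧ ∀ a ∈ s, ‖ev y (a / w)‖ ≤ 1 := by
  obtain ⟨w₀, h0, h1⟩ := y.exists_in
  have hW : ∀ a ∈ s, a ∈ S.W := fun a ha => hs ▸ Submodule.subset_span ha
  obtain ⟨a₀, ha₀, hne⟩ : ∃ a ∈ s, ev y (a / w₀) ≠ 0 := by
    by_contra hn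
    push Not at hn
    have : S.W ≤ van y := by
      refine hs.ge.trans (Submodule.span_le.2 fun a ha => mem_van.2 ⟨hW a ha, fun h => ?_⟩)
      exact (Pt.in_iff h1 h0 (hW a ha)).1 h ((van_iff_ev (h1.2 a (hW a ha))).2 (hn a ha))
    exact (mem_van.1 (this h0)).2 h1
  obtain ⟨w, hw, hm⟩ := s.exists_max_image (fun a => ‖ev y (a / w₀)‖) ⟨a₀, ha₀⟩
  have hp : 0 < ‖ev y (w / w₀)‖ := (norm_pos_iff.2 hne).trans_le (hm a₀ ha₀)
  have hi : y.In w := (Pt.in_iff h1 h0 (hW w hw)).2 fun h => by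
    rw [ev_van h, norm_zero] at hp
    exact hp.false
  refine ⟨w, hw, hi, fun a ha => ?_⟩
  have e := ev_mul (hi.2 a (hW a ha)) (h1.2 w (hW w hw))
  rw [div_mul_div_cancel₀ hi.1] at e
  have := hm a ha
  simp only [e, norm_mul] at this
  exact (mul_le_iff_le_one_left hp).1 this

/-- The functions that are bounded along `𝒰`. -/
def bd (𝒰 : Filter (Pt S.W)) : Subalgebra ℂ K where
  carrier := {f | ∃ C : ℝ, ∀ᶠ y in 𝒰, f ∈ y.ring ∧ ‖ev y f‖ ≤ C}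
  mul_mem' := by
    rintro f g ⟨C, hC⟩ ⟨D, hD⟩
    refine ⟨C * D, (hC.and hD).mono fun y h => ⟨mul_mem h.1.1 h.2.1, ?_⟩⟩
    rw [ev_mul h.1.1 h.2.1, norm_mul]
    exact mul_le_mul h.1.2 h.2.2 (norm_nonneg _) ((norm_nonneg _).trans h.1.2)
  add_mem' := by
    rintro f g ⟨C, hC⟩ ⟨D, hD⟩
    refine ⟨C + D, (hC.and hD).mono fun y h => ⟨add_mem h.1.1 h.2.1, ?_⟩⟩
    rw [ev_add h.1.1 h.2.1]
    exact norm_add_le_of_le h.1.2 h.2.2
  algebraMap_mem' c := ⟨‖c‖, .of_forall fun y => ⟨y.ring.algebraMap_mem c, by rw [ev_const]⟩⟩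

theorem ex_lim (𝒰 : Ultrafilter (Pt S.W)) (f : bd (𝒰 : Filter (Pt S.W))) :
    ∃ c : ℂ, Tendsto (fun y : Pt S.W => ev y (f : K)) 𝒰 (𝓝 c) := by
  obtain ⟨C, hC⟩ := f.2
  obtain ⟨c, -, hc⟩ := (isCompact_closedBall (0 : ℂ) C).ultrafilter_le_nhds
    (𝒰.map fun y : Pt S.W => ev y (f : K))
    (le_principal_iff.2 (hC.mono fun y h => by simpa using h.2))
  exact ⟨c, hc⟩

theorem reg {𝒰 : Filter (Pt S.W)} (f : bd 𝒰) : ∀ᶠ y in 𝒰, (f : K) ∈ y.ring :=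
  f.2.choose_spec.mono fun _ h => h.1

/-- The limit. -/
def lm (𝒰 : Ultrafilter (Pt S.W)) : bd (𝒰 : Filter (Pt S.W)) →ₐ[ℂ] ℂ where
  toFun f := (ex_lim 𝒰 f).choose
  map_one' := tendsto_nhds_unique (ex_lim 𝒰 1).choose_spec (by simp [ev_one])
  map_zero' := tendsto_nhds_unique (ex_lim 𝒰 0).choose_spec (by simp [ev_zero])
  map_mul' f g := tendsto_nhds_unique (ex_lim 𝒰 _).choose_spec
    (((ex_lim 𝒰 f).choose_spec.mul (ex_lim 𝒰 g).choose_spec).congr'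
      (((reg f).and (reg g)).mono fun _ h => (ev_mul h.1 h.2).symm))
  map_add' f g := tendsto_nhds_unique (ex_lim 𝒰 _).choose_spec
    (((ex_lim 𝒰 f).choose_spec.add (ex_lim 𝒰 g).choose_spec).congr'
      (((reg f).and (reg g)).mono fun _ h => (ev_add h.1 h.2).symm))
  commutes' c := tendsto_nhds_unique (ex_lim 𝒰 _).choose_spec (by simp [ev_const])

theorem lm_spec (𝒰 : Ultrafilter (Pt S.W)) (f : bd (𝒰 : Filter (Pt S.W))) :
    Tendsto (fun y : Pt S.W => ev y (f : K)) 𝒰 (𝓝 (lm 𝒰 f)) := (ex_lim 𝒰 f).choose_spec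

theorem cpt : CompactSpace (Pt S.W) := by
  refine ⟨isCompact_iff_ultrafilter_le_nhds.2 fun 𝒰 _ => ?_⟩
  have := S.model.fin
  obtain ⟨s, hs⟩ := (Submodule.fg_iff_finiteDimensional S.W).2 this
  obtain ⟨w, hw, h1⟩ := (Ultrafilter.eventually_exists_mem_iff (f := 𝒰) s.finite_toSet).1
    (.of_forall (best hs))
  have hW : w ∈ S.W := hs ▸ Submodule.subset_span hw
  have h0 : w ≠ 0 := h1.exists.choose_spec.1.1
  have hle : chart S.W w ≤ bd (𝒰 : Filter (Pt S.W)) := chart_le fun a ha => by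
    rw [← hs] at ha
    induction ha using Submodule.span_induction with
    | mem a ha =>
      exact ⟨1, h1.mono fun y h => ⟨h.1.2 a (hs ▸ Submodule.subset_span ha), h.2 a ha⟩⟩
    | zero => rw [zero_div]; exact zero_mem _
    | add a b _ _ h2 h3 => rw [add_div]; exact add_mem h2 h3
    | smul c a _ h2 => rw [smul_div_assoc]; exact Subalgebra.smul_mem _ h2 c
  let φ : chart S.W w →ₐ[ℂ] ℂ := (lm 𝒰).comp (Subalgebra.inclusion hle)
  have hφ : ∀ a : chart S.W w, Tendsto (fun y : Pt S.W => ev y (a : K)) 𝒰 (𝓝 (φ a)) := fun a =>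
    lm_spec 𝒰 ⟨a, hle a.2⟩
  have hm : (RingHom.ker φ).IsMaximal :=
    RingHom.ker_isMaximal_of_surjective φ fun c => ⟨algebraMap ℂ _ c, φ.commutes c⟩
  let x : Pt S.W := ⟨loc _ _ hm.isPrime, w, hW, h0, _, hm, rfl⟩
  have hx : ∀ a : chart S.W w, (a : K) ∈ x.ring := fun a => le_loc _ _ hm.isPrime a.2
  have he : ∀ a : chart S.W w, ev x (a : K) = φ a := fun a => ev_eq (by
    refine ⟨hx (a - algebraMap ℂ _ (φ a)), or_iff_not_imp_left.2 fun h2 h3 => ?_⟩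
    refine (inv_mem_loc_iff (b := a - algebraMap ℂ _ (φ a)) hm.isPrime h2).1 h3 ?_
    rw [RingHom.mem_ker, map_sub, φ.commutes]
    exact sub_self _)
  refine ⟨x, trivial, tendsto_pt (y := id) fun f hf => ?_⟩
  obtain ⟨a, b, hb, e⟩ := id hf
  have hb' : φ b ≠ 0 := hb
  have e' : f = a * (b : K)⁻¹ := (eq_mul_inv_iff_mul_eq₀ (ne_zero_of_notMem hb)).2 e
  have h2 : ∀ᶠ y in (𝒰 : Filter (Pt S.W)),
      f ∈ y.ring ∧ ev y (a : K) * (ev y (b : K))⁻¹ = ev y f := by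
    filter_upwards [reg ⟨(a : K), hle a.2⟩, reg ⟨(b : K), hle b.2⟩, (hφ b).eventually_ne hb']
      with y k1 k2 k3
    rw [e', ev_mul k1 (inv_mem k2 k3).2, ev_inv k2 k3]
    exact ⟨mul_mem k1 (inv_mem k2 k3).2, rfl⟩
  refine ⟨h2.mono fun y h => h.1, ?_⟩
  have k3 : ev x (b : K) ≠ 0 := he b ▸ hb'
  have h3 : ev x f = φ a * (φ b)⁻¹ := by
    rw [e', ev_mul (hx a) (inv_mem (hx b) k3).2, ev_inv (hx b) k3, he, he]
  rw [h3]
  exact ((hφ a).mul ((hφ b).inv₀ hb')).congr' (h2.mono fun y h => h.2)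

end T2cH

theorem t2c : T2C := fun _ _ _ _ => ⟨T2cH.t2, T2cH.cpt⟩

end Vale.Agent.P253Y.An
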