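import Vale.Agent.P253Y.An.Sk
import Mathlib.Analysis.Complex.Tietze

/-! P253, surfaces, block C: additivity of the degree, gluing of sections. -/

open scoped Manifold ContDiff ComplexConjugate
open Filter Topology Set

noncomputable section

namespace Vale.Agent.P253Y.An

open Vale.Agent.P297Z Vale.Agent.P297Z.Sf
open Vale.Agent.P019P (CFF Plk dg)
open Vale.Agent.P267 Vale.Agent.P267.FL
open Vale.Agent.P267.BlockC (ALB)

namespace Tr2H

theorem lp_ne {E : Type} [Field E] [Algebra ℂ E] [CFF ℂ E] (w : Plk ℂ E) :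
    ∀ᶠ q in 𝓝[≠] w, lp w q ≠ 0 := by
  filter_upwards [nhdsWithin_le_nhds (P297Y.Jac.ch w).nhds, self_mem_nhdsWithin] with q h1 h2 h3
  rw [show P297Y.Jac.ev q (P297Y.Jac.ch w).t = 0 from h3, (P297Y.Jac.ch w).pt0] at h1
  exact h2 h1

variable {ι ι' : Type} [Fintype ι']

/-- the division of tensors -/
def dv (v : EuclideanSpace ℂ (ι × ι')) (m : EuclideanSpace ℂ ι') : EuclideanSpace ℂ ι :=
  WithLp.toLp 2 fun i => (∑ j, v (i, j) * conj (m j)) / ∑ j, m j * conj (m j)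

theorem nrm_ne {m : EuclideanSpace ℂ ι'} (h : m ≠ 0) : ∑ j, m j * conj (m j) ≠ 0 := fun e => by
  have h1 : ((‖m‖ ^ 2 : ℝ) : ℂ) = 0 := by
    rw [← e, EuclideanSpace.norm_sq_eq]
    simp [Complex.mul_conj']
  exact h (by simpa using h1)

theorem dv_smul (v : EuclideanSpace ℂ (ι × ι')) (m : EuclideanSpace ℂ ι') (a : ℂ) {b : ℂ}
    (hb : b ≠ 0) : dv (a • v) (b • m) = (a / b) • dv v m := by
  ext i
  have hb' : conj b ≠ 0 := by simpa using hb
  have e1 : ∑ j, a * v (i, j) * (conj b * conj (m j)) = a * conj b * ∑ j, v (i, j) * conj (m j) := by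
    rw [Finset.mul_sum]
    exact Finset.sum_congr rfl fun _ _ => by ring
  have e2 : ∑ j, b * m j * (conj b * conj (m j)) = b * conj b * ∑ j, m j * conj (m j) := by
    rw [Finset.mul_sum]
    exact Finset.sum_congr rfl fun _ _ => by ring
  simp only [dv, PiLp.smul_apply, smul_eq_mul, map_mul, e1, e2]
  rw [mul_div_mul_comm, mul_div_mul_right _ _ hb']

theorem dv_ten (u : EuclideanSpace ℂ ι) {m : EuclideanSpace ℂ ι'} (h : m ≠ 0) :
    dv (LB.ten u m) m = u := by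
  ext i
  simp only [dv, LB.ten_apply, mul_assoc, ← Finset.mul_sum]
  exact mul_div_cancel_right₀ _ (nrm_ne h)

theorem dv_cont [Fintype ι] {Y : Type} [TopologicalSpace Y] {v : Y → EuclideanSpace ℂ (ι × ι')}
    {m : Y → EuclideanSpace ℂ ι'} {y : Y} (hv : ContinuousAt v y) (hm : ContinuousAt m y)
    (h : m y ≠ 0) : ContinuousAt (fun q => dv (v q) (m q)) y := by
  have h1 : ∀ p, ContinuousAt (fun q => v q p) y := fun p => by fun_prop
  have h2 : ∀ p, ContinuousAt (fun q => m q p) y := fun p => by fun_prop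
  have h3 : ∀ p, ContinuousAt (fun q => conj (m q p)) y := fun p =>
    Complex.continuous_conj.continuousAt.comp (h2 p)
  have h4 : ContinuousAt (fun q i => (∑ j, v q (i, j) * conj (m q j)) / ∑ j, m q j * conj (m q j)) y :=
    continuousAt_pi.2 fun i => ContinuousAt.div (tendsto_finsetSum _ fun j _ => (h1 _).mul (h3 j))
      (tendsto_finsetSum _ fun j _ => (h2 j).mul (h3 j)) (nrm_ne h)
  exact (PiLp.continuous_toLp 2 _).continuousAt.comp h4

variable {X : Type} [TopologicalSpace X] [ChartedSpace C2 X]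

theorem fb_smul {L : ALB X} {x : X} {v : EuclideanSpace ℂ L.ι} (h : Fb L x v) (c : ℂ) :
    Fb L x (c • v) := by
  rw [Fb, LB.act_smul, show LB.act _ v = v from h]

theorem fb_ten {L M : ALB X} {x : X} {u : EuclideanSpace ℂ L.ι} {m : EuclideanSpace ℂ M.ι}
    (h : Fb L x u) (h' : Fb M x m) : Fb (ten L M) x (LB.ten u m) :=
  (LB.act_tensor_P (L := L.L) (L' := M.L) x u m).trans (congrArg₂ LB.ten h h')

theorem fb_dv {L M : ALB X} {x : X} {v : EuclideanSpace ℂ (L.ι × M.ι)} {m : EuclideanSpace ℂ M.ι}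
    (h : Fb (ten L M) x v) (h' : Fb M x m) (h0 : m ≠ 0) :
    Fb L x (dv v m) ∧ (v ≠ 0 → dv v m ≠ 0) := by
  obtain ⟨a, h1, h2⟩ := L.L.exists_vec x
  have h3 : Fb L x (WithLp.toLp 2 a) := by
    ext i
    simp only [LB.act_apply, h1, mul_assoc, ← Finset.mul_sum, mul_comm (conj _), h2, mul_one]
  have h4 : (WithLp.toLp 2 a : EuclideanSpace ℂ L.ι) ≠ 0 := fun e => by
    simp [show a = 0 from congrArg WithLp.ofLp e] at h2
  obtain ⟨c, rfl⟩ := (ten L M).L.fibre_smul x (fb_ten h3 h') h (LB.ten_ne_zero h4 h0)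
  have h5 := dv_smul (LB.ten (WithLp.toLp 2 a) m) m c one_ne_zero
  rw [one_smul, div_one, dv_ten _ h0] at h5
  exact ⟨h5 ▸ fb_smul h3 c, fun e => h5 ▸ smul_ne_zero (left_ne_zero_of_smul e) h4⟩

/-- sections descend along a map that is injective outside a finite set -/
theorem glue [T2Space X] {Y : Type} [TopologicalSpace Y] [T2Space Y] [CompactSpace Y] {π : Y → X}
    (hπ : Continuous π) (hF : {y | ∃ y', y' ≠ y ∧ π y' = π y}.Finite) {L : ALB X}
    {τ : Y → EuclideanSpace ℂ L.ι} (hτ : Continuous τ) (h : ∀ y, Fb L (π y) (τ y) ∧ τ y ≠ 0) :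
    TrivOn L (range π) := by
  rcases isEmpty_or_nonempty Y with _ | _
  · exact ⟨0, continuousOn_const, fun _ ⟨y, _⟩ => isEmptyElim y⟩
  have hr : ∀ y, π (Function.invFun π (π y)) = π y := fun y => Function.invFun_eq ⟨y, rfl⟩
  generalize Function.invFun π = r at hr
  choose c hc using fun y => L.L.fibre_smul (π y) (h y).1 (hr y ▸ (h (r (π y))).1) (h y).2
  have := hF.to_subtype
  obtain ⟨g, hg⟩ := ContinuousMap.exists_restrict_eq hF.isClosed
    (⟨fun y => Complex.log (c y.1), continuous_of_discreteTopology⟩ :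
      C({y | ∃ y', y' ≠ y ∧ π y' = π y}, ℂ))
  have h1 : ∀ y, (∃ y', y' ≠ y ∧ π y' = π y) → Complex.exp (g y) • τ y = τ (r (π y)) :=
    fun y hy => by
      rw [show g y = Complex.log (c y) from DFunLike.congr_fun hg ⟨y, hy⟩,
        Complex.exp_log (left_ne_zero_of_smul (hc y ▸ (h _).2)), hc]
  have h2 : ∀ y, Complex.exp (g (r (π y))) • τ (r (π y)) = Complex.exp (g y) • τ y := fun y => by
    by_cases e : r (π y) = y
    · rw [e]
    · rw [h1 y ⟨_, e, hr y⟩, h1 _ ⟨y, Ne.symm e, (hr y).symm⟩, hr]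
  have h3 : Continuous fun y => Complex.exp (g y) • τ y := by fun_prop
  refine ⟨fun x => Complex.exp (g (r x)) • τ (r x), continuousOn_iff_isClosed.2 fun s hs =>
    ⟨_, hπ.isClosedMap _ (hs.preimage h3), ?_⟩, ?_⟩
  · ext x
    refine and_congr_left fun ⟨y, hy⟩ => ⟨fun k => ⟨r x, k, hy ▸ hr y⟩, ?_⟩
    rintro ⟨z, k, rfl⟩
    exact mem_of_eq_of_mem (s := s) (h2 z) k
  · rintro _ ⟨y, rfl⟩
    simp only [h2]
    exact ⟨fb_smul (h y).1 _, smul_ne_zero (Complex.exp_ne_zero _) (h y).2⟩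

end Tr2H

open Tr2H

theorem deg : DEG := by
  intro K _ _ S _ C L M d e
  constructor
  · rintro ⟨Δ, σ, rfl, h⟩ ⟨Δ', σ', rfl, h'⟩
    refine ⟨Δ + Δ', fun q => LB.ten (σ q) (σ' q), map_add _ _ _, fun w => ?_⟩
    obtain ⟨v, h1, h2, h3⟩ := h w
    obtain ⟨v', h4, h5, h6⟩ := h' w
    refine ⟨fun q => LB.ten (v q) (v' q), ?_, LB.ten_ne_zero h2 h5, ?_⟩
    · filter_upwards [h1, h4] with q k k'
      exact ⟨by simpa only [Function.comp, LB.tenL_apply] using!
        (LB.tenL.continuous.continuousAt.comp k.1).clm_apply k'.1, fb_ten k.2 k'.2⟩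
    · filter_upwards [h3, h6, lp_ne w] with q k k' k0
      rw [k, k', LB.ten_smul_left, LB.ten_smul_right, smul_smul, Finsupp.add_apply, zpow_add₀ k0]
      rfl
  · rintro ⟨Δ, σ, rfl, h⟩ ⟨Δ', σ', rfl, h'⟩
    refine ⟨Δ - Δ', fun q => dv (σ q) (σ' q), map_sub _ _ _, fun w => ?_⟩
    obtain ⟨v, h1, h2, h3⟩ := h w
    obtain ⟨v', h4, h5, h6⟩ := h' w
    refine ⟨fun q => dv (v q) (v' q), ?_,
      (fb_dv h1.self_of_nhds.2 h4.self_of_nhds.2 h5).2 h2, ?_⟩
    · filter_upwards [h1, h4, h4.self_of_nhds.1.eventually_ne h5] with q k k' k0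
      exact ⟨dv_cont k.1 k'.1 k0, (fb_dv k.2 k'.2 k0).1⟩
    · filter_upwards [h3, h6, lp_ne w] with q k k' k0
      rw [k, k', Finsupp.sub_apply, zpow_sub₀ k0]
      exact dv_smul _ _ _ (zpow_ne_zero _ k0)

theorem tr2 (h : FINJ) : TR2 := by
  intro K _ _ S _ D L hD
  choose τ h1 h2 using fun C : D => hD C C.2
  have e : {x | ¬ Res.Off D x} = range fun y : Σ C : D, Plk ℂ C.1.Fn => S.pt y.1.1 y.2 := by
    ext x
    simp only [Res.Off, mem_ofPred_eq, not_forall, not_not]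
    constructor
    · rintro ⟨C, hC, k⟩
      obtain ⟨w, hw⟩ := (range_pt C).ge k
      exact ⟨⟨⟨C, hC⟩, w⟩, hw⟩
    · rintro ⟨y, rfl⟩
      exact ⟨_, y.1.2, pt_on _ _⟩
  rw [e]
  refine glue (τ := fun y => τ y.1 y.2) (continuous_sigma fun C => continuous_pt C.1) ?_
    (continuous_sigma h1) fun y => h2 _ _
  refine (finite_iUnion fun C : D => ((h K S C.1).union (fin_over C.1
    (D.finite_toSet.subset (sdiff_subset (t := {C.1}))) fun k => k.2 rfl)).image
      (Sigma.mk C)).subset ?_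
  rintro ⟨C, w⟩ ⟨⟨C', w'⟩, k, k'⟩
  refine mem_iUnion.2 ⟨C, w, ?_, rfl⟩
  by_cases c : C' = C
  · subst c
    exact Or.inl ⟨w', fun c => k (by rw [c]), k'⟩
  · exact Or.inr ⟨C'.1, ⟨C'.2, fun c' => c (Subtype.ext c')⟩, k' ▸ pt_on _ _⟩

end Vale.Agent.P253Y.An
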