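import Vale.Agent.P290.H220.Glob
import Vale.Agent.P267.H815.Pairing

/-! P253, surfaces: the intersection number of two norm functions with transversal zeros. -/

set_option linter.all false

open scoped Manifold ContDiff
open MeasureTheory Set Filter Topology Metric

noncomputable section

namespace Vale.Agent.P253Y.An.TransvH

open Vale.Agent.P267 Vale.Agent.P267.FL Vale.Agent.P267.H757 Vale.Agent.P267.H332
open Vale.Agent.P290 Vale.Agent.P290.H220
open Vale.Agent.P290.H561 (co co_analytic)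

/-- The local integral for the coordinate functions. -/
theorem locEq {A A' : Set C2} {u v : C2 → ℝ} {p : C2} {r : ℝ} (hr : 0 < r)
    (hu : ContDiffOn ℝ ∞ u (closedBall p r)) (hv : ContDiffOn ℝ ∞ v (closedBall p r))
    (hA : IsOpen (ball p r \ A)) (hA' : IsOpen (ball p r \ A'))
    (h1 : ∀ z ∈ ball p r, z ∉ A → co p 0 z ≠ 0 ∧ u z = Real.log (‖co p 0 z‖ ^ 2))
    (h2 : ∀ z ∈ ball p r, z ∉ A' → co p 1 z ≠ 0 ∧ v z = Real.log (‖co p 1 z‖ ^ 2))
    (hAA : ∀ z ∈ ball p r, z ∈ A → z ∈ A' → z ∈ closedBall p (r / 2)) :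
    ∫ z in ball p r, MA (fun z => (u z : ℂ)) (fun z => (v z : ℂ)) z = ((Real.pi ^ 2 : ℝ) : ℂ) := by
  have key : ∀ {f : C2 → ℂ} {u : C2 → ℝ} {A : Set C2}, ContDiffOn ℝ ∞ u (closedBall p r) →
      (∀ z ∈ ball p r, z ∉ A → f z ≠ 0 ∧ u z = Real.log (‖f z‖ ^ 2)) →
      ∃ M : ℝ, ∀ z ∈ ball p r, z ∉ A → Real.exp (-M) ≤ Complex.normSq (f z) ∧
        (u z : ℂ) = ((Real.log (Complex.normSq (f z)) : ℝ) : ℂ) := by
    intro f u A hu h1
    obtain ⟨M, hM⟩ := (isCompact_closedBall p r).exists_bound_of_continuousOn hu.continuousOn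
    refine ⟨M, fun z hz hzA => ?_⟩
    obtain ⟨h3, h4⟩ := h1 z hz hzA
    have h5 := hM z (ball_subset_closedBall hz)
    rw [Real.norm_eq_abs] at h5
    have h7 : (0 : ℝ) < ‖f z‖ ^ 2 := by positivity
    refine ⟨?_, by rw [h4, Complex.normSq_eq_norm_sq]⟩
    rw [Complex.normSq_eq_norm_sq, ← Real.exp_log h7, ← h4]
    exact Real.exp_le_exp.2 (abs_le.1 h5).1
  obtain ⟨M, hM⟩ := key hu h1
  obtain ⟨M', hM'⟩ := key hv h2
  obtain ⟨T, hT1, hT2, hT3⟩ : ∃ T : ℝ, 2 - Real.log (r ^ 2) ≤ T ∧ M + 1 ≤ T ∧ M' + 1 ≤ T :=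
    ⟨max (2 - Real.log (r ^ 2)) (max (M + 1) (M' + 1)), le_max_left _ _,
      (le_max_left _ _).trans (le_max_right _ _), (le_max_right _ _).trans (le_max_right _ _)⟩
  have hG : CutLog (H561.KT T) (Real.exp (1 - T)) :=
    ⟨Real.exp_pos _, H561.KT_contDiff T, fun x hx => H561.KT_eq_log hx⟩
  have hind := indep (K := closedBall p (r / 2)) isOpen_ball (isCompact_closedBall _ _)
    (closedBall_subset_ball (by linarith))
    (fun z _ => (co_analytic p 0 z).differentiableAt.differentiableWithinAt)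
    (fun z _ => (co_analytic p 1 z).differentiableAt.differentiableWithinAt)
    (Complex.ofRealCLM.contDiff.comp_contDiffOn (hu.mono ball_subset_closedBall))
    (Complex.ofRealCLM.contDiff.comp_contDiffOn (hv.mono ball_subset_closedBall)) hG hA hA'
    (fun z hz hzA => ⟨(Real.exp_le_exp.2 (by linarith)).trans (hM z hz hzA).1, (hM z hz hzA).2⟩)
    (fun z hz hzA => ⟨(Real.exp_le_exp.2 (by linarith)).trans (hM' z hz hzA).1, (hM' z hz hzA).2⟩)
    hAA
  have h3 : Real.exp (1 - T) < r ^ 2 := by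
    rw [← Real.exp_log (show 0 < r ^ 2 by positivity)]
    exact Real.exp_lt_exp.2 (by linarith)
  refine hind.2.2.trans ?_
  rw [← H561.mass_co (p := p) hr h3, ← integral_complex_ofReal]
  exact setIntegral_congr_fun measurableSet_ball fun z _ =>
    H561.MA_real (H561.psi_contDiffAt T (co_analytic p 0 z))
      (H561.psi_contDiffAt T (co_analytic p 1 z))

variable {X : Type} [TopologicalSpace X] [ChartedSpace C2 X] [IsManifold 𝓘(ℂ, C2) ω X]
  [T2Space X] [CompactSpace X]

theorem nIP_eq {N N' : X → ℝ} (hN : IsNormFn C2 N) (hN' : IsNormFn C2 N') (S : Finset X)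
    (hS : ∀ x, N x = 0 → N' x = 0 → x ∈ S)
    (h : ∀ p ∈ S, ∃ e ∈ atlas C2 X, p ∈ e.source ∧ ∃ (U : Set X) (φ φ' : X → ℝ), p ∈ U ∧
      LocRep C2 N U (fun y => co (e p) 0 (e y)) φ ∧ LocRep C2 N' U (fun y => co (e p) 1 (e y)) φ') :
    nIP N N' = S.card := by
  classical
  choose e heA hpe U φ φ' hpU hrep hrep' using fun p : S => h p p.2
  obtain ⟨D, hD, hDd⟩ := S.finite_toSet.t2_separation
  have hW : ∀ p : S, ∃ r : ℝ, 0 < r ∧
      closedBall (e p p) r ⊆ (e p).target ∩ (e p).symm ⁻¹' (D p ∩ U p) := by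
    intro p
    refine Metric.nhds_basis_closedBall.mem_iff.1
      (((e p).symm.isOpen_inter_preimage ((hD p).2.inter (hrep p).isOpen)).mem_nhds
        ⟨(e p).map_source (hpe p), ?_⟩)
    rw [mem_preimage, (e p).left_inv (hpe p)]
    exact ⟨(hD p).1, hpU p⟩
  choose r hr hball using hW
  set V : S → Set X := fun p => (e p).source ∩ (e p) ⁻¹' ball (e p p) (r p) with hVd
  set O : S → Set X := fun p => (e p).source ∩ (e p) ⁻¹' ball (e p p) (r p / 2) with hOd
  have hVo : ∀ p, IsOpen (V p) := fun p => (e p).isOpen_inter_preimage isOpen_ball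
  have hOo : ∀ p, IsOpen (O p) := fun p => (e p).isOpen_inter_preimage isOpen_ball
  have hOV : ∀ p, O p ⊆ V p := fun p x hx => ⟨hx.1, ball_subset_ball (by linarith [hr p]) hx.2⟩
  have hVD : ∀ p, V p ⊆ D p := by
    intro p x hx
    have := (hball p (ball_subset_closedBall hx.2)).2.1
    rwa [(e p).left_inv hx.1] at this
  have hpO : ∀ p : S, (p : X) ∈ O p := fun p => ⟨hpe p, mem_ball_self (by linarith [hr p])⟩
  have hdisj : ∀ p q : S, p ≠ q → ∀ x, x ∈ V p → x ∉ V q := fun p q hpq x hx hx' =>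
    Set.disjoint_left.1 (hDd p.2 q.2 fun h => hpq (Subtype.ext h)) (hVD p hx) (hVD q hx')
  have hsub : ∀ p, ball (e p p) (r p) ⊆ (e p).target := fun p z hz =>
    (hball p (ball_subset_closedBall hz)).1
  have hzV : ∀ p, ∀ z ∈ ball (e p p) (r p), (e p).symm z ∈ V p := fun p z hz =>
    ⟨(e p).map_target (hsub p hz), by rw [mem_preimage, (e p).right_inv (hsub p hz)]; exact hz⟩
  obtain ⟨c, hc, hcO⟩ : ∃ c : ℝ, 0 < c ∧ ∀ x, (∀ p, x ∉ O p) → c < N x ∨ c < N' x := by
    have hZ : IsCompact (⋃ p, O p)ᶜ := (isOpen_iUnion hOo).isClosed_compl.isCompact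
    have hm : ContinuousOn (fun x => max (N x) (N' x)) (⋃ p, O p)ᶜ :=
      (hN.continuous.max hN'.continuous).continuousOn
    have hpos : ∀ x ∈ (⋃ p, O p)ᶜ, 0 < max (N x) (N' x) := by
      intro x hx
      rw [lt_max_iff]
      by_contra hcon
      rw [not_or, not_lt, not_lt] at hcon
      have h1 : N x = 0 := le_antisymm hcon.1 (hN.nonneg x)
      have h2 : N' x = 0 := le_antisymm hcon.2 (hN'.nonneg x)
      exact hx (mem_iUnion.2 ⟨⟨x, hS x h1 h2⟩, hpO ⟨x, hS x h1 h2⟩⟩)
    obtain ⟨c, hc, hc2⟩ := hZ.exists_forall_le' hm hpos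
    refine ⟨c / 2, by linarith, fun x hx => ?_⟩
    rcases le_max_iff.1 (hc2 x (by simpa using hx)) with h | h
    · exact Or.inl (by linarith)
    · exact Or.inr (by linarith)
  obtain ⟨G, hG⟩ := exists_cutLog hc
  have hT := tame_nf hG.smooth hN
  have hT' := tame_nf hG.smooth hN'
  set β : X → ℂ := (cF (tame G N)).wedge (cF (tame G N')) with hβ
  have hβ0 : ∀ x, (∀ p, x ∉ O p) → β x = 0 := by
    intro x hx
    rcases hcO x hx with h | h
    · simp [hβ, TwoF.wedge, cF, curvN_tame_zero hG hN h]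
    · simp [hβ, TwoF.wedge, cF, curvN_tame_zero hG hN' h]
  have hβr : Reg2 ∞ 1 β := reg2_wedge (cF_smooth hT) (cF_smooth hT')
  have hcut : ∀ p : S, ∃ χ : X → ℝ, H533.RSm χ ∧ tsupport χ ⊆ V p ∧ ∀ x ∈ O p, χ x = 1 := by
    intro p
    have hK : IsCompact ((e p).symm '' closedBall (e p p) (r p / 2)) :=
      (isCompact_closedBall _ _).image_of_continuousOn ((e p).continuousOn_symm.mono fun z hz =>
        (hball p (closedBall_subset_closedBall (by linarith [hr p]) hz)).1)
    have hKV : (e p).symm '' closedBall (e p p) (r p / 2) ⊆ V p := by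
      rintro _ ⟨z, hz, rfl⟩
      exact hzV p z (closedBall_subset_ball (by linarith [hr p]) hz)
    obtain ⟨χ, h1, h2, h3, h4, h5⟩ := H533.exists_cutoff hK (hVo p) hKV
    exact ⟨χ, h1, h3, fun x hx => Eventually.self_of_nhdsSet h5 x
      ⟨e p x, ball_subset_closedBall hx.2, (e p).left_inv hx.1⟩⟩
  choose χ hχs hχt hχ1 using hcut
  have hχ0 : ∀ p x, x ∉ V p → χ p x = 0 := fun p x hx => by
    by_contra h
    exact hx (hχt p (subset_tsupport _ h))
  have hsum : β = fun x => ∑ p : S, (χ p x : ℂ) * β x := by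
    funext x
    by_cases hx : ∃ p, x ∈ O p
    · obtain ⟨p, hp⟩ := hx
      rw [Finset.sum_eq_single p]
      · rw [hχ1 p x hp]; simp
      · intro q _ hq
        rw [hχ0 q x (hdisj p q (Ne.symm hq) x (hOV p hp))]; simp
      · simp
    · rw [hβ0 x (not_exists.1 hx)]; simp
  have hLI : ∀ p : S, H533.LocInt fun x => (χ p x : ℂ) * β x := fun p =>
    hβr.locInt.mul_cont (Complex.continuous_ofReal.comp (hχs p).continuous)
  have hCS : ∀ f : X → ℂ, HasCompactSupport f := fun f => HasCompactSupport.of_compactSpace f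
  have hint : intX β = ∑ p : S, intX fun x => (χ p x : ℂ) * β x := by
    conv_lhs => rw [hsum]
    exact H533.intX_sum _ (fun p _ => hLI p) (fun p _ => hCS _)
  have hnO : ∀ p, ∀ z ∈ ball (e p p) (r p), (e p).symm z ∉ O p → ∀ q, (e p).symm z ∉ O q := by
    intro p z hz hO q hq
    by_cases hpq : q = p
    · rw [hpq] at hq
      exact hO hq
    · exact hdisj p q (Ne.symm hpq) _ (hzV p z hz) (hOV q hq)
  have hone : ∀ p : S, intX (fun x => (χ p x : ℂ) * β x) = -4 * ∫ z in ball (e p p) (r p),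
      MA (fun z => ((φ p ((e p).symm z) + G (N ((e p).symm z)) : ℝ) : ℂ))
        (fun z => ((φ' p ((e p).symm z) + G (N' ((e p).symm z)) : ℝ) : ℂ)) z := by
    intro p
    have hts : tsupport (fun x => (χ p x : ℂ) * β x) ⊆ (e p).source := by
      refine (tsupport_mul_subset_left).trans ?_
      have : tsupport (fun x => (χ p x : ℂ)) ⊆ tsupport (χ p) := by
        refine closure_mono fun x hx => ?_
        simpa using hx
      exact (this.trans (hχt p)).trans inter_subset_left
    rw [H533.intX_chart (hLI p) (hCS _) (heA p) hts,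
      setIntegral_eq_of_subset_of_forall_sdiff_eq_zero (e p).open_target.measurableSet (hsub p),
      ← integral_const_mul]
    · refine setIntegral_congr_fun measurableSet_ball fun z hz => ?_
      have hzW := (hball p (ball_subset_closedBall hz)).2
      have h1 : loc2 1 (e p) β z =
          -MA (fun z => ((φ p ((e p).symm z) + G (N ((e p).symm z)) : ℝ) : ℂ))
            (fun z => ((φ' p ((e p).symm z) + G (N' ((e p).symm z)) : ℝ) : ℂ)) z :=
        loc2_wedge_MA (tame_locRep hG.smooth hN (hrep p)) (tame_locRep hG.smooth hN' (hrep' p))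
          (heA p) (hsub p hz) hzW.2 hzW.2
      have h2 : loc2 1 (e p) (fun x => (χ p x : ℂ) * β x) z = loc2 1 (e p) β z := by
        by_cases hO : (e p).symm z ∈ O p
        · simp only [loc2, hχ1 p _ hO]; simp
        · simp only [loc2, hβ0 _ (hnO p z hz hO)]; simp
      rw [h2, h1]; ring
    · intro z hz
      have : (e p).symm z ∉ V p := by
        intro h
        have := h.2
        rw [mem_preimage, (e p).right_inv hz.1] at this
        exact hz.2 this
      simp only [loc2, hχ0 p _ this]; simp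
  have hval : ∀ p : S, ∫ z in ball (e p p) (r p),
      MA (fun z => ((φ p ((e p).symm z) + G (N ((e p).symm z)) : ℝ) : ℂ))
        (fun z => ((φ' p ((e p).symm z) + G (N' ((e p).symm z)) : ℝ) : ℂ)) z =
      ((Real.pi ^ 2 : ℝ) : ℂ) := by
    intro p
    have hs : closedBall (e p p) (r p) ⊆ (e p).target ∩ (e p).symm ⁻¹' (U p) := fun z hz =>
      ⟨(hball p hz).1, (hball p hz).2.2⟩
    have hopen : ∀ {N : X → ℝ}, IsNormFn C2 N →
        IsOpen (ball (e p p) (r p) \ {z | N ((e p).symm z) ≤ c}) := by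
      intro N hN
      have : ball (e p p) (r p) \ {z | N ((e p).symm z) ≤ c} =
          ball (e p p) (r p) ∩ (fun z => N ((e p).symm z)) ⁻¹' Ioi c := by
        ext z; simp
      rw [this]
      exact (hN.continuous.comp_continuousOn
        ((e p).continuousOn_symm.mono (hsub p))).isOpen_inter_preimage isOpen_ball isOpen_Ioi
    have hlog : ∀ {N : X → ℝ} {i : Fin 2} {φ : X → ℝ},
        LocRep C2 N (U p) (fun y => co (e p p) i (e p y)) φ → ∀ z ∈ ball (e p p) (r p),
        z ∉ {z | N ((e p).symm z) ≤ c} → co (e p p) i z ≠ 0 ∧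
          φ ((e p).symm z) + G (N ((e p).symm z)) = Real.log (‖co (e p p) i z‖ ^ 2) := by
      intro N i φ h z hz hzA
      simp only [mem_ofPred_eq, not_le] at hzA
      have h0 : 0 < N ((e p).symm z) := hc.trans hzA
      have h1 := h.eq _ (hs (ball_subset_closedBall hz)).2
      rw [(e p).right_inv (hsub p hz)] at h1
      have hg0 : co (e p p) i z ≠ 0 := by
        intro h2
        rw [h1, h2] at h0
        simp at h0
      refine ⟨hg0, ?_⟩
      rw [hG.eq _ hzA.le, h1, Real.log_mul (by positivity) (Real.exp_pos _).ne', Real.log_exp]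
      ring
    refine locEq (A := {z | N ((e p).symm z) ≤ c}) (A' := {z | N' ((e p).symm z) ≤ c}) (hr p)
      ((contDiffOn_chart (heA p) (tame_locRep hG.smooth hN (hrep p)).smooth).mono hs)
      ((contDiffOn_chart (heA p) (tame_locRep hG.smooth hN' (hrep' p)).smooth).mono hs)
      (hopen hN) (hopen hN') (hlog (hrep p)) (hlog (hrep' p)) fun z hz hzA hzA' => ?_
    by_contra hzK
    have h1 : (e p).symm z ∉ O p := by
      intro hq
      have := hq.2
      rw [mem_preimage, (e p).right_inv (hsub p hz)] at this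
      exact hzK (ball_subset_closedBall this)
    rcases hcO _ (hnO p z hz h1) with h | h
    · exact absurd hzA (not_le.2 h)
    · exact absurd hzA' (not_le.2 h)
  have hpi : (Real.pi : ℂ) ≠ 0 := by exact_mod_cast Real.pi_pos.ne'
  rw [← nIP_tame hG.smooth hN hN', nIP, ← hβ, hint,
    Finset.sum_congr rfl fun p _ => (hone p).trans (congrArg _ (hval p)), Finset.sum_const,
    Finset.card_univ, Fintype.card_coe, nsmul_eq_mul]
  push_cast
  field_simp

variable {ι ι' : Type} [Fintype ι] [DecidableEq ι] [Fintype ι'] [DecidableEq ι']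

theorem isec_nIP {L : LB X ι} {a : X → Fin 2 → ℂ} (ha : L.IsHol a) {s : X → EuclideanSpace ℂ ι}
    (hs : s ∈ RR.H0 L a 0) (hd : Dense {x | s x ≠ 0}) {L' : LB X ι'} {a' : X → Fin 2 → ℂ}
    (ha' : L'.IsHol a') {s' : X → EuclideanSpace ℂ ι'} (hs' : s' ∈ RR.H0 L' a' 0)
    (hd' : Dense {x | s' x ≠ 0}) : IsNormFn C2 (fun x => ‖s x‖ ^ 2) ∧
      IsNormFn C2 (fun x => ‖s' x‖ ^ 2) ∧
      RR.isec L L' = nIP (fun x => ‖s x‖ ^ 2) fun x => ‖s' x‖ ^ 2 := by
  obtain ⟨⟨h1, h2⟩, h3⟩ := (RR.mem_H0 _ _ _).1 hs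
  obtain ⟨⟨h4, h5⟩, h6⟩ := (RR.mem_H0 _ _ _).1 hs'
  have h7 := fun x i => congrFun (congrFun h3 x) i
  have k := H821.lbnf ha h1 h2 h7 hd
  have k' := H821.lbnf ha' h4 h5 (fun x i => congrFun (congrFun h6 x) i) hd'
  refine ⟨k.1, k'.1, ?_⟩
  rw [H815.isec_eq ha h1 h2 h7 hd, H815.pn, nIP, k'.2, H815.chern_eq_add, H815.wedge_comm _ (_ + _),
    H815.intX_add_exact L'.curv_smooth (H815.conn_smooth ha'.smooth) (cF_smooth k.1)
      (cF_closed k.1), H815.wedge_comm]

theorem locRep_of {s v : X → EuclideanSpace ℂ ι} (hd : Dense {x | s x ≠ 0}) {e : Ch X}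
    (he : e ∈ atlas C2 X) {U : Set X} (hU : IsOpen U) (hUe : U ⊆ e.source) {i : Fin 2}
    (h : ∀ y ∈ U, At0 ∞ 0 v y ∧ v y ≠ 0 ∧ s y = e y i • v y) :
    LocRep C2 (fun x => ‖s x‖ ^ 2) U (fun y => co 0 i (e y)) fun y => -Real.log (‖v y‖ ^ 2) where
  isOpen := hU
  hol := by
    have : IsManifold 𝓘(ℂ, C2) 1 X := IsManifold.of_le (n := ω) le_top
    refine mdifferentiableOn_of_chart (IsManifold.subset_maximalAtlas he) hUe ?_
    refine DifferentiableOn.congr (f := co 0 i)
      (fun z _ => (co_analytic 0 i z).differentiableAt.differentiableWithinAt) fun z hz => ?_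
    simp only [Function.comp_apply, e.right_inv hz.1]
  nz V hV hVU hne := by
    obtain ⟨x, hxV, hx⟩ := hd.inter_open_nonempty V hV hne
    refine ⟨x, hxV, fun h0 => hx ?_⟩
    have h1 : e x i = 0 := by simpa [co] using h0
    rw [(h x (hVU hxV)).2.2, h1, zero_smul]
  smooth := by
    refine H821.contMDiffOn_of_chart he hUe ?_
    have h2 : ContDiffOn ℝ ∞ (fun z => v (e.symm z)) (e.target ∩ e.symm ⁻¹' U) := by
      intro z hz
      have h3 := (h _ hz.2).1.chart he (e.map_target hz.1)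
      rw [LB.loc0_zero, e.right_inv hz.1] at h3
      exact h3.contDiffWithinAt
    refine (ContDiffOn.log (h2.norm_sq ℝ) fun z hz => ?_).neg
    have := norm_pos_iff.2 (h _ hz.2).2.1
    positivity
  eq x hx := by
    have h1 := norm_pos_iff.2 (h x hx).2.1
    rw [neg_neg, Real.exp_log (by positivity), (h x hx).2.2, norm_smul, mul_pow]
    simp [co]

theorem ne_nhds {v : X → EuclideanSpace ℂ ι} {p : X} (h : At0 ∞ 0 v p) (h0 : v p ≠ 0) :
    ∀ᶠ y in 𝓝 p, v y ≠ 0 := by
  have hp := mem_chart_source C2 p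
  have h1 := ContDiffAt.continuousAt h
  rw [LB.loc0_zero] at h1
  have h2 := (h1.comp ((chartAt C2 p).continuousAt hp)).eventually_ne (y := 0)
    (by simpa [(chartAt C2 p).left_inv hp] using h0)
  filter_upwards [h2, (chartAt C2 p).open_source.mem_nhds hp] with y h3 h4
  simpa [(chartAt C2 p).left_inv h4] using h3

end Vale.Agent.P253Y.An.TransvH
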