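import Vale.Agent.P253Y.An.Sk
import Vale.Agent.P253Y.An.TransvA

/-! P253, surfaces: the intersection number of two divisors that meet transversally. -/

set_option linter.all false

open Filter Topology Set

namespace Vale.Agent.P253Y.An

open TransvH in
theorem transv : TRANSV := by
  intro X _ _ _ _ _ _ L L' s hs s' hs' T hd hd' h0 h
  obtain ⟨h1, h2, h3⟩ := isec_nIP L.hol hs hd L'.hol hs' hd'
  refine h3.trans (nIP_eq h1 h2 T (fun x k k' => h0 x (by simpa using k) (by simpa using k'))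
    fun p hp => ?_)
  obtain ⟨e, he, hpe, e0, v, v', hv, hv', h4⟩ := h p hp
  obtain ⟨U, h5, h6, h7⟩ := eventually_nhds_iff.1
    (((h4.and (ne_nhds h4.self_of_nhds.1.sm hv)).and (ne_nhds h4.self_of_nhds.2.1.sm hv')).and
      (e.open_source.mem_nhds hpe))
  refine ⟨e, he, hpe, U, fun y => -Real.log (‖v y‖ ^ 2), fun y => -Real.log (‖v' y‖ ^ 2), h7, ?_⟩
  rw [e0]
  exact ⟨locRep_of hd he h6 (fun y hy => (h5 y hy).2) fun y hy =>
      ⟨(h5 y hy).1.1.1.1.sm, (h5 y hy).1.1.2, (h5 y hy).1.1.1.2.2.1⟩,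
    locRep_of hd' he h6 (fun y hy => (h5 y hy).2) fun y hy =>
      ⟨(h5 y hy).1.1.1.2.1.sm, (h5 y hy).1.2, (h5 y hy).1.1.1.2.2.2⟩⟩

end Vale.Agent.P253Y.An
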