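import Vale.Agent.P253Y.An.Sk

/-! P253, surfaces, block E: weak solutions on the space of places. -/

set_option linter.all false

open Filter Topology Set

noncomputable section

namespace Vale.Agent.P253Y.An

open Vale.Agent.P297Z Vale.Agent.P297Z.Sf
open Vale.Agent.P019P (CFF Plk dg ord Mge)
open Vale.Agent.P267 Vale.Agent.P267.FL
open Vale.Agent.P297Y

namespace WsH

variable {E : Type} [Field E] [Algebra ℂ E] [CFF ℂ E]

theorem cont {q : Plk ℂ E} {f : E} (hf : f ∈ q.1) : ContinuousAt (fun y => Jac.ev y f) q :=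
  fun _ hU => (Jac.nhds_val hf hU).mono fun _ h => h.2

theorem reg {q : Plk ℂ E} {f : E} (hf : f ∈ q.1) : ∀ᶠ y in 𝓝 q, f ∈ y.1 :=
  (Jac.nhds_val hf univ_mem).mono fun _ h => h.1

theorem lp_self (w : Plk ℂ E) : lp w w = 0 := Jac.ev_eq_zero (Jac.ch w).t_mem

theorem lp_ne (w : Plk ℂ E) : ∀ᶠ q in 𝓝[≠] w, lp w q ≠ 0 := by
  filter_upwards [nhdsWithin_le_nhds (Jac.ch w).nhds, self_mem_nhdsWithin] with q h1 h2 h3
  exact h2 (h1.trans ((congrArg _ h3).trans (Jac.ch w).pt0))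

theorem neBot (w : Plk ℂ E) : (𝓝[≠] w).NeBot := by
  refine Tendsto.neBot (f := (Jac.ch w).pt) (x := 𝓝[≠] 0) (tendsto_nhdsWithin_iff.2
    ⟨(Jac.ch w).tendsto_pt.mono_left nhdsWithin_le_nhds, ?_⟩)
  filter_upwards [nhdsWithin_le_nhds (Jac.ch w).ev_t, self_mem_nhdsWithin] with s h1 h2 h3
  rw [mem_singleton_iff.1 h3] at h1
  exact h2 (h1.symm.trans (lp_self w))

theorem ord_zero {q : Plk ℂ E} {f : E} (h : Jac.ev q f ≠ 0) : f ≠ 0 ∧ ord q f = 0 := by
  have h1 : f ∉ Mge q 1 := fun h1 => h (Jac.ev_eq_zero h1)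
  rw [P019P.mem_Mge, not_or] at h1
  have h2 := (Jac.mem_iff.1 (Jac.mem_of_ev_ne h)).resolve_left h1.1
  exact ⟨h1.1, by omega⟩

theorem ev_pow {q : Plk ℂ E} {f : E} (h : f ∈ q.1) (n : ℕ) :
    Jac.ev q (f ^ n) = Jac.ev q f ^ n := by
  induction n with
  | zero => simp [Jac.ev_one]
  | succ n ih => rw [pow_succ, Jac.ev_mul (pow_mem h n) h, ih, pow_succ]

theorem ev_zpow {q : Plk ℂ E} {f : E} (h : Jac.ev q f ≠ 0) (k : ℤ) :
    Jac.ev q (f ^ k) = Jac.ev q f ^ k := by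
  obtain ⟨n, rfl | rfl⟩ := Int.eq_nat_or_neg k
  · simpa using ev_pow (Jac.mem_of_ev_ne h) n
  · rw [zpow_neg, zpow_neg, zpow_natCast, zpow_natCast, ← inv_pow,
      ev_pow (Jac.inv_mem_of_ev h), Jac.ev_inv h, inv_pow]

/-- `f` has order `k` at `w` -/
def At (w : Plk ℂ E) (k : ℤ) (f : Plk ℂ E → ℂ) : Prop :=
  ∃ u : Plk ℂ E → ℂ, (∀ᶠ q in 𝓝 w, ContinuousAt u q) ∧ u w ≠ 0 ∧
    ∀ᶠ q in 𝓝[≠] w, f q = lp w q ^ k * u q

theorem at_ev (w : Plk ℂ E) {g : E} (hg : g ≠ 0) {f : Plk ℂ E → ℂ}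
    (h : ∀ᶠ q in 𝓝[≠] w, f q = Jac.ev q g) : At w (ord w g) f := by
  have t1 := (Jac.ch w).ord_t
  have t0 : (Jac.ch w).t ≠ 0 := fun h => by simp [h, P019P.ord_zero] at t1
  have h0 : (Jac.ch w).t ^ (-ord w g) * g ≠ 0 := mul_ne_zero (zpow_ne_zero _ t0) hg
  have h1 : ord w ((Jac.ch w).t ^ (-ord w g) * g) = 0 := by
    rw [P019P.ord_mul w (zpow_ne_zero _ t0) hg, P019P.ord_zpow, t1]
    ring
  have h2 : (Jac.ch w).t ^ (-ord w g) * g ∈ w.1 := Jac.mem_iff.2 (Or.inr h1.ge)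
  refine ⟨fun q => Jac.ev q ((Jac.ch w).t ^ (-ord w g) * g), (reg h2).mono fun q => cont,
    fun h3 => ?_, ?_⟩
  · rcases Jac.mem_of_ev h2 h3 with h4 | h4
    · exact h0 h4
    · omega
  · filter_upwards [h, lp_ne w, nhdsWithin_le_nhds (reg h2)] with q k1 k2 k3
    have k4 := ev_zpow k2 (ord w g)
    rw [k1, lp, ← k4, ← Jac.ev_mul (Jac.mem_of_ev_ne (k4.trans_ne (zpow_ne_zero _ k2))) k3,
      zpow_neg, mul_inv_cancel_left₀ (zpow_ne_zero _ t0)]

variable (E) in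
/-- the divisors that have a weak solution -/
def Sol : AddSubgroup (Plk ℂ E →₀ ℤ) where
  carrier := {Δ | ∃ f, Weak Δ f}
  zero_mem' := ⟨1, fun w => ⟨1, .of_forall fun _ => continuousAt_const, one_ne_zero,
    .of_forall fun q => by simp⟩⟩
  add_mem' := by
    rintro Δ Δ' ⟨f, hf⟩ ⟨g, hg⟩
    refine ⟨f * g, fun w => ?_⟩
    obtain ⟨u, h1, h2, h3⟩ := hf w
    obtain ⟨v, h4, h5, h6⟩ := hg w
    refine ⟨u * v, (h1.and h4).mono fun q h => h.1.mul h.2, mul_ne_zero h2 h5, ?_⟩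
    filter_upwards [h3, h6, lp_ne w] with q k1 k2 k3
    rw [Pi.mul_apply, Pi.mul_apply, k1, k2, Finsupp.add_apply, zpow_add₀ k3]
    ring
  neg_mem' := by
    rintro Δ ⟨f, hf⟩
    refine ⟨f⁻¹, fun w => ?_⟩
    obtain ⟨u, h1, h2, h3⟩ := hf w
    refine ⟨u⁻¹, (h1.and (h1.self_of_nhds.eventually_ne h2)).mono fun q h => h.1.inv₀ h.2,
      inv_ne_zero h2, h3.mono fun q k => ?_⟩
    rw [Pi.inv_apply, Pi.inv_apply, k, Finsupp.neg_apply, zpow_neg, mul_inv]

theorem simple (w : Plk ℂ E) :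
    ∀ᶠ a in 𝓝[≠] w, ord a ((Jac.ch w).t - algebraMap ℂ E (lp w a)) = 1 := by
  have ht : ∀ c, (Jac.ch w).t ≠ algebraMap ℂ E c := fun c h => by
    have := (Jac.ch w).ord_t
    simp [h, P019P.ord_const] at this
  have h1 := ((P025H492.wd_finite ht).subset (diff_subset (t := {w}))).isClosed.isOpen_compl.mem_nhds
    (show w ∈ _ from fun h => h.2 rfl)
  filter_upwards [nhdsWithin_le_nhds h1, self_mem_nhdsWithin,
    nhdsWithin_le_nhds (reg (Jac.mem_of_one (Jac.ch w).t_mem))] with a k1 k2 k3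
  have k4 : P025H492.wd (Jac.ch w).t a = 0 := by_contra fun h => k1 ⟨h, k2⟩
  have k5 := (Jac.mem_iff.1 k3).resolve_left (by simpa using ht 0)
  rw [P025H492.wd, if_pos k5, sub_eq_zero] at k4
  rwa [lp, Jac.ev_eq (Or.inr k4.ge)]

theorem near (w : Plk ℂ E) :
    ∀ᶠ a in 𝓝 w, Finsupp.single a 1 - Finsupp.single w 1 ∈ Sol E := by
  classical
  obtain ⟨U, hU, oU, wU⟩ := mem_nhds_iff.1
    ((reg (Jac.mem_of_one (Jac.ch w).t_mem)).and (Jac.ch w).nhds)
  obtain ⟨N, hN, cN, sN⟩ := exists_mem_nhds_isClosed_subset (oU.mem_nhds wU)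
  obtain ⟨χ, c1, c2, -⟩ := exists_tsupport_one_of_isOpen_isClosed oU isClosed_closure.isCompact
    cN sN
  have inj : ∀ q ∈ U, ∀ q' ∈ U, lp w q = lp w q' → q = q' := fun q h q' h' e =>
    (hU h).2.trans ((congrArg _ e).trans (hU h').2.symm)
  have ne0 : ∀ q ∈ U, q ≠ w → lp w q ≠ 0 := fun q h h' e =>
    h' (inj q h w wU (e.trans (lp_self w).symm))
  have hF : ∀ q, q ≠ w → ContinuousAt (fun y => (χ y : ℂ) / lp w y) q := by
    intro q hq
    by_cases h : q ∈ U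
    · exact (Complex.continuous_ofReal.comp χ.continuous).continuousAt.div (cont (hU h).1)
        (ne0 q h hq)
    · refine (continuousAt_const (y := (0 : ℂ))).congr ?_
      filter_upwards [notMem_tsupport_iff_eventuallyEq.1 fun k => h (c1 k)] with y hy
      simp [hy]
  have wN : w ∈ interior N := mem_interior_iff_mem_nhds.2 hN
  obtain ⟨B, hB⟩ := isOpen_interior.isClosed_compl.isCompact.exists_bound_of_continuousOn
    fun q (hq : q ∈ (interior N)ᶜ) => (hF q fun e => hq (e ▸ wN)).continuousWithinAt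
  have h1 : ∀ᶠ a in 𝓝 w, ‖lp w a‖ * B < 1 :=
    ((cont (hU wU).1).norm.mul continuousAt_const).eventually_lt continuousAt_const
      (by simp [show Jac.ev w (Jac.ch w).t = 0 from lp_self w])
  rw [← nhdsNE_sup_pure, eventually_sup, eventually_pure, sub_self]
  refine ⟨?_, zero_mem _⟩
  filter_upwards [nhdsWithin_le_nhds h1, nhdsWithin_le_nhds (isOpen_interior.mem_nhds wN),
    simple w, self_mem_nhdsWithin] with a a1 a2 a3 a4
  have aw : a ≠ w := a4
  have aU := sN (interior_subset a2)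
  have val : ∀ q ∈ interior N, q ≠ w → 1 - lp w a * ((χ q : ℂ) / lp w q) =
      Jac.ev q (((Jac.ch w).t - algebraMap ℂ E (lp w a)) * (Jac.ch w).t⁻¹) ∧
      1 - lp w a * ((χ q : ℂ) / lp w q) = (lp w q - lp w a) / lp w q := by
    intro q h h'
    have k1 := sN (interior_subset h)
    have k2 := ne0 q k1 h'
    have k3 : 1 - lp w a * ((χ q : ℂ) / lp w q) = (lp w q - lp w a) / lp w q := by
      rw [c2 (interior_subset h)]
      simp only [Pi.one_apply, Complex.ofReal_one]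
      field_simp
    refine ⟨?_, k3⟩
    rw [k3, Jac.ev_mul (sub_mem (hU k1).1 (Jac.cst_mem _ _)) (Jac.inv_mem_of_ev k2),
      Jac.ev_sub (hU k1).1 (Jac.cst_mem _ _), Jac.ev_cst, Jac.ev_inv k2, div_eq_mul_inv]
    rfl
  have o1 := ord_zero (ne0 a aU aw)
  have o2 : _ ∧ ord w ((Jac.ch w).t - algebraMap ℂ E (lp w a)) = 0 := ord_zero (by
    rw [Jac.ev_sub (hU wU).1 (Jac.cst_mem _ _), Jac.ev_cst, sub_ne_zero]
    exact fun e => aw (inj a aU w wU e.symm))
  have g0 := mul_ne_zero o2.1 (inv_ne_zero o1.1)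
  have mer : ∀ q ∈ interior N, At q (ord q (((Jac.ch w).t - algebraMap ℂ E (lp w a)) *
      (Jac.ch w).t⁻¹)) fun y => 1 - lp w a * ((χ y : ℂ) / lp w y) := fun q h => by
    refine at_ev q g0 ?_
    have k : ∀ᶠ y in 𝓝[≠] q, y ≠ w := by
      rcases eq_or_ne q w with rfl | k
      · exact self_mem_nhdsWithin
      · exact nhdsWithin_le_nhds (isOpen_ne.mem_nhds k)
    filter_upwards [nhdsWithin_le_nhds (isOpen_interior.mem_nhds h), k] with y k1 k2
    exact (val y k1 k2).1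
  refine ⟨fun y => 1 - lp w a * ((χ y : ℂ) / lp w y), fun q => ?_⟩
  by_cases qw : q = w
  · have := mer w wN
    rw [P019P.ord_mul _ o2.1 (inv_ne_zero o1.1), P019P.ord_inv, o2.2, (Jac.ch w).ord_t] at this
    subst qw
    simpa [At, Finsupp.single_eq_of_ne aw.symm] using this
  by_cases qa : q = a
  · have := mer a a2
    rw [P019P.ord_mul _ o2.1 (inv_ne_zero o1.1), P019P.ord_inv, o1.2, a3] at this
    subst qa
    simpa [At, Finsupp.single_eq_of_ne aw] using this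
  refine ⟨fun y => 1 - lp w a * ((χ y : ℂ) / lp w y),
    (isOpen_ne.eventually_mem qw).mono fun y hy => continuousAt_const.sub (continuousAt_const.mul (hF y hy)), ?_, .of_forall fun y => by
      simp [Finsupp.single_eq_of_ne qw, Finsupp.single_eq_of_ne qa]⟩
  by_cases h : q ∈ interior N
  · have k1 := sN (interior_subset h)
    refine (val q h qw).2.trans_ne ?_
    exact div_ne_zero (sub_ne_zero.2 fun e => qa (inj q k1 a aU e)) (ne0 q k1 qw)
  · refine sub_ne_zero.2 fun e => ?_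
    have k1 := congrArg norm e
    rw [norm_one, norm_mul] at k1
    nlinarith [mul_le_mul_of_nonneg_left (hB q h) (norm_nonneg (lp w a))]

theorem glue {Y : Type} [TopologicalSpace Y] [T2Space Y] {g : Plk ℂ E → Y}
    {V : Plk ℂ E → Plk ℂ E → Y} (h1 : ∀ w, ∀ᶠ q in 𝓝 w, ContinuousAt (V w) q)
    (h2 : ∀ w, ∀ᶠ q in 𝓝[≠] w, g q = V w q) : Continuous fun w => V w w := by
  refine continuous_iff_continuousAt.2 fun w => (h1 w).self_of_nhds.congr ?_
  rw [EventuallyEq, ← nhdsNE_sup_pure, eventually_sup, eventually_pure]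
  refine ⟨?_, rfl⟩
  filter_upwards [eventually_nhdsNE_eventually_nhds_iff.2 (h2 w), nhdsWithin_le_nhds (h1 w)]
    with q k1 k2
  have := neBot q
  refine tendsto_nhds_unique_of_eventuallyEq (l := 𝓝[≠] q) (k2.mono_left nhdsWithin_le_nhds)
    ((h1 q).self_of_nhds.mono_left nhdsWithin_le_nhds) ?_
  filter_upwards [nhdsWithin_le_nhds k1, h2 q] with y k3 k4
  exact k3.symm.trans k4

end WsH

open WsH

theorem ws (h : PLK) : WS := by
  intro E _ _ _ Δ hΔ
  have := h E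
  obtain ⟨w⟩ : Nonempty (Plk ℂ E) := inferInstance
  have h1 : ∀ a b : Plk ℂ E, Finsupp.single a 1 - Finsupp.single b 1 ∈ Sol E :=
    PreconnectedSpace.induction₂' _ (fun x => (near x).mono fun y k =>
      ⟨by simpa using neg_mem k, k⟩) ⟨fun a b c k k' => by simpa using add_mem k k'⟩
  have h2 : ∀ D : Plk ℂ E →₀ ℤ, D - dg D • Finsupp.single w 1 ∈ Sol E := fun D => by
    induction D using Finsupp.induction_linear with
    | zero => simp [zero_mem]
    | add f g k k' =>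
      rw [map_add, add_smul, ← sub_add_sub_comm]
      exact add_mem k k'
    | single a n =>
      have := zsmul_mem (h1 a w) n
      rw [smul_sub, Finsupp.smul_single, smul_eq_mul, mul_one] at this
      rwa [P019P.dg_sgl]
  have h3 := h2 Δ
  rwa [hΔ, zero_smul, sub_zero] at h3

theorem tr1 (h : WS) : TR1 := by
  rintro K _ _ S _ C L ⟨Δ, σ, h1, h2⟩
  obtain ⟨f, hf⟩ := h C.Fn (-Δ) (by rw [map_neg, h1, neg_zero])
  choose u u1 u2 u3 using hf
  choose v v1 v2 v3 using h2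
  refine ⟨fun w => u w w • v w w, glue (g := fun q => f q • σ q) (V := fun w q => u w q • v w q)
    (fun w => ((u1 w).and (v1 w)).mono fun q k => k.1.smul k.2.1) fun w => ?_,
    fun w => ⟨?_, smul_ne_zero (u2 w) (v2 w)⟩⟩
  · filter_upwards [u3 w, v3 w, lp_ne w] with q k1 k2 k3
    rw [k1, k2, smul_smul, Finsupp.neg_apply, zpow_neg, mul_right_comm,
      inv_mul_cancel₀ (zpow_ne_zero _ k3), one_mul]
  · rw [Fb, LB.act_smul, (v1 w).self_of_nhds.2]

end Vale.Agent.P253Y.An
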