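import Vale.Agent.P253Y.An.Alg
import Vale.Agent.P253Y.An.Can
import Vale.Agent.P253Y.An.Ch
import Vale.Agent.P253Y.An.Dex
import Vale.Agent.P253Y.An.EffX
import Vale.Agent.P253Y.An.Emb
import Vale.Agent.P253Y.An.Exs
import Vale.Agent.P253Y.An.Ext1
import Vale.Agent.P253Y.An.Genl
import Vale.Agent.P253Y.An.H11
import Vale.Agent.P253Y.An.Isec
import Vale.Agent.P253Y.An.Ldiv
import Vale.Agent.P253Y.An.Msp
import Vale.Agent.P253Y.An.Obe
import Vale.Agent.P253Y.An.Oks
import Vale.Agent.P253Y.An.Plk
import Vale.Agent.P253Y.An.Rank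
import Vale.Agent.P253Y.An.Surg
import Vale.Agent.P253Y.An.T2c
import Vale.Agent.P253Y.An.Tr2
import Vale.Agent.P253Y.An.Transv
import Vale.Agent.P253Y.An.Ws
import Vale.Agent.P253Y.G.Asm
import Vale.Agent.P253Y.G.Bdof
import Vale.Agent.P253Y.G.Geo
import Vale.Agent.P267.H221.RRMain

/-! P253, surfaces, blocks C and E: the theorems. -/

set_option linter.all false

open scoped Manifold ContDiff

namespace Vale.Agent.P253Y.An

open Vale.Agent.P297Z Vale.Agent.P297Z.Sf
open Vale.Agent.P267 Vale.Agent.P267.FL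

namespace Main

theorem ok : OKS := oks t2c ch plk orth

theorem lin' : LIN := lin obe obi

theorem di' : DI :=
  di lin' obe deg rst (tr1 (ws plk)) (tr2 finj) surg orth (cal transv genl inj)

theorem is' : ISEC := isec_eq di' lin' rst obe

theorem eps' : EPS := eps (tr1 (ws plk)) (tr2 finj) surg

theorem msp' : MSP := msp plk (ldiv der inj) inj

theorem eff' : EFF := effX msp' di' is' lin' obe

theorem efk' : EFK := efkX eff' (can der) is' obe

theorem dex' : DEX := dex RR.rrBlock msp' deg rst efk' is' lin' (can der) obe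

end Main

open Main

variable {M : Type} [TopologicalSpace M] [ChartedSpace C2 M] [IsManifold 𝓘(ℂ, C2) 1 M]

/-- The divisors orthogonal to the boundary have nonnegative square. -/
theorem eout (h : D.BOC M) : EOUT M := eout_of ok emb eps' obe rst is' h

/-- The formula of Noether. -/
theorem nout [SimplyConnectedSpace M] (h : D.BOC M) : NOUT M :=
  nout_of RR.rrBlock ok emb eps' obe is' di' lin' eff' efk' dex' (exs lcon ext1 inj) (can der) span
    picn (nefk (Mp.cn1_of Mp.geo1 Mp.bdof)) h01 uni h11le (fun _ _ _ _ _ _ _ _ e o => sc_off e o) h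

end Vale.Agent.P253Y.An
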