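import Vale.Agent.P253Y.F.Fld
import Vale.Agent.P253Y.D.Main

/-!
# P253Y, blocks C, D, E: the statements `EO` and `NO`
-/

open scoped Manifold ContDiff Bundle
open Bundle MeasureTheory Vale.Agent.P253.Mfd
open Vale.Agent.P272.K (Cm)
open Vale.Agent.P253Z

namespace Vale.Agent.P253Y.An

variable {M : Type} [MetricSpace M] [ChartedSpace (Cm 2) M] [IsManifold 𝓘(ℂ, Cm 2) 1 M]
  [IsManifold 𝓘(ℝ, Cm 2) ∞ M] [RiemannianBundle fun x : M => TangentSpace 𝓘(ℝ, Cm 2) x]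
  [IsContMDiffRiemannianBundle 𝓘(ℝ, Cm 2) ∞ (Cm 2) fun x : M => TangentSpace 𝓘(ℝ, Cm 2) x]
  [IsRiemannianManifold 𝓘(ℝ, Cm 2) M] [CompleteSpace M] [ConnectedSpace M] [NoncompactSpace M]
  [MeasurableSpace M] [BorelSpace M] {μ : Measure M}

theorem eo_of (c : Ctx 2 μ) (h : D.BOC M → EOUT M) : EO μ := fun p F K _ _ ff S D pc => by
  obtain ⟨G, hO, -⟩ := P253Y.F.fld c p F K ff
  rw [← hO] at pc
  exact h (P253Y.D.boc c.kahler c.pos) K S D G pc

theorem no_of (c : Ctx 2 μ) (h : D.BOC M → NOUT M) : NO μ :=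
  fun p F K _ _ ff S D _ pc ot g pg n A hA => by
  obtain ⟨G, hO, -⟩ := P253Y.F.fld c p F K ff
  rw [← hO] at pc ot
  have := h (P253Y.D.boc c.kahler c.pos) K S D G pc ot (fun n hn => pg n (Nat.pos_of_ne_zero hn))
    g.chi_zero.ge n A hA
  omega

end Vale.Agent.P253Y.An
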