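import Vale.Agent.P253Y.An.Eps

/-! P253, surfaces, block C: the formula of Noether. -/

set_option linter.all false

open scoped Manifold ContDiff
open Filter Topology Set

noncomputable section

namespace Vale.Agent.P253Y.An

open Vale.Agent.P297Z Vale.Agent.P297Z.Sf
open Vale.Agent.P267 Vale.Agent.P267.FL
open Vale.Agent.P267.RR (isec IsCanon OX RRBlock)
open Vale.Agent.P267.BlockC (ALB ExactTwo Unimod)
open Frm

namespace Rank

variable {K : Type} [Field K] [Algebra ℂ K] {S : Surf K} [Ok S.W]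

theorem canon (h : CAN) (B : OB S.kap) : IsCanon B.A.L := by
  obtain ⟨σ, a, b⟩ := h K S B
  exact ⟨σ, ((RR.mem_H0 _ _ _).1 a).1.1, ((RR.mem_H0 _ _ _).1 a).1.2, b⟩

variable {N : Sf.Div S.W} (n1 : 0 ≤ N) (n2 : S.Nef N) (n3 : inter S.kap N < 0)
include n1 n2 n3

theorem bot (h1 : EFK) (B : OB N) (L : HL (Pt S.W)) (h : isec L.A.L B.A.L = 0) : L.H0 1 = ⊥ := by
  refine (Submodule.eq_bot_iff _).2 fun s hs => by_contra fun o => ?_
  have a := h1 K S L s hs o N B n1 n2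
  rw [h, Complex.zero_re, zero_add] at a
  exact n3.not_ge (by exact_mod_cast a)

theorem pg (h1 : EFK) (h2 : OBE) : H682.PgZero (Pt S.W) := by
  intro u a b
  obtain ⟨B⟩ := h2 K S N
  have c : (fun x => H682.up (u x)) ∈ (one (Pt S.W)).H0 1 :=
    H682.mem_H0_OX.2 ⟨H682.reg0_clm H682.up a, by
      funext x i
      rw [dbar0_clm H682.up ((a.at x).of_le (by simp)), b]
      simp⟩
  rw [bot n1 n2 n3 h1 B _ (isec_one _)] at c
  funext x
  exact congrArg H682.dw (congrFun c x)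

/-- A holomorphic bundle that is orthogonal to the divisors is trivial. -/
theorem ort (rr : RRBlock) (h1 : EFK) (h2 : OBE) (h3 : EFF) (h4 : EPS) (h5 : DEX) (h6 : DI)
    (h7 : CAN) {D : Finset (Crv S.W)} (hP : Psd {x | Res.Off D x})
    (hc : RR.chi (OX (Pt S.W)) 0 0 = 1) (L : HL (Pt S.W))
    (h : ∀ (G : Sf.Div S.W) (B : OB G), isec L.A.L B.A.L = 0) : ExactTwo L.A.L.curv := by
  obtain ⟨-, r2, r3, -⟩ := rr (Pt S.W)
  obtain ⟨BK⟩ := h2 K S S.kap
  obtain ⟨BN⟩ := h2 K S N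
  obtain ⟨BH⟩ := h2 K S S.H
  have a1 := h4 K S D hP L.A fun C _ => by
    obtain ⟨d, hd⟩ := h5 K S L C
    obtain ⟨B⟩ := h2 K S C.cl
    have := h6 K S C L.A d B hd
    rw [h] at this
    rwa [← (Int.cast_eq_zero (α := ℂ)).1 this.symm]
  have a2 := congrArg Complex.re (r3 _ _ L.A.L L.a BK.A.L L.hol (canon h7 BK))
  have a3 : RR.h2 L.A.L L.a 0 = 0 := by
    have := bot n1 n2 n3 h1 BN L.du (by
      change isec (du L.A).L _ = 0
      rw [isec_du, h, neg_zero])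
    rw [(r2 _ L.A.L L.a L.hol 0).2.2, sub_zero, RR.h0,
      show RR.H0 L.A.L.dual (-L.a) 1 = ⊥ from this, finrank_bot]
  rw [hc, h, sub_zero, RR.chi, a3] at a2
  have a4 : L.H0 0 ≠ ⊥ := fun o => by
    have : RR.h0 L.A.L L.a 0 = 0 := by
      rw [RR.h0, show RR.H0 L.A.L L.a 0 = ⊥ from o, finrank_bot]
    rw [this] at a2
    simp at a2
    linarith [Nat.cast_nonneg (α := ℝ) (RR.h1 L.A.L L.a 0)]
  obtain ⟨s, s1, s2⟩ := (Submodule.ne_bot_iff _).1 a4
  exact exact_of_sec ((RR.mem_H0 _ _ _).1 s1).1.1 ((RR.mem_H0 _ _ _).1 s1).1.2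
    ((h3 K S L s s1 s2).2 BH (h _ _))

omit n1 n2 n3 in
/-- The second Betti number is the rank of the group of the divisors. -/
theorem le (h1 : LIN) (h2 : OBE) (hol : ∀ L : ALB (Pt S.W), ∃ a, L.L.IsHol a)
    (ort : ∀ L : HL (Pt S.W), (∀ (G : Sf.Div S.W) (B : OB G), isec L.A.L B.A.L = 0) →
      ExactTwo L.A.L.curv) {b n : ℕ} (hU : Unimod (Pt S.W) b) (A : Fin n → Sf.Div S.W)
    (hA : ∀ X : Sf.Div S.W, ∃ m : ℤ, 0 < m ∧ ∃ (c : Fin n → ℤ) (g : K), g ≠ 0 ∧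
      m • X - ∑ i, c i • A i = div S.W g) : b ≤ n := by
  obtain ⟨E, G, u1, -, u3, u4, u5⟩ := hU
  have H := ff (Pt S.W)
  have B := fun j => (h2 K S (A j)).some
  choose k hk using fun j => u4 (B j).A
  by_contra o
  have a1 : ¬ LinearIndependent ℤ fun i j => ∑ l, k j l * G l i := fun e => by
    have := e.fintype_card_le_finrank
    simp at this
    exact o this
  obtain ⟨c, c1, i, c2⟩ := Fintype.not_linearIndependent_iff.1 a1
  obtain ⟨L, hL⟩ := u5 c
  obtain ⟨a, ha⟩ := hol L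
  obtain ⟨φ, p1, p2⟩ := h1 K S L
  have a2 : ∀ j, φ (A j) = 0 := fun j => by
    have := congrArg (Int.cast : ℤ → ℂ) (congrFun c1 j)
    rw [← p1 _ (B j), H.isec_of_exact_sub _ hL]
    simp only [isec_comm (E _) (B j).A, H.isec_of_exact_sub _ (hk j), u1]
    simpa using this
  have a3 := ort ⟨L, a, ha⟩ fun X B => by
    obtain ⟨m, m1, c, g, g1, g2⟩ := hA X
    have := p2 g g1
    rw [← g2, map_sub, map_sum, map_zsmul] at this
    simp only [map_zsmul, a2, smul_zero, Finset.sum_const_zero, sub_zero, smul_eq_zero] at this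
    exact (p1 X B).trans (this.resolve_left m1.ne')
  have a4 := (u3 _ (H.curv_smooth L) (H.curv_closed L)).unique hL (y₂ := 0) (by simpa using a3)
  exact c2 (Int.cast_eq_zero.1 (congrFun a4 i))

end Rank

variable {M : Type} [TopologicalSpace M] [ChartedSpace C2 M]

theorem nout_of [IsManifold 𝓘(ℂ, C2) 1 M] (rr : RRBlock) (oks : OKS) (emb : EMB) (eps : EPS)
    (obe : OBE) (is : ISEC) (di : DI) (lin : LIN) (eff : EFF) (efk : EFK) (dex : DEX) (exs : EXS)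
    (can : CAN) (span : SPAN) (picn : PICN) (nefk : NEFK) (h01 : H01) (uni : UNI) (h11 : H11)
    (sc : ForM M fun S D F => ∀ [Ok S.W] ι, Emb F D ι → Onto F D →
      SimplyConnectedSpace {x : Pt S.W | Res.Off D x})
    (h : D.BOC M) : NOUT M := by
  intro K _ _ S D F hP hO b1 b2 n A hA
  have := oks K S
  obtain ⟨ι, e⟩ := emb M K S D F hP
  obtain ⟨s1, s2⟩ := span K S n A hA
  obtain ⟨N, n1, n2, n3⟩ := nefk _ K S s1 b2 b1
  obtain ⟨r1, r2, r3, r4⟩ := rr (Pt S.W)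
  obtain ⟨B⟩ := obe K S S.kap
  have pg := Rank.pg n1 n2 n3 efk obe
  obtain ⟨q1, q2⟩ := h01 _ (exs K S D (sc K S D F ι e hO))
  have hc : RR.chi (OX (Pt S.W)) 0 0 = 1 := by
    rw [RR.chi, H682.h0_OX, H682.h2_OX r2 pg, q2]
    simp
  obtain ⟨b, hb⟩ := uni _ r1 r2 r3 pg ⟨B.A, Rank.canon can B⟩
  have a1 := h11 _ r1 r2 pg q1 q2 b hb
  have a2 := Rank.le lin obe (fun L => H682.exists_isHol r1 r2 pg L.L)
    (Rank.ort n1 n2 n3 rr efk obe eff eps dex di can (psd_of h e) hc) hb A fun X => by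
      obtain ⟨m, m1, c, m2⟩ := s2 X
      obtain ⟨g, g1, g2⟩ := picn K S b2 (b1 2 two_ne_zero) _ m2
      exact ⟨m, m1, c, g, g1, g2⟩
  have a3 := r4 _ B.A.L (Rank.canon can B)
  rw [is K S _ _ B B, hc] at a3
  have a4 : inter S.kap S.kap = 10 * 1 + RR.chiOm (Pt S.W) := by exact_mod_cast a3
  rw [RR.chiOm] at a4
  omega

end Vale.Agent.P253Y.An
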