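import Vale.Agent.P253Y.An.Defs

/-! P253, surfaces, blocks C and E: the statements. -/

set_option linter.all false

open scoped Manifold ContDiff
open Filter Topology Set IsLocalRing

noncomputable section

namespace Vale.Agent.P253Y.An

open Vale.Agent.P297Z Vale.Agent.P297Z.Sf
open Vale.Agent.P019P (CFF Plk dg)
open Vale.Agent.P267 Vale.Agent.P267.FL
open Vale.Agent.P267.RR (isec IsCanon OX FiniteStmt SerreStmt RRStmt h1 h11)
open Vale.Agent.P267.BlockC (ALB ExactTwo Unimod)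
open Vale.Agent.P267.H815 (HolN)
open Vale.Agent.P267.H451 (FrameAt)

/-! ### The output -/

/-- A statement on a surface `S`, finitely many curves `D` and a field of meromorphic functions
on the complex surface `M`. -/
def ForM (M : Type) [TopologicalSpace M] [ChartedSpace C2 M]
    (P : ∀ {K : Type} [Field K] [Algebra ℂ K] (S : Surf K), Finset (Crv S.W) → Fld M K → Prop) :
    Prop :=
  ∀ (K : Type) [Field K] [Algebra ℂ K] (S : Surf K) (D : Finset (Crv S.W)) (F : Fld M K), P S D F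

/-- The divisors orthogonal to the boundary have nonnegative square. -/
def EOUT (M : Type) [TopologicalSpace M] [ChartedSpace C2 M] : Prop :=
  ForM M fun S D F => Piece F D → ∀ G : Sf.Div S.W, (∀ C ∈ D, inter G C.cl = 0) → 0 ≤ inter G G

/-- The formula of Noether. -/
def NOUT (M : Type) [TopologicalSpace M] [ChartedSpace C2 M] : Prop :=
  ForM M fun S D F => Piece F D → Onto F D → (∀ n : ℕ, n ≠ 0 → H0 (n • S.kap) = ⊥) →
    1 ≤ chi (0 : Sf.Div S.W) → ∀ (n : ℕ) (A : Fin n → Sf.Div S.W),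
      (∀ X : Sf.Div S.W, (∀ i, inter X (A i) = 0) → Mp.Nz X) → 10 ≤ inter S.kap S.kap + n

/-! ### The topology and the charts -/

/-- The space of points is compact Hausdorff. -/
def T2C : Prop := ForAll fun S => T2Space (Pt S.W) ∧ CompactSpace (Pt S.W)

/-- Regular parameters are local coordinates. -/
def CH : Prop := ForAll fun S => Charts S.W

/-- The space of places is connected. -/
def PLK : Prop := ∀ (E : Type) [Field E] [Algebra ℂ E] [CFF ℂ E], ConnectedSpace (Plk ℂ E)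

/-- The identity principle. -/
def INJ : Prop := ForAll fun S => ∀ (x : Pt S.W), ∀ f ∈ x.ring, f ≠ 0 →
  ∃ᶠ y in 𝓝[≠] x, ev y f ≠ 0

/-- The normalisation is injective outside a finite set. -/
def FINJ : Prop := ForAll fun S => ∀ C : Crv S.W,
  {w | ∃ w', w' ≠ w ∧ S.pt C w' = S.pt C w}.Finite

/-- The derivatives of the rational functions. -/
def DER : Prop := ForAll fun {K} _ _ S => ∀ (x : Pt S.W) (s t : K) (d₁ d₂ : Derivation ℂ K K),
  Dual x s t d₁ d₂ → ∀ᶠ y in 𝓝 x, Dual y s t d₁ d₂ ∧ ∀ e, IsCh e s t → y ∈ e.source →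
    ∀ f ∈ y.ring, HasFDerivAt (fun z => ev (e.symm z) f)
      (ev y (d₁ f) • (ContinuousLinearMap.proj 0 : C2 →L[ℂ] ℂ) +
        ev y (d₂ f) • (ContinuousLinearMap.proj 1 : C2 →L[ℂ] ℂ)) (e y)

/-- The open embedding. -/
def EMB : Prop := ∀ (M : Type) [TopologicalSpace M] [ChartedSpace C2 M]
  [IsManifold 𝓘(ℂ, C2) 1 M], ForM M fun S D F => ∀ [Ok S.W], Piece F D → ∃ ι, Emb F D ι

/-- Division by the equation of a curve. -/
def LDIV : Prop := ForAll fun S => ∀ [Ok S.W] (x : Pt S.W) (C : Crv S.W), ∀ t ∈ x.ring,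
  GenAt x (-C.cl) t → ∀ f : Pt S.W → ℂ, HolN f x → (∀ᶠ y in 𝓝 x, y.On C → f y = 0) →
    ∃ g, HolN g x ∧ ∀ᶠ y in 𝓝 x, f y = ev y t * g y

/-! ### Algebra -/

/-- The intersection graph of the curves is connected. -/
def ORTH : Prop := ForAll fun S => ∀ A : Set (Crv S.W),
  (∀ C ∈ A, ∀ C', C' ∉ A → inter C.cl C'.cl = 0) → A = ∅ ∨ A = univ

/-- A family with trivial orthogonal spans. -/
def SPAN : Prop := ForAll fun S => ∀ (n : ℕ) (A : Fin n → Sf.Div S.W),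
  (∀ X : Sf.Div S.W, (∀ i, inter X (A i) = 0) → Mp.Nz X) → Mp.Dep S (n + 1) ∧
    ∀ X : Sf.Div S.W, ∃ m : ℤ, 0 < m ∧ ∃ c : Fin n → ℤ, Mp.Nz (m • X - ∑ i, c i • A i)

/-- Numerically trivial divisors are principal. -/
def PICN : Prop := ForAll fun {K} _ _ S => 1 ≤ chi (0 : Sf.Div S.W) → H0 (2 • S.kap) = ⊥ →
  ∀ X : Sf.Div S.W, Mp.Nz X → ∃ g : K, g ≠ 0 ∧ X = div S.W g

/-- The canonical class is negative on a nef divisor. -/
def NEFK : Prop := ∀ n : ℕ, ForAll fun S => Mp.Dep S n → 1 ≤ chi (0 : Sf.Div S.W) →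
  (∀ n : ℕ, n ≠ 0 → H0 (n • S.kap) = ⊥) →
  ∃ N : Sf.Div S.W, 0 ≤ N ∧ S.Nef N ∧ inter S.kap N < 0

/-- Two hyperplane sections that meet transversally. -/
def GENL : Prop := ForAll fun {K} _ _ S => ∃ l₁ ∈ H0 S.H, ∃ l₂ ∈ H0 S.H,
  ∃ (w : K) (T : Finset (Pt S.W)), l₁ ≠ 0 ∧ l₂ ≠ 0 ∧ (T.card : ℤ) = inter S.H S.H ∧
    (∀ x, ¬ GenAt x S.H l₁ → ¬ GenAt x S.H l₂ → x ∈ T) ∧
    ∀ x ∈ T, GenAt x S.H w ∧ ∃ s t : x.ring, (s : K) = l₁ / w ∧ (t : K) = l₂ / w ∧
      maximalIdeal x.ring = Ideal.span {s, t}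

/-! ### Compact complex surfaces -/

/-- A statement for all compact connected complex surfaces. -/
def ForX (P : ∀ (X : Type) [TopologicalSpace X] [T2Space X] [CompactSpace X] [ConnectedSpace X]
    [ChartedSpace C2 X] [IsManifold 𝓘(ℂ, C2) ω X], Prop) : Prop :=
  ∀ (X : Type) [TopologicalSpace X] [T2Space X] [CompactSpace X] [ConnectedSpace X]
    [ChartedSpace C2 X] [IsManifold 𝓘(ℂ, C2) ω X], P X

/-- A bundle that is trivial on `Z` is isomorphic to a bundle that is flat near `Z`. -/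
def SURG : Prop := ForX fun X _ _ _ _ _ _ => ∀ (L : ALB X) (Z : Set X), IsClosed Z →
  TrivOn L Z → ∃ L' : ALB X, ExactTwo (L'.L.curv - L.L.curv) ∧
    Disjoint (H332.supp2 L'.L.curv) Z

/-- The intersection number of two divisors that meet transversally. -/
def TRANSV : Prop := ForX fun X _ _ _ _ _ _ => ∀ (L L' : HL X), ∀ s ∈ L.H0 0, ∀ s' ∈ L'.H0 0,
  ∀ T : Finset X, Dense {x | s x ≠ 0} → Dense {x | s' x ≠ 0} →
  (∀ x, s x = 0 → s' x = 0 → x ∈ T) →
  (∀ p ∈ T, ∃ e ∈ atlas C2 X, p ∈ e.source ∧ e p = 0 ∧ ∃ v v', v p ≠ 0 ∧ v' p ≠ 0 ∧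
    ∀ᶠ y in 𝓝 p, L.SecAt v y ∧ L'.SecAt v' y ∧ s y = e y 0 • v y ∧ s' y = e y 1 • v' y) →
  isec L.A.L L'.A.L = T.card

/-- The zeros of a holomorphic function do not separate locally. -/
def LCON : Prop := ForX fun X _ _ _ _ _ _ => ∀ (h : X → ℂ) (x : X), HolN h x →
  (∃ᶠ y in 𝓝 x, h y ≠ 0) → ∀ V ∈ 𝓝 x, ∃ V' ∈ 𝓝 x, V' ⊆ V ∧ IsPreconnected (V' ∩ {y | h y ≠ 0})

/-- Closed one-forms are exact if a large open set is simply connected. -/
def EXT1 : Prop := ForX fun X _ _ _ _ _ _ => ∀ U : Set X, IsOpen U → Dense U →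
  SimplyConnectedSpace U → (∀ x, ∀ V ∈ 𝓝 x, ∃ V' ∈ 𝓝 x, V' ⊆ V ∧ IsPreconnected (V' ∩ U)) →
  Ex1 X

/-- The irregularity vanishes with the first Betti number. -/
def H01 : Prop := ForX fun X _ _ _ _ _ _ => Ex1 X → Db1 X ∧ h1 (OX X) 0 0 = 0

/-- Integral Poincare duality. -/
def UNI : Prop := ForX fun X _ _ _ _ _ _ => FiniteStmt X → SerreStmt X → RRStmt X →
  H682.PgZero X → (∃ K : ALB X, IsCanon K.L) → ∃ N, Unimod X N

/-- The bound for the Hodge number. -/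
def H11 : Prop := ForX fun X _ _ _ _ _ _ => FiniteStmt X → SerreStmt X → H682.PgZero X →
  Db1 X → h1 (OX X) 0 0 = 0 → ∀ N, Unimod X N → h11 X ≤ N

/-! ### The line bundles of the divisors -/

/-- Existence. -/
def OBE : Prop := ForAll fun S => ∀ [Ok S.W] (G : Sf.Div S.W), Nonempty (OB G)

/-- Additivity. -/
def OBI : Prop := ForAll fun S => ∀ [Ok S.W] (G G' : Sf.Div S.W) (B : OB G) (B' : OB G')
  (B'' : OB (G + G')), ExactTwo (B''.A.L.curv - (B.A.L.curv + B'.A.L.curv))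

/-- The canonical bundle. -/
def CAN : Prop := ForAll fun S => ∀ [Ok S.W] (B : OB S.kap), ∃ σ ∈ B.H0 (-1), ∀ x, σ x ≠ 0

/-- The degree of the surface. -/
def CAL : Prop := ForAll fun S => ∀ [Ok S.W] (B : OB S.H),
  isec B.A.L B.A.L = (inter S.H S.H : ℤ)

/-! ### Degrees on curves -/

/-- Divisors of degree zero have weak solutions. -/
def WS : Prop := ∀ (E : Type) [Field E] [Algebra ℂ E] [CFF ℂ E] (Δ : Plk ℂ E →₀ ℤ), dg Δ = 0 →
  ∃ f, Weak Δ f

/-- The degree is additive. -/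
def DEG : Prop := ForAll fun S => ∀ [Ok S.W] (C : Crv S.W) (L M : ALB (Pt S.W)) (d e : ℤ),
  (Deg C L d → Deg C M e → Deg C (ten L M) (d + e)) ∧
    (Deg C (ten L M) d → Deg C M e → Deg C L (d - e))

/-- Bundles of degree zero are trivial on the normalisation. -/
def TR1 : Prop := ForAll fun S => ∀ [Ok S.W] (C : Crv S.W) (L : ALB (Pt S.W)),
  Deg C L 0 → Triv C L

/-- Gluing of the sections. -/
def TR2 : Prop := ForAll fun S => ∀ [Ok S.W] (D : Finset (Crv S.W)) (L : ALB (Pt S.W)),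
  (∀ C ∈ D, Triv C L) → TrivOn L {x | ¬ Res.Off D x}

/-- The degree of the bundle of a divisor. -/
def RST : Prop := ForAll fun S => ∀ [Ok S.W] (C : Crv S.W) (G : Sf.Div S.W) (B : OB G),
  Deg C B.A (inter G C.cl)

/-- The degree of a bundle with a holomorphic section. -/
def MSP : Prop := ForAll fun S => ∀ [Ok S.W] (L : HL (Pt S.W)), ∀ s ∈ L.H0 0, s ≠ 0 →
  ∀ D : Finset (Crv S.W), ∃ Z : Sf.Div S.W, 0 ≤ Z ∧ Mp.On Z D ∧ ∀ (B : OB (-Z)), ∀ C ∈ D,
    ∃ d : ℤ, 0 ≤ d ∧ Deg C (ten L.A B.A) d ∧ (d = 0 → Z = 0 → ∀ x, x.On C → s x ≠ 0)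

end Vale.Agent.P253Y.An
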