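import Vale.Agent.P253Y.An.Sk

/-! P253, surfaces, blocks C and E: the statements of the second level. -/

set_option linter.all false

open scoped Manifold ContDiff
open Filter Topology Set IsLocalRing

noncomputable section

namespace Vale.Agent.P253Y.An

open Vale.Agent.P297Z Vale.Agent.P297Z.Sf
open Vale.Agent.P267 Vale.Agent.P267.FL
open Vale.Agent.P267.RR (isec IsCanon OX)
open Vale.Agent.P267.BlockC (ALB ExactTwo)

/-- The points form a compact complex surface. -/
def OKS : Prop := ForAll fun S => Ok S.W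

/-- The intersection number with the bundle of a divisor is additive. -/
def LIN : Prop := ForAll fun {K} _ _ S => ∀ [Ok S.W] (L : ALB (Pt S.W)),
  ∃ φ : Sf.Div S.W →+ ℂ, (∀ (G : Sf.Div S.W) (B : OB G), isec L.L B.A.L = φ G) ∧
    ∀ g : K, g ≠ 0 → φ (div S.W g) = 0

/-- The degree on a curve is an intersection number. -/
def DI : Prop := ForAll fun S => ∀ [Ok S.W] (C : Crv S.W) (L : ALB (Pt S.W)) (d : ℤ)
  (B : OB C.cl), Deg C L d → isec L.L B.A.L = d

/-- The two intersection numbers agree. -/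
def ISEC : Prop := ForAll fun S => ∀ [Ok S.W] (G G' : Sf.Div S.W) (B : OB G) (B' : OB G'),
  isec B.A.L B'.A.L = (inter G G' : ℤ)

/-- Bundles of degree zero on the boundary have nonnegative square. -/
def EPS : Prop := ForAll fun S => ∀ [Ok S.W] (D : Finset (Crv S.W)), Psd {x | Res.Off D x} →
  ∀ L : ALB (Pt S.W), (∀ C ∈ D, Deg C L 0) → 0 ≤ (isec L.L L.L).re

/-- Bundles with a section. -/
def EFF : Prop := ForAll fun S => ∀ [Ok S.W] (L : HL (Pt S.W)), ∀ s ∈ L.H0 0, s ≠ 0 →
  (∀ (A : Sf.Div S.W) (B : OB A), 0 ≤ A → S.Nef A → 0 ≤ (isec L.A.L B.A.L).re) ∧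
    ∀ B : OB S.H, isec L.A.L B.A.L = 0 → ∀ x, s x ≠ 0

/-- Bundles with a section after the twist by the canonical bundle. -/
def EFK : Prop := ForAll fun S => ∀ [Ok S.W] (L : HL (Pt S.W)), ∀ s ∈ L.H0 1, s ≠ 0 →
  ∀ (A : Sf.Div S.W) (B : OB A), 0 ≤ A → S.Nef A →
    0 ≤ (isec L.A.L B.A.L).re + (inter S.kap A : ℤ)

/-- Holomorphic bundles have a degree on every curve. -/
def DEX : Prop := ForAll fun S => ∀ [Ok S.W] (L : HL (Pt S.W)) (C : Crv S.W), ∃ d, Deg C L.A d

/-- The first Betti number vanishes. -/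
def EXS : Prop := ForAll fun S => ∀ [Ok S.W] (D : Finset (Crv S.W)),
  SimplyConnectedSpace {x : Pt S.W | Res.Off D x} → Ex1 (Pt S.W)

end Vale.Agent.P253Y.An
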