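import Vale.Agent.P253Y.An.Main
import Vale.Agent.P253Y.An.Out

/-!
# P253Y, blocks C, D, E: the statements `EO` and `NO` hold
-/

open scoped Manifold ContDiff Bundle
open Bundle MeasureTheory Vale.Agent.P253.Mfd
open Vale.Agent.P272.K (Cm)
open Vale.Agent.P253Z

namespace Vale.Agent.P253Y.An

variable {M : Type} [MetricSpace M] [ChartedSpace (Cm 2) M] [IsManifold 𝓘(ℂ, Cm 2) 1 M]
  [IsManifold 𝓘(ℝ, Cm 2) ∞ M] [RiemannianBundle fun x : M => TangentSpace 𝓘(ℝ, Cm 2) x]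
  [IsContMDiffRiemannianBundle 𝓘(ℝ, Cm 2) ∞ (Cm 2) fun x : M => TangentSpace 𝓘(ℝ, Cm 2) x]
  [IsRiemannianManifold 𝓘(ℝ, Cm 2) M] [CompleteSpace M] [ConnectedSpace M] [NoncompactSpace M]
  [MeasurableSpace M] [BorelSpace M] {μ : Measure M}

theorem eo (c : Ctx 2 μ) : EO μ := eo_of c eout

theorem no [SimplyConnectedSpace M] (c : Ctx 2 μ) : NO μ := no_of c nout

end Vale.Agent.P253Y.An
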